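import Vale.Agent.P281.H76.KodPull

/-! P281 (helper76): adjunction for the fibres of `f ∘ q`. -/

namespace Vale.Agent.P281.H76

open scoped Manifold ContDiff Topology ENNReal
open Set Filter Metric

set_option linter.all false

universe u

section Lin

variable {E E' E₀ W : Type} [NormedAddCommGroup E] [NormedSpace ℂ E]
  [NormedAddCommGroup E'] [NormedSpace ℂ E'] [NormedAddCommGroup E₀] [NormedSpace ℂ E₀]
  [NormedAddCommGroup W] [NormedSpace ℂ W]
  [FiniteDimensional ℂ E] [FiniteDimensional ℂ E'] [FiniteDimensional ℂ E₀]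
  [FiniteDimensional ℂ W]

/-- `(ξ, c) ↦ (P ξ, V ξ + c w)`. -/
noncomputable def MM (P : E →L[ℂ] E') (V : E →L[ℂ] W) (w : W) : (E × ℂ) →L[ℂ] (E' × W) :=
  (P.comp (ContinuousLinearMap.fst ℂ E ℂ)).prod (V.comp (ContinuousLinearMap.fst ℂ E ℂ) +
    (ContinuousLinearMap.snd ℂ E ℂ).smulRight w)

theorem MM_apply (P : E →L[ℂ] E') (V : E →L[ℂ] W) (w : W) (ξ : E) (c : ℂ) :
    MM P V w (ξ, c) = (P ξ, V ξ + c • w) := by
  simp [MM]

/-- `(η, w) ↦ (D ξ + σ η, c)` where `e₀ (ξ, c) = w`. -/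
noncomputable def AA (e₀ : (E₀ × ℂ) ≃L[ℂ] W) (D : E₀ →L[ℂ] E) (σ : E' →L[ℂ] E) :
    (E' × W) →L[ℂ] (E × ℂ) :=
  (ContinuousLinearMap.inl ℂ E ℂ).comp
    (D.comp ((ContinuousLinearMap.fst ℂ E₀ ℂ).comp ((e₀.symm : W →L[ℂ] (E₀ × ℂ)).comp
      (ContinuousLinearMap.snd ℂ E' W))) + σ.comp (ContinuousLinearMap.fst ℂ E' W)) +
  (ContinuousLinearMap.inr ℂ E ℂ).comp ((ContinuousLinearMap.snd ℂ E₀ ℂ).comp
    ((e₀.symm : W →L[ℂ] (E₀ × ℂ)).comp (ContinuousLinearMap.snd ℂ E' W)))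

theorem AA_apply (e₀ : (E₀ × ℂ) ≃L[ℂ] W) (D : E₀ →L[ℂ] E) (σ : E' →L[ℂ] E) (η : E') (w : W) :
    AA e₀ D σ (η, w) = (D (e₀.symm w).1 + σ η, (e₀.symm w).2) := by
  simp [AA]

theorem det_block (e : (E × ℂ) ≃L[ℂ] (E' × W)) (e₀ : (E₀ × ℂ) ≃L[ℂ] W) (P : E →L[ℂ] E')
    (V : E →L[ℂ] W) (D : E₀ →L[ℂ] E) (σ : E' →L[ℂ] E) (w₀ : W) (hPD : P.comp D = 0)
    (hdet : (P.comp σ).det ≠ 0) :
    ((((V.comp D).comp (ContinuousLinearMap.fst ℂ E₀ ℂ) +
      (ContinuousLinearMap.snd ℂ E₀ ℂ).smulRight w₀) : (E₀ × ℂ) →L[ℂ] W).comp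
        (e₀.symm : W →L[ℂ] (E₀ × ℂ))).det * (P.comp σ).det =
    ((MM P V w₀).comp (e.symm : (E' × W) →L[ℂ] (E × ℂ))).det *
      ((e : (E × ℂ) →L[ℂ] (E' × W)).comp (AA e₀ D σ)).det := by
  set L : W →L[ℂ] W := (((V.comp D).comp (ContinuousLinearMap.fst ℂ E₀ ℂ) +
      (ContinuousLinearMap.snd ℂ E₀ ℂ).smulRight w₀) : (E₀ × ℂ) →L[ℂ] W).comp
        (e₀.symm : W →L[ℂ] (E₀ × ℂ)) with hL
  let Q : E' ≃L[ℂ] E' := (LinearMap.equivOfDetNeZero
    ((P.comp σ : E' →L[ℂ] E') : E' →ₗ[ℂ] E') hdet).toContinuousLinearEquiv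
  have hQ : ∀ η, Q η = P (σ η) := fun η => rfl
  let N : E' →L[ℂ] W := (V.comp σ).comp (Q.symm : E' →L[ℂ] E')
  let Sh : (E' × W) →L[ℂ] (E' × W) := (ContinuousLinearMap.fst ℂ E' W).prod
      (N.comp (ContinuousLinearMap.fst ℂ E' W) + ContinuousLinearMap.snd ℂ E' W)
  have hSh : Sh.det = 1 := det_shear N
  let PM : (E' × W) →L[ℂ] (E' × W) := ((P.comp σ).comp (ContinuousLinearMap.fst ℂ E' W)).prod
    (L.comp (ContinuousLinearMap.snd ℂ E' W))
  have hPM : PM.det = (P.comp σ).det * L.det := by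
    have : PM.det = LinearMap.det (LinearMap.prodMap
      ((P.comp σ : E' →L[ℂ] E') : E' →ₗ[ℂ] E') ((L : W →L[ℂ] W) : W →ₗ[ℂ] W)) := rfl
    rw [this, LinearMap.det_prodMap]
  have hT : Sh.comp PM = ((MM P V w₀).comp (e.symm : (E' × W) →L[ℂ] (E × ℂ))).comp
      ((e : (E × ℂ) →L[ℂ] (E' × W)).comp (AA e₀ D σ)) := by
    refine ContinuousLinearMap.ext fun p => ?_
    obtain ⟨η, w⟩ := p
    have h1 : ∀ ζ : E₀, P (D ζ) = 0 := fun ζ => congrArg (fun A : E₀ →L[ℂ] E' => A ζ) hPD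
    have h2 : (((MM P V w₀).comp (e.symm : (E' × W) →L[ℂ] (E × ℂ))).comp
      ((e : (E × ℂ) →L[ℂ] (E' × W)).comp (AA e₀ D σ))) (η, w) = MM P V w₀ (AA e₀ D σ (η, w)) := by
      simp only [ContinuousLinearMap.comp_apply, ContinuousLinearEquiv.coe_coe,
        ContinuousLinearEquiv.symm_apply_apply]
    have h3 : (Sh.comp PM) (η, w) = (P (σ η), N (P (σ η)) + L w) := rfl
    have h4 : N (P (σ η)) = V (σ η) := by
      show V (σ (Q.symm (P (σ η)))) = V (σ η)
      rw [← hQ, Q.symm_apply_apply]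
    have h5 : L w = V (D (e₀.symm w).1) + (e₀.symm w).2 • w₀ := by
      rw [hL]
      simp
    rw [h2, h3, AA_apply, MM_apply, h4, h5]
    simp only [map_add, h1, zero_add]
    congr 1
    abel
  rw [← clm_det_comp, ← hT, clm_det_comp, hSh, hPM, one_mul, mul_comm]

theorem AA_det_ne (e : (E × ℂ) ≃L[ℂ] (E' × W)) (e₀ : (E₀ × ℂ) ≃L[ℂ] W) (P : E →L[ℂ] E')
    (D : E₀ →L[ℂ] E) (σ : E' →L[ℂ] E) (hPD : P.comp D = 0)
    (hPσ : P.comp σ = ContinuousLinearMap.id ℂ E') (hD : Function.Injective D) :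
    ((e : (E × ℂ) →L[ℂ] (E' × W)).comp (AA e₀ D σ)).det ≠ 0 := by
  have hinj : Function.Injective ((e : (E × ℂ) →L[ℂ] (E' × W)).comp (AA e₀ D σ)) := by
    rw [injective_iff_map_eq_zero]
    rintro ⟨η, w⟩ h
    have h1 : AA e₀ D σ (η, w) = 0 := e.injective (by
      rw [map_zero]; exact h)
    rw [AA_apply, Prod.mk_eq_zero] at h1
    obtain ⟨h2, h3⟩ := h1
    have h4 : P (D (e₀.symm w).1 + σ η) = 0 := by rw [h2, map_zero]
    have h5 : P (D (e₀.symm w).1) = 0 := congrArg (fun A : E₀ →L[ℂ] E' => A _) hPD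
    have h6 : P (σ η) = η := congrArg (fun A : E' →L[ℂ] E' => A η) hPσ
    rw [map_add, h5, h6, zero_add] at h4
    rw [h4, map_zero, add_zero] at h2
    have h7 : (e₀.symm w).1 = 0 := hD (by rw [h2, map_zero])
    have h8 : e₀.symm w = 0 := Prod.ext h7 h3
    have h9 : w = 0 := e₀.symm.injective (by rw [h8, map_zero])
    rw [h4, h9]; rfl
  intro h0
  have hb : LinearMap.ker (((e : (E × ℂ) →L[ℂ] (E' × W)).comp (AA e₀ D σ) :
      (E' × W) →L[ℂ] (E' × W)) : (E' × W) →ₗ[ℂ] (E' × W)) = ⊥ := LinearMap.ker_eq_bot.2 hinj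
  have := (LinearMap.bot_lt_ker_of_det_eq_zero h0)
  rw [hb] at this
  exact lt_irrefl _ this

end Lin

section Adj

variable {E E' E₀ W : Type} [NormedAddCommGroup E] [NormedSpace ℂ E]
  [NormedAddCommGroup E'] [NormedSpace ℂ E'] [NormedAddCommGroup E₀] [NormedSpace ℂ E₀]
  [NormedAddCommGroup W] [NormedSpace ℂ W]
  [FiniteDimensional ℂ E] [FiniteDimensional ℂ E'] [FiniteDimensional ℂ E₀]
  [FiniteDimensional ℂ W]
variable {X X' Y F : Type u} [TopologicalSpace X] [ChartedSpace E X] [IsManifold 𝓘(ℂ, E) ω X]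
  [TopologicalSpace X'] [ChartedSpace E X'] [IsManifold 𝓘(ℂ, E) ω X']
  [TopologicalSpace Y] [ChartedSpace E' Y] [IsManifold 𝓘(ℂ, E') ω Y]
  [TopologicalSpace F] [ChartedSpace E₀ F] [IsManifold 𝓘(ℂ, E₀) ω F]

/-- **adjunction**: the Jacobian of the homogeneous coordinates on the fibre of `f ∘ q`. -/
theorem adj (e : (E × ℂ) ≃L[ℂ] (E' × W)) (e₀ : (E₀ × ℂ) ≃L[ℂ] W) {f : X → Y} {q : X' → X}
    {i : F → X'} {v : X → W} {b : X' → ℂ} {p₀ : F}
    (hf : ∀ x, HolM E E' f x) (hq : ∀ x, HolM E E q x) (hi : ∀ p, HolM E₀ E i p)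
    (hv : HolV E v (q (i p₀))) (hJ : J e f v (q (i p₀)) ≠ 0)
    (hb : HolV E b (i p₀))
    (hbe : ∀ᶠ z in 𝓝 (i p₀), jac E (fun w => chartAt E (q (i p₀)) (q w)) z =
      b z * jac E (chartAt E (i p₀)) z)
    (hfi : ∀ p, f (q (i p)) = f (q (i p₀)))
    (hsub : Function.Surjective ((dM E E' f (q (i p₀))).comp (dM E E q (i p₀))))
    (himm : Function.Injective (dM E₀ E i p₀)) :
    ∃ η : F → ℂ, HolV E₀ η p₀ ∧ η p₀ ≠ 0 ∧ ∀ᶠ p in 𝓝 p₀,
      J0 e₀ (fun p => v (q (i p))) p = η p * b (i p) * jac E₀ (chartAt E₀ p₀) p := by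
  set x' := i p₀ with hx'
  set ψ' := chartAt E x' with hψ'
  set ψ := chartAt E (q x') with hψ
  set ψY := chartAt E' (f (q x')) with hψY
  set ψ₀ := chartAt E₀ p₀ with hψ₀
  have hs' : x' ∈ ψ'.source := mem_chart_source E x'
  have hs₀ : p₀ ∈ ψ₀.source := mem_chart_source E₀ p₀
  let G : X' → E' := fun z => ψY (f (q z))
  have hfq : HolV E (fun x => ψY (f x)) (q x') :=
    HolV.comp (h := (ψY : Y → E')) (HolV.chart (mem_chart_source E' (f (q x')))) (hf (q x'))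
  have hG : HolV E G x' := HolV.comp (h := fun x => ψY (f x)) hfq (hq x')
  let vq : X' → W := fun z => v (q z)
  have hvq : HolV E vq x' := HolV.comp (h := v) hv (hq x')
  let ii : F → E := fun p => ψ' (i p)
  have hii : HolV E₀ ii p₀ := HolV.comp (h := (ψ' : X' → E)) (HolV.chart hs') (hi p₀)
  let P : F → (E →L[ℂ] E') := fun p => fderiv ℂ (G ∘ ψ'.symm) (ψ' (i p))
  let V : F → (E →L[ℂ] W) := fun p => fderiv ℂ (vq ∘ ψ'.symm) (ψ' (i p))
  let D : F → (E₀ →L[ℂ] E) := fun p => fderiv ℂ (ii ∘ ψ₀.symm) (ψ₀ p)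
  have hP : HolV E₀ P p₀ := by
    have h1 : ContDiffAt ℂ ω (fderiv ℂ (G ∘ ψ'.symm)) (ψ' x') := (hG.rep hs').fderiv_right (by simp)
    exact HolV.comp_contDiff (G := fderiv ℂ (G ∘ ψ'.symm)) (v := ii) h1 hii
  have hD : HolV E₀ D p₀ := by
    have h1 : ContDiffAt ℂ ω (fderiv ℂ (ii ∘ ψ₀.symm)) (ψ₀ p₀) :=
      (hii.rep hs₀).fderiv_right (by simp)
    exact HolV.comp_contDiff (G := fderiv ℂ (ii ∘ ψ₀.symm)) (v := (ψ₀ : F → E₀)) h1
      (HolV.chart hs₀)
  -- chain rules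
  have hic : ContinuousAt i p₀ := (hi p₀).continuousAt
  have hqc : ContinuousAt q x' := (hq x').continuousAt
  have evG : ∀ᶠ z in 𝓝 x', dV E G z = (fderiv ℂ (G ∘ ψ'.symm) (ψ' z)).comp
      (dV E (ψ' : X' → E) z) := by
    filter_upwards [hG.eventually, ψ'.open_source.mem_nhds hs'] with z h1 h2
    exact dV_eq_chart h2 h1
  have evv : ∀ᶠ z in 𝓝 x', dV E vq z = (fderiv ℂ (vq ∘ ψ'.symm) (ψ' z)).comp
      (dV E (ψ' : X' → E) z) := by
    filter_upwards [hvq.eventually, ψ'.open_source.mem_nhds hs'] with z h1 h2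
    exact dV_eq_chart h2 h1
  have evG2 : ∀ᶠ z in 𝓝 x', dV E G z = ((dV E' (ψY : Y → E') (f (q z))).comp
      (dM E E' f (q z))).comp (dM E E q z) := by
    have h0 : ∀ᶠ z in 𝓝 x', f (q z) ∈ ψY.source :=
      (ContinuousAt.comp (hf (q x')).continuousAt hqc).eventually
        (ψY.open_source.mem_nhds (mem_chart_source E' (f (q x'))))
    filter_upwards [h0] with z h1
    have h2 : dV E G z = (dV E (fun x => ψY (f x)) (q z)).comp (dM E E q z) :=
      dV_comp (h := fun x => ψY (f x)) (HolV.comp (h := (ψY : Y → E')) (HolV.chart h1)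
        (hf (q z))) (hq z)
    rw [h2, dV_comp (h := (ψY : Y → E')) (HolV.chart h1) (hf (q z))]
  have evv2 : ∀ᶠ z in 𝓝 x', dV E vq z = (dV E v (q z)).comp (dM E E q z) := by
    filter_upwards [hqc.eventually hv.eventually] with z h1
    exact dV_comp (h := v) h1 (hq z)
  have evi : ∀ᶠ p in 𝓝 p₀, (dV E (ψ' : X' → E) (i p)).comp (dM E₀ E i p) =
      (D p).comp (dV E₀ (ψ₀ : F → E₀) p) := by
    filter_upwards [hii.eventually, ψ₀.open_source.mem_nhds hs₀,
      hic.eventually (ψ'.open_source.mem_nhds hs')] with p h1 h2 h3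
    have h4 : dV E₀ ii p = (dV E (ψ' : X' → E) (i p)).comp (dM E₀ E i p) :=
      dV_comp (h := (ψ' : X' → E)) (HolV.chart h3) (hi p)
    have h5 : dV E₀ ii p = (fderiv ℂ (ii ∘ ψ₀.symm) (ψ₀ p)).comp (dV E₀ (ψ₀ : F → E₀) p) :=
      dV_eq_chart h2 h1
    rw [← h4, h5]
  -- `P D = 0`
  have hPD : ∀ᶠ p in 𝓝 p₀, (P p).comp (D p) = 0 := by
    filter_upwards [evi, hic.eventually evG, hic.eventually hG.eventually,
      ψ₀.open_source.mem_nhds hs₀] with p h1 h2 h3 h4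
    have h5 : dV E₀ (fun p => G (i p)) p = (dV E G (i p)).comp (dM E₀ E i p) :=
      dV_comp (h := G) h3 (hi p)
    have h6 : (fun p => G (i p)) = fun _ => ψY (f (q x')) := by
      funext p'
      show ψY (f (q (i p'))) = _
      rw [hfi p']
    have h7 : dV E₀ (fun p => G (i p)) p = 0 := by
      rw [h6]; unfold dV; rw [mfderiv_const]; rfl
    refine ContinuousLinearMap.ext fun ζ => ?_
    obtain ⟨ξ, rfl⟩ := chart_surj (E := E₀) h4 ζ
    have h8 : (P p) ((D p) (dV E₀ (ψ₀ : F → E₀) p ξ)) =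
        (P p) ((dV E (ψ' : X' → E) (i p)) (dM E₀ E i p ξ)) :=
      congrArg (P p) (congrArg (fun A : E₀ →L[ℂ] E => A ξ) h1).symm
    have h9 : (P p) ((dV E (ψ' : X' → E) (i p)) (dM E₀ E i p ξ)) =
        dV E G (i p) (dM E₀ E i p ξ) :=
      (congrArg (fun A : E →L[ℂ] E' => A (dM E₀ E i p ξ)) h2).symm
    have h10 : dV E G (i p) (dM E₀ E i p ξ) = 0 := by
      have := congrArg (fun A : E₀ →L[ℂ] E' => A ξ) h5
      simp only [ContinuousLinearMap.comp_apply] at this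
      rw [← this, h7]; rfl
    show (P p) ((D p) (dV E₀ (ψ₀ : F → E₀) p ξ)) = 0
    rw [h8, h9, h10]
  -- the right inverse
  have hPsurj : Function.Surjective (P p₀) := by
    have h1 := evG.self_of_nhds
    rw [evG2.self_of_nhds] at h1
    intro w
    obtain ⟨w', hw'⟩ := chart_surj (E := E') (mem_chart_source E' (f (q x'))) w
    obtain ⟨ξ, hξ⟩ := hsub w'
    refine ⟨dV E (ψ' : X' → E) x' ξ, ?_⟩
    have h2 := congrArg (fun A : E →L[ℂ] E' => A ξ) h1
    have h3 : (P p₀) (dV E (ψ' : X' → E) x' ξ) =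
        dV E' (ψY : Y → E') (f (q x')) (((dM E E' f (q x')).comp (dM E E q x')) ξ) := h2.symm
    rw [h3]
    have h4 : ((dM E E' f (q x')).comp (dM E E q x')) ξ = w' := hξ
    rw [h4]
    exact hw'
  obtain ⟨σ₁, hσ₁⟩ := LinearMap.exists_rightInverse_of_surjective
    ((P p₀ : E →L[ℂ] E') : E →ₗ[ℂ] E') (LinearMap.range_eq_top.2 hPsurj)
  let σ : E' →L[ℂ] E := LinearMap.toContinuousLinearMap σ₁
  have hσ : (P p₀).comp σ = ContinuousLinearMap.id ℂ E' := by
    refine ContinuousLinearMap.ext fun w => ?_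
    exact congrArg (fun A : E' →ₗ[ℂ] E' => A w) hσ₁
  have hDinj : Function.Injective (D p₀) := by
    rw [injective_iff_map_eq_zero]
    intro ζ hζ
    obtain ⟨ξ, rfl⟩ := chart_surj (E := E₀) hs₀ ζ
    have h1 := congrArg (fun A : E₀ →L[ℂ] E => A ξ) evi.self_of_nhds
    simp only [ContinuousLinearMap.comp_apply] at h1
    rw [hζ] at h1
    have h2 : Function.Injective (dV E (ψ' : X' → E) x') :=
      LinearMap.injective_iff_surjective.2 (chart_surj (E := E) hs')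
    have h3 : dM E₀ E i p₀ ξ = 0 := h2 (by rw [map_zero]; exact h1)
    have h4 : ξ = 0 := himm (by rw [h3, map_zero])
    rw [h4, map_zero]
  -- the functions
  let α : F → ℂ := fun p => ((e : (E × ℂ) →L[ℂ] (E' × W)).comp (AA e₀ (D p) σ)).det
  let β : F → ℂ := fun p => ((P p).comp σ).det
  have hα : HolV E₀ α p₀ := by
    have h1 : ContDiff ℂ ω (fun D : E₀ →L[ℂ] E =>
        ((e : (E × ℂ) →L[ℂ] (E' × W)).comp (AA e₀ D σ)).det) := by
      refine contDiff_det.comp ?_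
      refine contDiff_const.clm_comp ?_
      unfold AA
      refine ContDiff.add (contDiff_const.clm_comp ?_) contDiff_const
      exact (contDiff_id.clm_comp contDiff_const).add contDiff_const
    exact HolV.comp_contDiff (G := fun D : E₀ →L[ℂ] E =>
        ((e : (E × ℂ) →L[ℂ] (E' × W)).comp (AA e₀ D σ)).det) h1.contDiffAt hD
  have hβ : HolV E₀ β p₀ := by
    have h1 : ContDiff ℂ ω (fun P : E →L[ℂ] E' => (P.comp σ).det) :=
      contDiff_det.comp (contDiff_id.clm_comp contDiff_const)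
    exact HolV.comp_contDiff (G := fun P : E →L[ℂ] E' => (P.comp σ).det) h1.contDiffAt hP
  have hα0 : α p₀ ≠ 0 := AA_det_ne e e₀ (P p₀) (D p₀) σ hPD.self_of_nhds hσ hDinj
  have hβ0 : β p₀ ≠ 0 := by
    show ((P p₀).comp σ).det ≠ 0
    rw [hσ]
    have : (ContinuousLinearMap.id ℂ E').det = 1 := by
      simp [ContinuousLinearMap.det]
    rw [this]; exact one_ne_zero
  obtain ⟨H₁, hH₁, hH₁e⟩ := J_local e (hf (q x')) hv
  have hH₁0 : H₁ (q x') ≠ 0 := by
    intro h0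
    have := hH₁e.self_of_nhds
    rw [h0, zero_mul] at this
    exact (mul_ne_zero (jac_chart_ne_zero (mem_chart_source E' (f (q x')))) hJ) this
  refine ⟨fun p => H₁ (q (i p)) * α p / β p, ?_, ?_, ?_⟩
  · refine HolV.div (HolV.mul ?_ hα) hβ hβ0
    exact HolV.comp (h := fun z => H₁ (q z)) (HolV.comp (h := H₁) hH₁ (hq x')) (hi p₀)
  · exact div_ne_zero (mul_ne_zero hH₁0 hα0) hβ0
  · have hqi : ContinuousAt (fun p => q (i p)) p₀ :=
      ContinuousAt.comp (g := q) (f := i) hqc hic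
    filter_upwards [evi, hic.eventually evG, hic.eventually evv, hic.eventually evG2,
      hic.eventually evv2, hPD, hβ.continuousAt.eventually_ne hβ0, hic.eventually hbe,
      hqi.eventually hH₁e, hic.eventually (jac_comp (hq x')),
      hic.eventually (jac_chart_ev (E := E) x'), hic.eventually hvq.eventually]
      with p g1 g2 g3 g4 g5 g6 g7 g8 g9 g10 g11 g12
    -- the block identity
    have key := det_block e e₀ (P p) (V p) (D p) σ (v (q (i p))) g6 g7
    -- `J0`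
    have hJ0 : J0 e₀ (fun p => v (q (i p))) p =
        ((((V p).comp (D p)).comp (ContinuousLinearMap.fst ℂ E₀ ℂ) +
          (ContinuousLinearMap.snd ℂ E₀ ℂ).smulRight (v (q (i p)))).comp
          (e₀.symm : W →L[ℂ] (E₀ × ℂ))).det * jac E₀ ψ₀ p := by
      let R : (E₀ × ℂ) →L[ℂ] (E₀ × ℂ) :=
        ((dV E₀ (ψ₀ : F → E₀) p).comp (ContinuousLinearMap.fst ℂ E₀ ℂ)).prod
          (ContinuousLinearMap.snd ℂ E₀ ℂ)
      have hR : R.det = jac E₀ ψ₀ p := by
        have : R.det = LinearMap.det (LinearMap.prodMap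
          ((dV E₀ (ψ₀ : F → E₀) p : E₀ →L[ℂ] E₀) : E₀ →ₗ[ℂ] E₀)
          (LinearMap.id : ℂ →ₗ[ℂ] ℂ)) := rfl
        rw [this, LinearMap.det_prodMap, LinearMap.det_id, mul_one]
        rfl
      rw [← hR, ← det_conj_e0]
      unfold J0
      congr 2
      refine ContinuousLinearMap.ext fun pr => ?_
      obtain ⟨ξ, c⟩ := pr
      have hRa : R (ξ, c) = (dV E₀ (ψ₀ : F → E₀) p ξ, c) := rfl
      rw [ContinuousLinearMap.comp_apply, L0_apply, hRa]
      have h1 : dV E₀ (fun p => v (q (i p))) p = (dV E vq (i p)).comp (dM E₀ E i p) :=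
        dV_comp (h := vq) g12 (hi p)
      rw [h1, g3]
      have h2 := congrArg (fun A : E₀ →L[ℂ] E => A ξ) g1
      simp only [ContinuousLinearMap.comp_apply] at h2
      simp only [ContinuousLinearMap.comp_apply, add_apply,
        ContinuousLinearMap.smulRight_apply, ContinuousLinearMap.coe_fst',
        ContinuousLinearMap.coe_snd']
      rw [h2]
    -- `det (MM e⁻¹) = H₁ b`
    have hMM : ((MM (P p) (V p) (v (q (i p)))).comp (e.symm : (E' × W) →L[ℂ] (E × ℂ))).det =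
        H₁ (q (i p)) * b (i p) := by
      let S : (E' × W) →L[ℂ] (E' × W) :=
        ((dV E' (ψY : Y → E') (f (q (i p)))).comp (ContinuousLinearMap.fst ℂ E' W)).prod
          (ContinuousLinearMap.snd ℂ E' W)
      have hS : S.det = jac E' ψY (f (q (i p))) := by
        have : S.det = LinearMap.det (LinearMap.prodMap
          ((dV E' (ψY : Y → E') (f (q (i p))) : E' →L[ℂ] E') : E' →ₗ[ℂ] E')
          (LinearMap.id : W →ₗ[ℂ] W)) := rfl
        rw [this, LinearMap.det_prodMap, LinearMap.det_id, mul_one]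
        rfl
      let R : (E × ℂ) →L[ℂ] (E × ℂ) :=
        ((dV E (ψ' : X' → E) (i p)).comp (ContinuousLinearMap.fst ℂ E ℂ)).prod
          (ContinuousLinearMap.snd ℂ E ℂ)
      have hR : R.det = jac E ψ' (i p) := by
        have : R.det = LinearMap.det (LinearMap.prodMap
          ((dV E (ψ' : X' → E) (i p) : E →L[ℂ] E) : E →ₗ[ℂ] E)
          (LinearMap.id : ℂ →ₗ[ℂ] ℂ)) := rfl
        rw [this, LinearMap.det_prodMap, LinearMap.det_id, mul_one]
        rfl
      let Q : (E × ℂ) →L[ℂ] (E × ℂ) :=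
        ((dM E E q (i p)).comp (ContinuousLinearMap.fst ℂ E ℂ)).prod
          (ContinuousLinearMap.snd ℂ E ℂ)
      have hQ : Q.det = (dM E E q (i p)).det := by
        have : Q.det = LinearMap.det (LinearMap.prodMap
          ((dM E E q (i p) : E →L[ℂ] E) : E →ₗ[ℂ] E)
          (LinearMap.id : ℂ →ₗ[ℂ] ℂ)) := rfl
        rw [this, LinearMap.det_prodMap, LinearMap.det_id, mul_one]
      have hid : S.comp ((((Lmap (E := E) (E' := E') f v (q (i p))).comp Q)).comp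
          (e.symm : (E' × W) →L[ℂ] (E × ℂ))) =
          ((MM (P p) (V p) (v (q (i p)))).comp R).comp
            (e.symm : (E' × W) →L[ℂ] (E × ℂ)) := by
        rw [← ContinuousLinearMap.comp_assoc]
        congr 1
        refine ContinuousLinearMap.ext fun pr => ?_
        obtain ⟨ξ, c⟩ := pr
        have hRa : R (ξ, c) = (dV E (ψ' : X' → E) (i p) ξ, c) := rfl
        have hQa : Q (ξ, c) = (dM E E q (i p) ξ, c) := rfl
        have hSa : ∀ a b, S (a, b) = (dV E' (ψY : Y → E') (f (q (i p))) a, b) := fun a b => rfl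
        rw [ContinuousLinearMap.comp_apply, ContinuousLinearMap.comp_apply,
          ContinuousLinearMap.comp_apply, hQa, Lmap_apply, hSa, hRa, MM_apply]
        have h1 := congrArg (fun A : E →L[ℂ] E' => A ξ) (g2.symm.trans g4)
        have h2 := congrArg (fun A : E →L[ℂ] W => A ξ) (g3.symm.trans g5)
        simp only [ContinuousLinearMap.comp_apply] at h1 h2
        have h1' : (P p) (dV E (ψ' : X' → E) (i p) ξ) =
          dV E' (ψY : Y → E') (f (q (i p))) (dM E E' f (q (i p)) (dM E E q (i p) ξ)) := h1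
        have h2' : (V p) (dV E (ψ' : X' → E) (i p) ξ) = dV E v (q (i p)) (dM E E q (i p) ξ) := h2
        rw [h1', h2']
      have hd := congrArg ContinuousLinearMap.det hid
      rw [clm_det_comp, det_conj_e, det_conj_e, hS, hR, hQ] at hd
      have hd' : jac E' ψY (f (q (i p))) * (J e f v (q (i p)) * (dM E E q (i p)).det) =
        ((MM (P p) (V p) (v (q (i p)))).comp (e.symm : (E' × W) →L[ℂ] (E × ℂ))).det *
          jac E ψ' (i p) := hd
      refine mul_right_cancel₀ g11 ?_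
      rw [← hd', ← mul_assoc, g9]
      have g8' := g8
      rw [g10] at g8'
      calc H₁ (q (i p)) * jac E (chartAt E (q x')) (q (i p)) * (dM E E q (i p)).det
          = H₁ (q (i p)) * (jac E (chartAt E (q x')) (q (i p)) * (dM E E q (i p)).det) := by ring
        _ = H₁ (q (i p)) * (b (i p) * jac E ψ' (i p)) := by rw [g8']
        _ = H₁ (q (i p)) * b (i p) * jac E ψ' (i p) := by ring
    rw [hMM] at key
    rw [hJ0]
    have hβp : β p ≠ 0 := g7
    show _ = H₁ (q (i p)) * α p / β p * b (i p) * jac E₀ ψ₀ p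
    have key' : ((((V p).comp (D p)).comp (ContinuousLinearMap.fst ℂ E₀ ℂ) +
          (ContinuousLinearMap.snd ℂ E₀ ℂ).smulRight (v (q (i p)))).comp
          (e₀.symm : W →L[ℂ] (E₀ × ℂ))).det * β p = H₁ (q (i p)) * b (i p) * α p := key
    have h3 : ((((V p).comp (D p)).comp (ContinuousLinearMap.fst ℂ E₀ ℂ) +
          (ContinuousLinearMap.snd ℂ E₀ ℂ).smulRight (v (q (i p)))).comp
          (e₀.symm : W →L[ℂ] (E₀ × ℂ))).det = H₁ (q (i p)) * b (i p) * α p / β p := by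
      rw [eq_div_iff hβp]; exact key'
    rw [h3]
    ring

end Adj

end Vale.Agent.P281.H76
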