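import Vale.Agent.P281.J

namespace Vale.Agent.P281.H76

open scoped Manifold ContDiff Topology
open Vale.Agent.P281.J

universe u

/-- `K_{X'} + Δ' = q^* (K_X + Δ) + R` with `R ≥ 0` and `R = 0` near the points of `S`, for
`q : X' → X` holomorphic: for some `m > 0` with `k' = m Δ'`, `k = m Δ` integral, near each `x'`, if
`g'_D`, `g_D` are local equations of the components of `Δ'`, `Δ` and `b` is the Jacobian of `q` in
the charts at `x'`, `q x'` (`q^* (dx_1 ∧ ... ∧ dx_n) = b dx'_1 ∧ ... ∧ dx'_n`), then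
`b ^ m * ∏ g'_D ^ k'(D) = u * ∏ (g_D ∘ q) ^ k(D)` with `u` holomorphic (an equation of `m R`). -/
def IsLogMap (E : Type) [NormedAddCommGroup E] [NormedSpace ℂ E] {X X' : Type u}
    [TopologicalSpace X] [ChartedSpace E X] [TopologicalSpace X'] [ChartedSpace E X'] (q : X' → X)
    (Δ' : Set X' → ℝ) (Δ : Set X → ℝ) (S : Set X') : Prop :=
  ∃ (m : ℕ) (k' : Set X' → ℕ) (k : Set X → ℕ), 0 < m ∧ (∀ D, k' D = m * Δ' D) ∧
    (∀ D, k D = m * Δ D) ∧ ∀ x', ∃ (T' : Finset (Set X')) (g' : Set X' → X' → ℂ)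
      (T : Finset (Set X)) (g : Set X → X → ℂ) (b u : X' → ℂ),
      (∀ D, k' D ≠ 0 → D ∈ T') ∧ (∀ D ∈ T', IsLocalEq E D (g' D) x') ∧
      (∀ D, k D ≠ 0 → D ∈ T) ∧ (∀ D ∈ T, IsLocalEq E D (g D) (q x')) ∧
      HolAt E b x' ∧ HolAt E u x' ∧ (x' ∈ S → u x' ≠ 0) ∧
      ∀ᶠ z in 𝓝 x', ContinuousLinearMap.det (mfderiv 𝓘(ℂ, E) 𝓘(ℂ, E)
          (fun w => chartAt E (q x') (q w)) z : E →L[ℂ] E) =
        b z * ContinuousLinearMap.det (mfderiv 𝓘(ℂ, E) 𝓘(ℂ, E) (chartAt E x') z : E →L[ℂ] E) ∧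
        b z ^ m * ∏ D ∈ T', g' D z ^ k' D = u z * ∏ D ∈ T, g D (q z) ^ k D

end Vale.Agent.P281.H76
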