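import Vale.Agent.P281.J

namespace Vale.Agent.P281.H76

open Vale.Agent.P281.J

universe u

/-- `∑ Δ(D) D` is a rational boundary: finitely many prime divisors, rational coefficients in
`[0, 1]`; arbitrary singularities. -/
def IsBoundary (E : Type) [NormedAddCommGroup E] [NormedSpace ℂ E] {X : Type u}
    [TopologicalSpace X] [ChartedSpace E X] (Δ : Set X → ℝ) : Prop :=
  {D | Δ D ≠ 0}.Finite ∧ (∀ D, Δ D ≠ 0 → IsPrime E D) ∧ ∀ D, ∃ q : ℚ, Δ D = q ∧ 0 ≤ q ∧ q ≤ 1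

end Vale.Agent.P281.H76
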