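import Vale.Agent.P281.H76.Glob
import Vale.Agent.P281.H76.Def
import Vale.Agent.P281.H76.Def2

/-! P281 (helper76): Campana's inequality for log maps to projective bundles, with arbitrary
boundary on the bundle. -/

namespace Vale.Agent.P281.H76.S

open scoped Manifold ContDiff Topology ENNReal
open Set Filter Metric

set_option linter.all false

universe u

section Cov

variable {E E' : Type} [NormedAddCommGroup E] [NormedSpace ℂ E]
  [NormedAddCommGroup E'] [NormedSpace ℂ E']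
  [FiniteDimensional ℂ E] [FiniteDimensional ℂ E']

theorem hasCov_zero_lc {X Y : Type u} [TopologicalSpace X] [ChartedSpace E X]
    [IsManifold 𝓘(ℂ, E) ω X]
    [TopologicalSpace Y] [ChartedSpace E' Y] [IsManifold 𝓘(ℂ, E') ω Y] {f : X → Y} {r : ℕ}
    {B : ProjectiveBundle E E' f r} {Δ : Set X → ℝ} (hf : Continuous f)
    (hΔ : IsBdry E Δ) {fd : FormData B {D | Δ D ≠ 0}}
    {H : Finset (Set X)} {y : Y} {a : B.ι} (ha : y ∈ B.U a) 
    (htr : GIT.L.LcForm (fun i : H => Δ i) (fd.P H a y))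
    (hsum : ∑ D ∈ H, (fd.deg D : ℝ) * Δ D = r + 1) : HasCov B Δ fd H univ 0 := by
  classical
  obtain ⟨m, hm, K, hK, hKm⟩ := exists_denominator hΔ
  have hnat : (r + 1) * m + 0 = ∑ i : H, fd.deg i * K i := by
    have h1 : (((r + 1) * m + 0 : ℕ) : ℝ) = ((∑ i : H, fd.deg i * K i : ℕ) : ℝ) := by
      push_cast
      have h2 : ∑ i : H, (fd.deg i : ℝ) * (K i : ℝ) = m * ∑ D ∈ H, (fd.deg D : ℝ) * Δ D := by
        rw [Finset.mul_sum, ← Finset.sum_coe_sort H]
        exact Finset.sum_congr rfl fun i _ => by rw [hK]; ring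
      rw [h2, hsum]
      ring
    exact_mod_cast h1
  have hv : (Pi.single 0 1 : Fin (r + 1) → ℂ) ≠ 0 := by
    intro h
    have := congrFun h 0
    simp at this
  obtain ⟨j, hj, A, hA⟩ := GIT.L.exists_covariant (K := fun i : H => K i) (N := 0) (m := m)
    (fd.P H a y) htr (Pi.single 0 1) hv hm (fun i => hK i) hnat
  obtain ⟨v, hvl, hvx⟩ := exists_lift_value (B := B) hf ha hv
  have hfx : f (B.π a y (Pi.single 0 1)) = y := (B.triv a).proj y ha _ hv
  refine ⟨j * m, j * 0, fun i => j * K i, fun _ => A, A.C, Nat.mul_pos hj hm, ?_, ?_, ?_, A.hol, ?_,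
    ⟨B.π a y (Pi.single 0 1), a, v, ?_, hvl, ?_⟩, ?_⟩
  · calc (r + 1) * (j * m) + j * 0 = j * ((r + 1) * m + 0) := by ring
      _ = ∑ i : H, fd.deg i * (j * K i) := by
        rw [hnat, Finset.mul_sum]
        exact Finset.sum_congr rfl fun i _ => by ring
  · intro D
    exact ⟨j * K D, by push_cast; rw [hK]; ring⟩
  · intro i
    push_cast
    rw [hK]
    ring
  · intro p p' c g w lam _ hg hc hlam h
    rw [A.law p p' c g w (mem_univ _) hg hc h, A.homog]
    constructor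
    · intro h1
      exact mul_ne_zero (pow_ne_zero _ hlam) (right_ne_zero_of_mul h1)
    · intro h1
      exact mul_ne_zero (mul_ne_zero (pow_ne_zero _ hg)
        (Finset.prod_ne_zero_iff.2 fun i _ => pow_ne_zero _ (hc i))) (right_ne_zero_of_mul h1)
  · rw [hfx]; exact ha
  · rw [hfx, hvx]; exact hA
  · intro p w hne
    exact ⟨hne, linearIndependent_empty_type⟩

theorem hasCov_pos_lc {X Y : Type u} [TopologicalSpace X] [ChartedSpace E X]
    [IsManifold 𝓘(ℂ, E) ω X]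
    [TopologicalSpace Y] [ChartedSpace E' Y] [IsManifold 𝓘(ℂ, E') ω Y] {f : X → Y} {r : ℕ}
    {B : ProjectiveBundle E E' f r} {Δ : Set X → ℝ} (hf : Continuous f)
    (hΔ : IsBdry E Δ) {fd : FormData B {D | Δ D ≠ 0}}
    {H : Finset (Set X)} {y : Y} {a : B.ι} (ha : y ∈ B.U a) 
    (htr : GIT.L.LcForm (fun i : H => Δ i) (fd.P H a y))
    (hr : 0 < r)
    (hsum : (r + 1 : ℝ) < ∑ D ∈ H, (fd.deg D : ℝ) * Δ D) : HasCov B Δ fd H univ r := by
  classical
  obtain ⟨m, hm, K, hK, hKm⟩ := exists_denominator hΔ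
  have hlt : (r + 1) * m < ∑ i : H, fd.deg i * K i := by
    have h1 : (((r + 1) * m : ℕ) : ℝ) < ((∑ i : H, fd.deg i * K i : ℕ) : ℝ) := by
      push_cast
      have h2 : ∑ i : H, (fd.deg i : ℝ) * (K i : ℝ) = m * ∑ D ∈ H, (fd.deg D : ℝ) * Δ D := by
        rw [Finset.mul_sum, ← Finset.sum_coe_sort H]
        exact Finset.sum_congr rfl fun i _ => by rw [hK]; ring
      rw [h2]
      have h3 : (0 : ℝ) < m := by exact_mod_cast hm
      nlinarith only [hsum, h3]
    exact_mod_cast h1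
  obtain ⟨N, hN⟩ := Nat.exists_eq_add_of_lt hlt
  obtain ⟨j, hj, A, w, hAw, hli⟩ := GIT.L.exists_system (K := fun i : H => K i) (N := N + 1) (m := m)
    (fd.P H a y) htr hm (fun i => hK i) (by rw [hN]; ring) (Nat.succ_pos _)
  have hθ : GIT.theta A (fd.P H a y) w ≠ 0 := (GIT.theta_ne A _ _).2 ⟨hAw 0, hli⟩
  have hw : w ≠ 0 := by
    rintro rfl
    have h1 := (A 0).homog (fd.P H a y) 0 0
    rw [zero_smul, zero_pow (Nat.mul_pos hj (Nat.succ_pos N)).ne', zero_mul] at h1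
    exact hAw 0 h1
  obtain ⟨v, hvl, hvx⟩ := exists_lift_value (B := B) hf ha hw
  have hfx : f (B.π a y w) = y := (B.triv a).proj y ha _ hw
  refine ⟨j * m, j * (N + 1), fun i => j * K i, A, GIT.theta A, Nat.mul_pos hj hm, ?_, ?_, ?_,
    GIT.theta_contDiff A, GIT.theta_invNe A,
    ⟨B.π a y w, a, v, ?_, hvl, ?_⟩, fun p v h => GIT.theta_ratio A p v h⟩
  · calc (r + 1) * (j * m) + j * (N + 1) = j * ((r + 1) * m + N + 1) := by ring
      _ = ∑ i : H, fd.deg i * (j * K i) := by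
        rw [← hN, Finset.mul_sum]
        exact Finset.sum_congr rfl fun i _ => by ring
  · intro D
    exact ⟨j * K D, by push_cast; rw [hK]; ring⟩
  · intro i
    push_cast
    rw [hK]
    ring
  · rw [hfx]; exact ha
  · rw [hfx, hvx]; exact hθ

end Cov

theorem bdry {E : Type} [NormedAddCommGroup E] [NormedSpace ℂ E] {X : Type u}
    [TopologicalSpace X] [ChartedSpace E X] {Δ : Set X → ℝ} (h : IsBoundary E Δ) :
    IsBdry E Δ where
  finite := h.1
  prime := h.2.1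
  rational := h.2.2

open Vale.Agent.P281.JB in
theorem main {E E' E₀ W : Type} [NormedAddCommGroup E] [NormedSpace ℂ E] [FiniteDimensional ℂ E]
    [NormedAddCommGroup E'] [NormedSpace ℂ E'] [FiniteDimensional ℂ E']
    [NormedAddCommGroup E₀] [NormedSpace ℂ E₀] [FiniteDimensional ℂ E₀]
    [NormedAddCommGroup W] [NormedSpace ℂ W] [FiniteDimensional ℂ W]
    {X Y X' F : Type u} [TopologicalSpace X] [ChartedSpace E X] [IsManifold 𝓘(ℂ, E) ω X]
    [CompactSpace X] [T2Space X] [ConnectedSpace X]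
    [TopologicalSpace Y] [ChartedSpace E' Y] [IsManifold 𝓘(ℂ, E') ω Y] [T2Space Y]
    [TopologicalSpace X'] [ChartedSpace E X'] [IsManifold 𝓘(ℂ, E) ω X']
    [CompactSpace X'] [ConnectedSpace X']
    [TopologicalSpace F] [ChartedSpace E₀ F] [IsManifold 𝓘(ℂ, E₀) ω F] [ConnectedSpace F]
    (hW : 1 < Module.finrank ℂ W)
    (hE : Module.finrank ℂ E + 1 = Module.finrank ℂ E' + Module.finrank ℂ W)
    (f : X → Y) (hf : ContMDiff 𝓘(ℂ, E) 𝓘(ℂ, E') ω f)
    {ι : Type u} (U : ι → Set Y) (π : ι → Y → W → X) (hB : J.IsBundle E E' f U π)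
    (Δ : Set X → ℝ) (hbd : IsBoundary E Δ)
    (hΔ : ∀ D, Δ D ≠ 0 → ∃ d : ℕ, ∀ a, ∃ p : Y → W → ℂ,
      (∀ y ∈ U a, ContDiff ℂ ω (p y) ∧ ∀ (c : ℂ) w, p y (c • w) = c ^ d * p y w) ∧
      ∀ x v, f x ∈ U a → J.IsLift E f (π a) v x → J.IsLocalEq E D (fun z => p (f z) (v z)) x)
    (q : X' → X) (hq : ContMDiff 𝓘(ℂ, E) 𝓘(ℂ, E) ω q) (hqs : Function.Surjective q)
    (Δ' : Set X' → ℝ) (hbd' : IsBoundary E Δ') (y : Y)
    (hlog : IsLogMap E q Δ' Δ ((f ∘ q) ⁻¹' {y}))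
    (htr : J.IsTransversal E E' (f ∘ q) Δ' y)
    (i : F → X') (hi : ContMDiff 𝓘(ℂ, E₀) 𝓘(ℂ, E) ω i)
    (hi₁ : Topology.IsEmbedding i) (hi₂ : Set.range i = (f ∘ q) ⁻¹' {y})
    (hi₃ : ∀ p, Function.Injective (mfderiv 𝓘(ℂ, E₀) 𝓘(ℂ, E) i p))
    (hd : Module.finrank ℂ E₀ + 1 = Module.finrank ℂ W)
    (hsub : ∀ p, Function.Surjective (mfderiv 𝓘(ℂ, E) 𝓘(ℂ, E') (f ∘ q) (i p)))
    (hgen : ∃ p, Function.Bijective (mfderiv 𝓘(ℂ, E) 𝓘(ℂ, E) q (i p))) :
    J.kod E₀ (fun (D : Set X') p g => ∃ e, J.IsLocalEq E D e (i p) ∧ ∀ᶠ q in 𝓝 p, g q = e (i q))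
        Δ' +
      J.kod E' (fun (G : Set Y) z g => J.IsLocalEq E' G g z) (J.orbBase E E' f Δ) ≤
      J.kod E (fun (D : Set X') z g => J.IsLocalEq E D g z) Δ' := by
  classical
  obtain ⟨r, hr⟩ := Nat.exists_eq_add_of_lt hW
  have hWr : Module.finrank ℂ W = (r + 1) + 1 := by omega
  have hfinW : Module.finrank ℂ W = Module.finrank ℂ (Fin ((r + 1) + 1) → ℂ) := by
    simp [hWr]
  let φ : W ≃L[ℂ] (Fin ((r + 1) + 1) → ℂ) := ContinuousLinearEquiv.ofFinrankEq hfinW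
  let B : ProjectiveBundle E E' f (r + 1) := bundle φ hB
  have hfib : ∀ y, IsConnected (f ⁻¹' {y}) := isConnected_fibre B
  have hsurj : Function.Surjective f := fun y => (hfib y).nonempty
  have : CompactSpace Y := hsurj.compactSpace hf.continuous
  have : ConnectedSpace Y := hsurj.connectedSpace hf.continuous
  have hbΔ : IsBdry E Δ := bdry hbd
  have hbΔ' : IsBdry E Δ' := bdry hbd'
  have hdim : Module.finrank ℂ E = Module.finrank ℂ E' + (r + 1) := by (clear * - hE hd hr; omega)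
  have hΔ' : ∀ D ∈ {D | Δ D ≠ 0}, ∃ d, B.IsRelHypersurface D d := fun D hD =>
    relHyp φ hB hf.continuous (hΔ D hD)
  obtain ⟨fd⟩ := exists_formData B {D | Δ D ≠ 0} hΔ'
  obtain ⟨a, ha⟩ := B.cover y
  have hfin : {D | Δ D ≠ 0}.Finite := hbΔ.finite
  set H : Finset (Set X) := hfin.toFinset.filter fun D => 0 < fd.deg D with hH
  have hH' : ∀ D, D ∈ H ↔ Δ D ≠ 0 ∧ 0 < fd.deg D := by
    intro D
    rw [hH, Finset.mem_filter, Set.Finite.mem_toFinset]
    rfl
  -- compactness of the fibre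
  have hclosed : IsClosed ((f ∘ q) ⁻¹' {y}) :=
    isClosed_singleton.preimage (hf.continuous.comp hq.continuous)
  have hcpt : CompactSpace F := by
    have hce : Topology.IsClosedEmbedding i := ⟨hi₁, by rw [hi₂]; exact hclosed⟩
    exact hce.compactSpace
  obtain ⟨m₀, k₀', k₀, hm₀, hk₀', hk₀, hcr⟩ := hlog
  have hdM : ∀ p, (dM E E' f (q (i p))).comp (dM E E q (i p)) =
      (mfderiv 𝓘(ℂ, E) 𝓘(ℂ, E') (f ∘ q) (i p) : E →L[ℂ] E') := by
    intro p
    have := mfderiv_comp (i p) ((hf (q (i p))).mdifferentiableAt (by simp))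
      ((hq (i p)).mdifferentiableAt (by simp))
    exact this.symm
  have hcr' : ∀ x', ∃ u : X' → ℂ, LogAt E q m₀ k₀' k₀ x' u ∧ (f (q x') = y → u x' ≠ 0) := by
    intro x'
    obtain ⟨T', g', T, g, b, u, h1, h2, h3, h4, h5, h6, h7, h8⟩ := hcr x'
    exact ⟨u, ⟨T', g', T, g, b, h1, h2, h3, h4, h5, h6, h8⟩, h7⟩
  have hsub' : ∀ p, Function.Surjective ((dM E E' f (q (i p))).comp (dM E E q (i p))) :=
    fun p => by rw [hdM]; exact hsub p
  have hfi : ∀ p, f (q (i p)) = y := by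
    intro p
    have : i p ∈ (f ∘ q) ⁻¹' {y} := by rw [← hi₂]; exact mem_range_self p
    exact this
  have hrng : ∀ x, f (q x) = y → ∃ p, i p = x := by
    intro x hx
    have : x ∈ range i := by rw [hi₂]; exact hx
    exact this
  have hdim0 : Module.finrank ℂ E₀ + Module.finrank ℂ E' = Module.finrank ℂ E := by
    (clear * - hE hd; omega)
  have hfinr : Module.finrank ℂ (E × ℂ) = Module.finrank ℂ (E' × (Fin ((r + 1) + 1) → ℂ)) := by
    simp only [Module.finrank_prod, hdim, Module.finrank_self, Module.finrank_fintype_fun_eq_card,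
      Fintype.card_fin]; ring
  let e : (E × ℂ) ≃L[ℂ] (E' × (Fin ((r + 1) + 1) → ℂ)) := ContinuousLinearEquiv.ofFinrankEq hfinr
  have hE₀ : Module.finrank ℂ E₀ = r + 1 := by omega
  have hfin0 : Module.finrank ℂ (E₀ × ℂ) = Module.finrank ℂ (Fin ((r + 1) + 1) → ℂ) := by
    simp [hE₀]
  let e₀ : (E₀ × ℂ) ≃L[ℂ] (Fin ((r + 1) + 1) → ℂ) := ContinuousLinearEquiv.ofFinrankEq hfin0
  have hlc : GIT.L.LcForm (fun i : H => Δ i) (fd.P H a y) :=
    lcForm_of_fibre hf hbΔ hbΔ' fd (fun D hD => ((hH' D).1 hD).1) hm₀ hk₀' hk₀ e e₀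
      (fun x => hq x) hqs (fun p => hi p) ha hfi hrng
      (fun p => by
        obtain ⟨u, hu, -⟩ := hcr' (i p)
        exact ⟨u, hu⟩) hsub' hi₃
      (fun p => trAt_of_transversal (fun x => hf x) (fun x => hq x) (fun p => hi p) hfi hdim0 htr p
        (hsub' p) (hi₃ p))
  have key := crepant_core hf hsurj hfib hbΔ (Nat.succ_pos r) hdim B fd hH' (hasTrans_univ B)
    (fun h => hasCov_zero_lc hf.continuous hbΔ ha hlc h)
    (fun h => hasCov_pos_lc hf.continuous hbΔ ha hlc (Nat.succ_pos r) h)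
    y E₀ hdim0 (X' := X') (F := F) q (fun x => hq x) hqs Δ' hbΔ'
    (m₀ := m₀) (k₀' := k₀') (k₀ := k₀) hm₀ hk₀' hk₀ hcr'
    i (fun p => hi p) hi₂ hsub' hi₃
    (by
      obtain ⟨p, hp⟩ := hgen
      refine ⟨p, ?_⟩
      have := LinearEquiv.isUnit_det' (LinearEquiv.ofBijective
        ((dM E E q (i p) : E →L[ℂ] E) : E →ₗ[ℂ] E) hp)
      exact this.ne_zero)
  rw [kod_eq, kod_eq, kod_eq]
  exact key

end Vale.Agent.P281.H76.S
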