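import Vale.Agent.P281.H76.Ord4
import Vale.Agent.P281.H76.Main2

/-! P281 (helper76): the core argument with a general boundary on the base. -/

namespace Vale.Agent.P281.H76.S

open scoped Manifold ContDiff Topology ENNReal
open Set Filter Metric

set_option linter.all false

universe u

section Core

theorem crepant_core' {E E' : Type} [NormedAddCommGroup E] [NormedSpace ℂ E]
    [NormedAddCommGroup E'] [NormedSpace ℂ E']
    [FiniteDimensional ℂ E] [FiniteDimensional ℂ E']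
    {X Y : Type u} [TopologicalSpace X] [ChartedSpace E X] [IsManifold 𝓘(ℂ, E) ω X]
    [ConnectedSpace X] [TopologicalSpace Y] [ChartedSpace E' Y] [IsManifold 𝓘(ℂ, E') ω Y]
    [T2Space Y] [ConnectedSpace Y]
    {f : X → Y} (hol : ContMDiff 𝓘(ℂ, E) 𝓘(ℂ, E') ω f) (surj : Function.Surjective f)
    (fib : ∀ y, IsConnected (f ⁻¹' {y})) {Δ : Set X → ℝ} (hΔ : IsBdry E Δ)
    {r : ℕ} (hr : 0 < r)
    (hdim : Module.finrank ℂ E = Module.finrank ℂ E' + r)
    (B : ProjectiveBundle E E' f r)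
    (fd : FormData B {D | Δ D ≠ 0}) {H : Finset (Set X)}
    (hH : ∀ D, D ∈ H ↔ Δ D ≠ 0 ∧ 0 < fd.deg D)
    {𝒢 : Set (Matrix (Fin (r + 1)) (Fin (r + 1)) ℂ)} (hG : HasTrans B 𝒢)
    (hcov0 : ∑ D ∈ H, (fd.deg D : ℝ) * Δ D = r + 1 → HasCov B Δ fd H 𝒢 0)
    (hcov1 : (r + 1 : ℝ) < ∑ D ∈ H, (fd.deg D : ℝ) * Δ D → HasCov B Δ fd H 𝒢 r)
    (y : Y) (E₀ : Type) [NormedAddCommGroup E₀] [NormedSpace ℂ E₀] [FiniteDimensional ℂ E₀]
    (hdim0 : Module.finrank ℂ E₀ + Module.finrank ℂ E' = Module.finrank ℂ E)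
    {X' F : Type u} [TopologicalSpace X'] [ChartedSpace E X'] [IsManifold 𝓘(ℂ, E) ω X']
    [ConnectedSpace X']
    [TopologicalSpace F] [ChartedSpace E₀ F] [IsManifold 𝓘(ℂ, E₀) ω F] [ConnectedSpace F]
    [CompactSpace F]
    (q : X' → X) (hq : ∀ x, HolM E E q x) (hqs : Function.Surjective q)
    (Δ' : Set X' → ℝ) (hΔ' : IsBdry E Δ')
    {m₀ : ℕ} {k₀' : Set X' → ℕ} {k₀ : Set X → ℕ} (hm₀ : 0 < m₀)
    (hk₀' : ∀ D, (k₀' D : ℝ) = m₀ * Δ' D) (hk₀ : ∀ D, (k₀ D : ℝ) = m₀ * Δ D)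
    (hcr : ∀ x', ∃ u : X' → ℂ, LogAt E q m₀ k₀' k₀ x' u ∧ (f (q x') = y → u x' ≠ 0))
    (i : F → X') (hi : ∀ p, HolM E₀ E i p) (hrange : range i = (fun x => f (q x)) ⁻¹' {y})
    (hsub : ∀ p, Function.Surjective ((dM E E' f (q (i p))).comp (dM E E q (i p))))
    (himm : ∀ p, Function.Injective (dM E₀ E i p))
    (hgen : ∃ p, (dM E E q (i p)).det ≠ 0)
    {bY : Set Y → ℝ} (hbY : ∀ G, bY G ≤ Δ (f ⁻¹' G))
    (hbYp : ∀ G, bY G ≠ 0 → IsPrimeDivisor E' G) :
    kod E₀ (fun (D : Set X') (p : F) (g : F → ℂ) =>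
      ∃ e, IsLocalEq E D e (i p) ∧ ∀ᶠ q in 𝓝 p, g q = e (i q)) Δ' +
      kodaira E' bY ≤ kodaira E Δ' := by
  classical
  have hfin : {D | Δ D ≠ 0}.Finite := hΔ.finite
  have hcl : ∀ D, Δ D ≠ 0 → IsClosed D := fun D hD => (hΔ.prime D hD).1
  have hΔ0 : ∀ D, 0 ≤ Δ D ∧ Δ D ≤ 1 := by
    intro D
    obtain ⟨q, hq, h0, h1⟩ := hΔ.rational D
    rw [hq]
    exact ⟨by exact_mod_cast h0, by exact_mod_cast h1⟩
  have hopen := isOpenMap_of_bundle B
  have hsub' := submersion_of_bundle hol hdim B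
  have hsum : ∑ D ∈ hfin.toFinset, (fd.deg D : ℝ) * Δ D = ∑ D ∈ H, (fd.deg D : ℝ) * Δ D := by
    symm
    refine Finset.sum_subset (fun D hD => ?_) (fun D hD hDH => ?_)
    · rw [Set.Finite.mem_toFinset]; exact ((hH D).1 hD).1
    · rw [Set.Finite.mem_toFinset] at hD
      have : ¬ 0 < fd.deg D := fun h => hDH ((hH D).2 ⟨hD, h⟩)
      have h0 : fd.deg D = 0 := by omega
      rw [h0]; simp
  have hfinr : Module.finrank ℂ (E × ℂ) = Module.finrank ℂ (E' × (Fin (r + 1) → ℂ)) := by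
    simp only [Module.finrank_prod, hdim, Module.finrank_self, Module.finrank_fintype_fun_eq_card,
      Fintype.card_fin]; ring
  let e : (E × ℂ) ≃L[ℂ] (E' × (Fin (r + 1) → ℂ)) := ContinuousLinearEquiv.ofFinrankEq hfinr
  have hE₀ : Module.finrank ℂ E₀ = r := by omega
  have hfin0 : Module.finrank ℂ (E₀ × ℂ) = Module.finrank ℂ (Fin (r + 1) → ℂ) := by
    simp [hE₀]
  let e₀ : (E₀ × ℂ) ≃L[ℂ] (Fin (r + 1) → ℂ) := ContinuousLinearEquiv.ofFinrankEq hfin0
  obtain ⟨a, ha⟩ := B.cover y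
  have hfi : ∀ p, f (q (i p)) = y := by
    intro p
    have : i p ∈ (fun x => f (q x)) ⁻¹' {y} := by rw [← hrange]; exact mem_range_self p
    exact this
  have hrng : ∀ x, f (q x) = y → ∃ p, i p = x := by
    intro x hx
    have : x ∈ range i := by rw [hrange]; exact hx
    exact this
  have hne : ∃ x, (dM E E q x).det ≠ 0 := by
    obtain ⟨p, hp⟩ := hgen
    exact ⟨i p, hp⟩
  -- pull back
  have hpull : kodaira E Δ ≤ kodaira E Δ' := by
    unfold kodaira kod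
    refine iSup₂_le fun j hj => ?_
    have h1 := kodGE_pull (Δ' := Δ') (Δ := Δ) hq hqs hne hΔ' hΔ hm₀ hk₀' hk₀
      (fun x' => by
        obtain ⟨u, hu, -⟩ := hcr x'
        exact ⟨u, hu⟩) hj
    exact le_iSup₂_of_le j h1 le_rfl
  have hlogF : ∀ p, ∃ u : X' → ℂ, LogAt E q m₀ k₀' k₀ (i p) u ∧ u (i p) ≠ 0 := by
    intro p
    obtain ⟨u, hu, hu'⟩ := hcr (i p)
    exact ⟨u, hu, hu' (hfi p)⟩
  have hFle := fun (j : ℕ) (hj : KodGE E₀ (eqnF E i) Δ' j)
      (hS : ∑ D ∈ hfin.toFinset, (fd.deg D : ℝ) * Δ D ≤ r + 1) =>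
    kodF_le' hr e e₀ hol hq hqs hi ha hfi hrng hΔ' hΔ fd hm₀ hk₀' hk₀ hlogF hsub himm hgen
      hj hS
  -- the base
  set kF := kod E₀ (eqnF E i) Δ' with hkF
  show kF + kodaira E' bY ≤ kodaira E Δ'
  refine le_trans ?_ hpull
  by_cases hYne : ∃ j, KodGE E' (fun (D : Set Y) z g => IsLocalEq E' D g z)
      bY j
  · -- the largest `j`
    obtain ⟨j₀, hj₀, hj₀max⟩ : ∃ j₀, KodGE E' (fun (D : Set Y) z g => IsLocalEq E' D g z)
        bY j₀ ∧ ∀ j, KodGE E' (fun (D : Set Y) z g => IsLocalEq E' D g z)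
        bY j → j ≤ j₀ := by
      obtain ⟨j, hj⟩ := hYne
      refine ⟨Nat.findGreatest (fun j => KodGE E' (fun (D : Set Y) z g => IsLocalEq E' D g z)
        bY j) (Module.finrank ℂ E'), ?_, ?_⟩
      · exact Nat.findGreatest_spec (P := fun j => KodGE E' (fun (D : Set Y) z g =>
          IsLocalEq E' D g z) bY j) (kodGE_le hj) hj
      · intro j' hj'
        exact Nat.le_findGreatest (kodGE_le hj') hj'
    have hYle : kodaira E' bY ≤ ((j₀ : ℕ∞) : WithBot ℕ∞) := by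
      unfold kodaira kod
      refine iSup₂_le fun j hj => ?_
      exact_mod_cast hj₀max j hj
    -- the lower bound from covariants
    have hlow : ∀ r', HasCov B Δ fd H 𝒢 r' →
        (((r' + j₀ : ℕ) : ℕ∞) : WithBot ℕ∞) ≤ kodaira E Δ := by
      rintro r' ⟨M, N, K, C, Θ, hM, hN, hint, hK, hΘ, hinv, hne, hΘC⟩
      have hYnonempty : Nonempty Y := inferInstance
      have := kodGE_lower hr e hol hopen hsub' surj hfin hΔ.prime fd
        (fun D hD => ((hH D).1 hD).1) (fun D hD => ((hH D).1 hD).2) hG hM C hN hint hK hΘ hinv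
        hne hΘC (bY := bY) hbY hbYp hj₀
      unfold kodaira kod
      exact le_iSup₂_of_le (r' + j₀) this le_rfl
    rcases lt_trichotomy (∑ D ∈ H, (fd.deg D : ℝ) * Δ D) (r + 1 : ℝ) with hlt | heq | hgt
    · have hbot : kF = ⊥ := by
        rw [hkF]
        unfold kod
        rw [iSup₂_eq_bot]
        intro j hj
        exfalso
        have := (hFle j hj (by rw [hsum]; exact hlt.le)).2
        rw [hsum] at this
        exact hlt.ne this
      rw [hbot, WithBot.bot_add]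
      exact bot_le
    · have hle : kF ≤ (((0 : ℕ) : ℕ∞) : WithBot ℕ∞) := by
        rw [hkF]
        unfold kod
        refine iSup₂_le fun j hj => ?_
        have := (hFle j hj (by rw [hsum]; exact heq.le)).1
        rw [this]
      calc kF + kodaira E' bY ≤
            (((0 : ℕ) : ℕ∞) : WithBot ℕ∞) + ((j₀ : ℕ∞) : WithBot ℕ∞) :=
            add_le_add hle hYle
        _ = (((0 + j₀ : ℕ) : ℕ∞) : WithBot ℕ∞) := by push_cast; rfl
        _ ≤ kodaira E Δ := hlow 0 (hcov0 heq)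
    · have hle : kF ≤ (((r : ℕ) : ℕ∞) : WithBot ℕ∞) := by
        rw [hkF]
        unfold kod
        refine iSup₂_le fun j hj => ?_
        have := kodGE_le hj
        rw [hE₀] at this
        exact_mod_cast this
      calc kF + kodaira E' bY ≤
            (((r : ℕ) : ℕ∞) : WithBot ℕ∞) + ((j₀ : ℕ∞) : WithBot ℕ∞) :=
            add_le_add hle hYle
        _ = (((r + j₀ : ℕ) : ℕ∞) : WithBot ℕ∞) := by push_cast; rfl
        _ ≤ kodaira E Δ := hlow r (hcov1 hgt)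
  · have h1 : kodaira E' bY = ⊥ := by
      unfold kodaira kod
      rw [iSup₂_eq_bot]
      intro j hj
      exact absurd ⟨j, hj⟩ hYne
    rw [h1, WithBot.add_bot]
    exact bot_le

end Core

end Vale.Agent.P281.H76.S
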