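import Vale.Agent.P271.H408.Ext
import Vale.Agent.P281.Bdl.B1

/-! P281 (helper76): bounded extension and ratios of local equations. -/

namespace Vale.Agent.P281.H76

open scoped Manifold ContDiff Topology ENNReal
open Set Filter Metric MeasureTheory

set_option linter.all false

universe u

/-- bounded extension in a finite dimensional space. -/
theorem ext_flat {E : Type} [NormedAddCommGroup E] [NormedSpace ℂ E] [FiniteDimensional ℂ E]
    {h f : E → ℂ} {x : E} (hh : ∀ᶠ z in 𝓝 x, DifferentiableAt ℂ h z)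
    (hne : ∃ᶠ z in 𝓝 x, h z ≠ 0)
    (hf : ∀ᶠ z in 𝓝 x, h z ≠ 0 → DifferentiableAt ℂ f z) {C : ℝ}
    (hb : ∀ᶠ z in 𝓝 x, h z ≠ 0 → ‖f z‖ ≤ C) :
    ∃ F : E → ℂ, ContDiffAt ℂ ω F x ∧ ∀ᶠ z in 𝓝 x, h z ≠ 0 → F z = f z := by
  let L : E ≃L[ℂ] (Fin (Module.finrank ℂ E) → ℂ) := ContinuousLinearEquiv.ofFinrankEq (by simp)
  have hLc : ContinuousAt L.symm (L x) := L.symm.continuous.continuousAt
  have hT : Tendsto L.symm (𝓝 (L x)) (𝓝 x) := by
    have := hLc.tendsto
    rwa [L.symm_apply_apply] at this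
  have hT' : Tendsto L (𝓝 x) (𝓝 (L x)) := L.continuous.continuousAt.tendsto
  have hall := hT.eventually ((hh.and hf).and hb)
  obtain ⟨r, hr, hball⟩ := Metric.eventually_nhds_iff_ball.1 hall
  have hne' : ∃ᶠ z in 𝓝 (L x), h (L.symm z) ≠ 0 := by
    have := hT'.frequently (p := fun z => h (L.symm z) ≠ 0) (by simpa using hne)
    exact this
  obtain ⟨y, hy0, hyb⟩ := (hne'.and_eventually (ball_mem_nhds (L x) hr)).exists
  have hh' : DifferentiableOn ℂ (fun z => h (L.symm z)) (ball (L x) r) := by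
    intro z hz
    exact (((hball z hz).1.1).comp z L.symm.differentiableAt).differentiableWithinAt
  have hf' : DifferentiableOn ℂ (fun z => f (L.symm z)) (ball (L x) r ∩
      {z | (fun z => h (L.symm z)) z ≠ 0}) := by
    intro z hz
    exact (((hball z hz.1).1.2 hz.2).comp z L.symm.differentiableAt).differentiableWithinAt
  have hI : ∫⁻ z in ball (L x) r ∩ {z | (fun z => h (L.symm z)) z ≠ 0},
      ‖(fun z => f (L.symm z)) z‖ₑ ^ 2 ≠ ⊤ := by
    have hO : IsOpen (ball (L x) r ∩ {z | (fun z => h (L.symm z)) z ≠ 0}) := by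
      have : ball (L x) r ∩ {z | (fun z => h (L.symm z)) z ≠ 0} =
          ball (L x) r ∩ (fun z => h (L.symm z)) ⁻¹' {0}ᶜ := by
        ext z; simp
      rw [this]
      exact hh'.continuousOn.isOpen_inter_preimage isOpen_ball isOpen_compl_singleton
    have hle : ∫⁻ z in ball (L x) r ∩ {z | (fun z => h (L.symm z)) z ≠ 0},
        ‖(fun z => f (L.symm z)) z‖ₑ ^ 2 ≤
        ∫⁻ z in ball (L x) r ∩ {z | (fun z => h (L.symm z)) z ≠ 0}, (ENNReal.ofReal C) ^ 2 := by
      refine setLIntegral_mono' hO.measurableSet fun z hz => ?_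
      have := (hball z hz.1).2 hz.2
      have h2 : ‖f (L.symm z)‖ₑ ≤ ENNReal.ofReal C := by
        rw [← ofReal_norm_eq_enorm]
        exact ENNReal.ofReal_le_ofReal this
      gcongr
    refine ne_top_of_le_ne_top ?_ hle
    rw [setLIntegral_const]
    refine ENNReal.mul_ne_top (by simp) ?_
    exact ne_top_of_le_ne_top (measure_ball_lt_top (x := L x) (r := r)).ne
      (measure_mono inter_subset_left)
  obtain ⟨ρ, hρ, hρr, F, hF, hFe⟩ := Vale.Agent.P271.H408.ext_local hr hh' hyb hy0 hf' hI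
  refine ⟨fun z => F (L z), ?_, ?_⟩
  · have h1 : ContDiffAt ℂ ω F (L x) :=
      (Vale.Agent.P268.analyticAt_of_differentiableOn isOpen_ball hF
        (mem_ball_self hρ)).contDiffAt
    exact h1.comp x L.contDiff.contDiffAt
  · filter_upwards [hT'.eventually (ball_mem_nhds (L x) hρ)] with z hz hz0
    have := hFe (L z) hz (by simpa using hz0)
    simpa using this

variable {E : Type} [NormedAddCommGroup E] [NormedSpace ℂ E] [FiniteDimensional ℂ E]
variable {X : Type u} [TopologicalSpace X] [ChartedSpace E X] [IsManifold 𝓘(ℂ, E) ω X]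

/-- a hypersurface is nowhere dense (near a point). -/
theorem frequently_ne {D : Set X} {g : X → ℂ} {x : X} (h : IsLocalEq E D g x) :
    ∃ᶠ z in 𝓝 x, g z ≠ 0 := by
  intro hcon
  obtain ⟨W, hW, hxW, h1, h2, h3⟩ := h
  have hev : ∀ᶠ z in 𝓝 x, g z = 0 := by
    filter_upwards [hcon] with z hz
    by_contra h0; exact hz h0
  obtain ⟨V, hV, hVo, hxV⟩ := eventually_nhds_iff.1 hev
  have hxD : x ∈ D := (h2 x hxW).2 hev.self_of_nhds
  have hcl := h3 ⟨hxD, hxW⟩
  rw [mem_closure_iff_nhds] at hcl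
  obtain ⟨w, ⟨hwV, hwW⟩, hwD, hwd⟩ := hcl (V ∩ W) (inter_mem (hVo.mem_nhds hxV) (hW.mem_nhds hxW))
  apply hwd
  have : g =ᶠ[𝓝 w] fun _ => (0 : ℂ) := by
    filter_upwards [hVo.mem_nhds hwV] with z hz
    exact hV z hz
  unfold dif
  rw [this.mfderiv_eq, mfderiv_const]
  rfl

/-- bounded extension on a manifold. -/
theorem ext_mfd {h f : X → ℂ} {x : X} (hh : HolV E h x) (hne : ∃ᶠ z in 𝓝 x, h z ≠ 0)
    (hf : ∀ᶠ z in 𝓝 x, h z ≠ 0 → HolV E f z) {C : ℝ} (hb : ∀ᶠ z in 𝓝 x, h z ≠ 0 → ‖f z‖ ≤ C) :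
    ∃ F : X → ℂ, HolV E F x ∧ ∀ᶠ z in 𝓝 x, h z ≠ 0 → F z = f z := by
  set φ := chartAt E x with hφ
  have hx : x ∈ φ.source := mem_chart_source E x
  have hcs : Tendsto φ.symm (𝓝 (φ x)) (𝓝 x) := by
    have := (φ.continuousAt_symm (φ.map_source hx)).tendsto
    rwa [φ.left_inv hx] at this
  have hc : Tendsto φ (𝓝 x) (𝓝 (φ x)) := (φ.continuousAt hx).tendsto
  have htg : ∀ᶠ w in 𝓝 (φ x), w ∈ φ.target := φ.open_target.mem_nhds (φ.map_source hx)
  obtain ⟨F, hF, hFe⟩ := ext_flat (h := h ∘ φ.symm) (f := f ∘ φ.symm) (x := φ x) (C := C)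
    (by
      filter_upwards [hcs.eventually hh.eventually, htg] with w hw hwt
      have hws : φ.symm w ∈ φ.source := φ.map_target hwt
      have := (hw.rep hws).differentiableAt (by simp)
      rwa [← hφ, φ.right_inv hwt] at this)
    (by
      have : ∃ᶠ z in 𝓝 x, h (φ.symm (φ z)) ≠ 0 := by
        refine (hne.and_eventually (φ.open_source.mem_nhds hx)).mono fun z hz => ?_
        rw [φ.left_inv hz.2]; exact hz.1
      exact hc.frequently (p := fun w => h (φ.symm w) ≠ 0) this)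
    (by
      filter_upwards [hcs.eventually hf, htg] with w hw hwt hw0
      have hws : φ.symm w ∈ φ.source := φ.map_target hwt
      have := ((hw hw0).rep hws).differentiableAt (by simp)
      rwa [← hφ, φ.right_inv hwt] at this)
    (hcs.eventually hb)
  refine ⟨fun z => F (φ z), ?_, ?_⟩
  · exact HolV.comp_contDiff hF (HolV.chart hx)
  · filter_upwards [hc.eventually hFe, φ.open_source.mem_nhds hx] with z hz hzs hz0
    have := hz (by simpa only [Function.comp_apply, φ.left_inv hzs] using hz0)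
    simpa only [Function.comp_apply, φ.left_inv hzs] using this

/-- two local equations of a smooth hypersurface differ by a unit. -/
theorem unit_ratio {D : Set X} {g g' : X → ℂ} {x : X} (h : IsLocalEq E D g x)
    (h' : IsLocalEq E D g' x) (hd : x ∈ D → dif E g x ≠ 0) (hd' : x ∈ D → dif E g' x ≠ 0) :
    ∃ w : X → ℂ, HolV E w x ∧ w x ≠ 0 ∧ ∀ᶠ z in 𝓝 x, g z = w z * g' z := by
  obtain ⟨C, hC⟩ := h.bound h' hd
  obtain ⟨C', hC'⟩ := h'.bound h hd'
  -- `g / g'`
  have hzero : ∀ᶠ z in 𝓝 x, (g z = 0 ↔ g' z = 0) := by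
    filter_upwards [h.eventually, h'.eventually] with z h1 h2
    rw [← h1.mem_iff, ← h2.mem_iff]
  obtain ⟨w, hw, hwe⟩ := ext_mfd (h := g') (f := fun z => g z / g' z) (C := |C'|) h'.holAt
    (frequently_ne h')
    (by
      filter_upwards [h.holAt.eventually, h'.holAt.eventually] with z h1 h2 h0
      exact HolV.div h1 h2 h0)
    (by
      filter_upwards [hC'] with z hz h0
      rw [norm_div, div_le_iff₀ (norm_pos_iff.2 h0)]
      exact hz.trans (mul_le_mul_of_nonneg_right (le_abs_self _) (norm_nonneg _)))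
  obtain ⟨w', hw', hwe'⟩ := ext_mfd (h := g) (f := fun z => g' z / g z) (C := |C|) h.holAt
    (frequently_ne h)
    (by
      filter_upwards [h.holAt.eventually, h'.holAt.eventually] with z h1 h2 h0
      exact HolV.div h2 h1 h0)
    (by
      filter_upwards [hC] with z hz h0
      rw [norm_div, div_le_iff₀ (norm_pos_iff.2 h0)]
      exact hz.trans (mul_le_mul_of_nonneg_right (le_abs_self _) (norm_nonneg _)))
  refine ⟨w, hw, ?_, ?_⟩
  · -- `w w' = 1`
    intro h0
    have hprod : ∀ᶠ z in 𝓝 x, g z ≠ 0 → w z * w' z = 1 := by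
      filter_upwards [hwe, hwe', hzero] with z h1 h2 h3 hg
      have hg' : g' z ≠ 0 := fun h => hg (h3.2 h)
      rw [h1 hg', h2 hg]
      field_simp
    have hcont : ContinuousAt (fun z => w z * w' z) x := (hw.mul hw').continuousAt
    have hlt : ∀ᶠ z in 𝓝 x, w z * w' z ≠ 1 := by
      refine hcont.eventually_ne ?_
      rw [h0, zero_mul]; exact zero_ne_one
    obtain ⟨z, hz1, hz2, hz3⟩ := ((frequently_ne h).and_eventually (hprod.and hlt)).exists
    exact hz3 (hz2 hz1)
  · filter_upwards [hwe, hzero] with z h1 h2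
    by_cases h0 : g' z = 0
    · rw [h0, mul_zero]; exact h2.2 h0
    · rw [h1 h0, div_mul_cancel₀ _ h0]

end Vale.Agent.P281.H76
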