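import Vale.Agent.P281.H76.Adj

/-! P281 (helper76): sections on the fibres of `f ∘ q`. -/

namespace Vale.Agent.P281.H76

open scoped Manifold ContDiff Topology ENNReal
open Set Filter Metric

set_option linter.all false

universe u

variable {E E' E₀ : Type} [NormedAddCommGroup E] [NormedSpace ℂ E]
  [NormedAddCommGroup E'] [NormedSpace ℂ E'] [NormedAddCommGroup E₀] [NormedSpace ℂ E₀]
  [FiniteDimensional ℂ E] [FiniteDimensional ℂ E'] [FiniteDimensional ℂ E₀]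
variable {X X' Y F : Type u} [TopologicalSpace X] [ChartedSpace E X] [IsManifold 𝓘(ℂ, E) ω X]
  [TopologicalSpace X'] [ChartedSpace E X'] [IsManifold 𝓘(ℂ, E) ω X']
  [TopologicalSpace Y] [ChartedSpace E' Y] [IsManifold 𝓘(ℂ, E') ω Y]
  [TopologicalSpace F] [ChartedSpace E₀ F] [IsManifold 𝓘(ℂ, E₀) ω F]

/-- off the boundary and the ramification, the image is off the boundary -/
theorem crep_good {q : X' → X} {m₀ : ℕ} {k₀' : Set X' → ℕ} {k₀ : Set X → ℕ} {x' : X'}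
    {u : X' → ℂ} (hq : HolM E E q x') (h : LogAt E q m₀ k₀' k₀ x' u)
    (hdet : (dM E E q x').det ≠ 0) (hx : ∀ D, k₀' D ≠ 0 → x' ∉ D) :
    ∀ D, k₀ D ≠ 0 → q x' ∉ D := by
  obtain ⟨T', g', T, g, b, hT', hg', hT, hg, hb, hu, hev⟩ := h
  intro D hD hmem
  obtain ⟨h1, h2⟩ := hev.self_of_nhds
  have h3 := (jac_comp hq).self_of_nhds
  have hb0 : b x' ≠ 0 := by
    intro h0
    rw [h0, zero_mul] at h1
    rw [h1] at h3
    exact (mul_ne_zero (jac_chart_ne_zero (mem_chart_source E (q x'))) hdet) h3.symm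
  have hP : ∏ D ∈ T', g' D x' ^ k₀' D ≠ 0 := by
    refine Finset.prod_ne_zero_iff.2 fun D hD => ?_
    by_cases hk : k₀' D = 0
    · simp [hk]
    · exact pow_ne_zero _ fun h0 => hx D hk ((hg' D hD).mem_iff.2 h0)
  have hQ : ∏ D ∈ T, g D (q x') ^ k₀ D = 0 :=
    Finset.prod_eq_zero (hT D hD) (by rw [(hg D (hT D hD)).mem_iff.1 hmem, zero_pow hD])
  rw [hQ, mul_zero] at h2
  exact (mul_ne_zero (pow_ne_zero _ hb0) hP) h2

/-- gluing of functions given on a dense set -/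
theorem glue_fun {G : Set F} (hG : Dense G) {h : F → ℂ} {A : F → F → ℂ}
    (hA : ∀ x, HolV E₀ (A x) x) (hh : ∀ x, ∀ᶠ z in 𝓝 x, z ∈ G → h z = A x z) :
    (∀ x, HolV E₀ (fun z => A z z) x) ∧ ∀ z ∈ G, A z z = h z := by
  refine ⟨fun x => ?_, fun z hz => ((hh z).self_of_nhds hz).symm⟩
  refine HolV.congr (hA x) ?_
  filter_upwards [eventually_eventually_nhds.2 (hh x), (hA x).eventually] with z h1 h2
  by_contra hne
  have h5 := ((hA z).continuousAt.ne_iff_eventually_ne h2.continuousAt).1 hne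
  obtain ⟨V, hV, hVo, hzV⟩ := eventually_nhds_iff.1 ((h5.and h1).and (hh z))
  obtain ⟨w, hwV, hwG⟩ := hG.inter_open_nonempty V hVo ⟨z, hzV⟩
  obtain ⟨⟨h6, h7⟩, h8⟩ := hV w hwV
  exact h6 (by rw [← h7 hwG, ← h8 hwG])

variable {f : X → Y} {q : X' → X} {r : ℕ} {B : ProjectiveBundle E E' f r} {T : Set (Set X)}
  {i : F → X'} {y : Y} {a : B.ι}

/-- the quotient of a power of a section by the standard one. -/
noncomputable def hF (fd : FormData B T) (Tf : Finset (Set X)) (k₀ : Set X → ℕ) (m₀ m d : ℕ)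
    (e₀ : (E₀ × ℂ) ≃L[ℂ] (Fin (r + 1) → ℂ)) (q : X' → X) (i : F → X') (y : Y) (a : B.ι)
    (l : Fin (r + 1)) (s : F → ℂ) (v : X → (Fin (r + 1) → ℂ)) (p : F) : ℂ :=
  s p ^ m₀ * (∏ D ∈ Tf, form (fun J => fd.p a D J y) (v (q (i p))) ^ k₀ D) ^ m *
    (v (q (i p)) l) ^ d / J0 e₀ (fun p => v (q (i p))) p ^ (m₀ * m)

theorem hF_change (fd : FormData B T) (Tf : Finset (Set X)) (k₀ : Set X → ℕ) {m₀ m d : ℕ}
    (e₀ : (E₀ × ℂ) ≃L[ℂ] (Fin (r + 1) → ℂ)) (hf : ∀ x, HolM E E' f x)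
    (hq : ∀ x, HolM E E q x) (hi : ∀ p, HolM E₀ E i p) (hya : y ∈ B.U a)
    (hfi : ∀ p, f (q (i p)) = y) (l : Fin (r + 1)) (s : F → ℂ)
    {v v' : X → (Fin (r + 1) → ℂ)} {p : F} (hv : IsLift E f (B.π a) v (q (i p)))
    (hv' : IsLift E f (B.π a) v' (q (i p)))
    (hd : d + (∑ D ∈ Tf, fd.deg D * k₀ D) * m = (r + 1) * (m₀ * m)) :
    hF fd Tf k₀ m₀ m d e₀ q i y a l s v' p = hF fd Tf k₀ m₀ m d e₀ q i y a l s v p := by
  obtain ⟨lam, hlam, h0, hev⟩ := lift_ratio (B.triv a) (hf (q (i p))).continuousAt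
    (by rw [hfi]; exact hya) hv hv'
  have hqi : ContinuousAt (fun p => q (i p)) p :=
    ContinuousAt.comp (g := q) (f := i) (hq _).continuousAt (hi p).continuousAt
  have h1 : (fun p => v' (q (i p))) =ᶠ[𝓝 p] fun p => lam (q (i p)) • v (q (i p)) :=
    hqi.eventually hev
  have h2 : J0 e₀ (fun p => v' (q (i p))) p =
      lam (q (i p)) ^ (r + 1) * J0 e₀ (fun p => v (q (i p))) p := by
    rw [J0_congr e₀ h1, J0_smul e₀ (lam := fun p => lam (q (i p)))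
      (HolV.comp (h := fun z => lam (q z)) (HolV.comp (h := lam) hlam (hq _)) (hi p)) h0
      (HolV.comp (h := fun z => v (q z)) (HolV.comp (h := v) hv.hol (hq _)) (hi p))]
    simp
  have h3 : v' (q (i p)) = lam (q (i p)) • v (q (i p)) := hev.self_of_nhds
  unfold hF
  rw [h2, h3]
  set L := lam (q (i p)) with hL
  have h4 : ∏ D ∈ Tf, form (fun J => fd.p a D J y) (L • v (q (i p))) ^ k₀ D =
      L ^ (∑ D ∈ Tf, fd.deg D * k₀ D) *
        ∏ D ∈ Tf, form (fun J => fd.p a D J y) (v (q (i p))) ^ k₀ D := by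
    rw [← Finset.prod_pow_eq_pow_sum, ← Finset.prod_mul_distrib]
    refine Finset.prod_congr rfl fun D _ => ?_
    rw [form_smul, mul_pow, ← pow_mul]
  rw [h4]
  set Fm := ∏ D ∈ Tf, form (fun J => fd.p a D J y) (v (q (i p))) ^ k₀ D with hFm
  set S := ∑ D ∈ Tf, fd.deg D * k₀ D with hS
  have h5 : (L • v (q (i p))) l = L * v (q (i p)) l := rfl
  rw [h5]
  set J := J0 e₀ (fun p => v (q (i p))) p with hJ
  have hL0 : L ^ ((r + 1) * (m₀ * m)) ≠ 0 := pow_ne_zero _ h0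
  have h6 : s p ^ m₀ * (L ^ S * Fm) ^ m * (L * v (q (i p)) l) ^ d =
      L ^ ((r + 1) * (m₀ * m)) * (s p ^ m₀ * Fm ^ m * (v (q (i p)) l) ^ d) := by
    rw [← hd, pow_add, mul_pow, mul_pow, ← pow_mul]; ring
  rw [h6, mul_pow, ← pow_mul, mul_div_mul_left _ _ hL0]

/-- local description of `hF`. -/
theorem fib_local (fd : FormData B T) {Tf : Finset (Set X)} (hTf : ∀ D, D ∈ Tf ↔ D ∈ T)
    {k₀ : Set X → ℕ} {m₀ m d : ℕ} {k₀' k : Set X' → ℕ} (hk₀ : ∀ D, k₀ D ≠ 0 → D ∈ T)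
    (hm₀ : 0 < m₀) (hm : 0 < m) (hkk : ∀ D, k D * m₀ = k₀' D * m)
    (e : (E × ℂ) ≃L[ℂ] (E' × (Fin (r + 1) → ℂ)))
    (e₀ : (E₀ × ℂ) ≃L[ℂ] (Fin (r + 1) → ℂ)) (hfc : ContMDiff 𝓘(ℂ, E) 𝓘(ℂ, E') ω f)
    (hq : ∀ x, HolM E E q x) (hi : ∀ p, HolM E₀ E i p) (hya : y ∈ B.U a)
    (hfi : ∀ p, f (q (i p)) = y) (l : Fin (r + 1)) {s : F → ℂ}
    (hsm : Smooth E {D | k₀ D ≠ 0}) (hsm' : Smooth E {D | k₀' D ≠ 0})
    (hs : IsSection E₀ (eqnF E i) m k s) {p₀ : F} {u : X' → ℂ}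
    (hlog : LogAt E q m₀ k₀' k₀ (i p₀) u) (hu0 : u (i p₀) ≠ 0)
    (hsub : Function.Surjective ((dM E E' f (q (i p₀))).comp (dM E E q (i p₀))))
    (himm : Function.Injective (dM E₀ E i p₀))
    {v : X → (Fin (r + 1) → ℂ)} (hv : IsLift E f (B.π a) v (q (i p₀))) :
    ∃ A : F → ℂ, HolV E₀ A p₀ ∧ (0 < d → v (q (i p₀)) l = 0 → A p₀ = 0) ∧
      ∀ᶠ p in 𝓝 p₀, (dM E E q (i p)).det ≠ 0 → (∀ D, k₀' D ≠ 0 → i p ∉ D) →
        hF fd Tf k₀ m₀ m d e₀ q i y a l s v p = A p := by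
  classical
  have hf : ∀ x, HolM E E' f x := fun x => hfc x
  obtain ⟨T', g', T₁, g, b, hT', hg', hT₁, hg, hb, hu, hev⟩ := hlog
  obtain ⟨Ts, gs, c, hTs, hgs, hc, hevs⟩ := hs p₀
  have hex : ∀ D : Set X', ∃ eD : X' → ℂ, D ∈ Ts →
      IsLocalEq E D eD (i p₀) ∧ ∀ᶠ p in 𝓝 p₀, gs D p = eD (i p) := by
    intro D
    by_cases hD : D ∈ Ts
    · obtain ⟨eD, h1, h2⟩ := hgs D hD
      exact ⟨eD, fun _ => ⟨h1, h2⟩⟩
    · exact ⟨fun _ => 0, fun h => absurd h hD⟩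
  choose eD heD using hex
  have hjne : J e f v (q (i p₀)) ≠ 0 :=
    (J_ne_zero e hfc (B.triv a) (by rw [hfi]; exact hya) hv).1
  obtain ⟨η, hη, hη0, hηe⟩ := adj e e₀ (f := f) (q := q) (i := i) (v := v) (b := b) (p₀ := p₀)
    hf hq hi hv.hol hjne hb (hev.mono fun z hz => hz.1) (fun p => by rw [hfi, hfi]) hsub himm
  -- units
  obtain ⟨W, hW, hW0, hWe⟩ := prod_unit (k := k₀) (x := q (i p₀)) (T := T₁) (T' := Tf) (g := g)
    (g' := fun D z => form (fun J => fd.p a D J (f z)) (v z)) hsm hT₁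
    (fun D hD => (hTf D).2 (hk₀ D hD)) hg
    (fun D hD => fd.eqn a D ((hTf D).1 hD) (q (i p₀)) v (by rw [hfi]; exact hya) hv)
  have hkTs : ∀ D, k₀' D ≠ 0 → D ∈ Ts := by
    intro D hD
    refine hTs D fun h0 => ?_
    have := hkk D
    rw [h0, zero_mul] at this
    exact (Nat.mul_ne_zero hD hm.ne') this.symm
  obtain ⟨W', hW', hW'0, hW'e⟩ := prod_unit (k := k₀') (x := i p₀) (T := T') (T' := Ts) (g := g')
    (g' := eD) hsm' hT' hkTs hg' (fun D hD => (heD D hD).1)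
  have hic : ContinuousAt i p₀ := (hi p₀).continuousAt
  have hqi : ContinuousAt (fun p => q (i p)) p₀ :=
    ContinuousAt.comp (g := q) (f := i) (hq _).continuousAt hic
  have hui : HolV E₀ (fun p => u (i p)) p₀ := HolV.comp (h := u) hu (hi p₀)
  have hWi : HolV E₀ (fun p => W (q (i p))) p₀ :=
    HolV.comp (h := fun z => W (q z)) (HolV.comp (h := W) hW (hq _)) (hi p₀)
  have hW'i : HolV E₀ (fun p => W' (i p)) p₀ := HolV.comp (h := W') hW' (hi p₀)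
  have hvi : HolV E₀ (fun p => v (q (i p)) l) p₀ :=
    HolV.eval (HolV.comp (h := fun z => v (q z)) (HolV.comp (h := v) hv.hol (hq _)) (hi p₀)) l
  refine ⟨fun p => c p ^ m₀ * (v (q (i p)) l) ^ d * W' (i p) ^ m /
    (η p ^ (m₀ * m) * (u (i p) * W (q (i p))) ^ m), ?_, ?_, ?_⟩
  · refine HolV.div (HolV.mul (HolV.mul (HolV.pow hc m₀) (hvi.pow d)) (hW'i.pow m))
      (HolV.mul (hη.pow _) (HolV.pow (HolV.mul hui hWi) m)) ?_
    exact mul_ne_zero (pow_ne_zero _ hη0) (pow_ne_zero _ (mul_ne_zero hu0 hW0))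
  · intro hd0 hv0
    show c p₀ ^ m₀ * (v (q (i p₀)) l) ^ d * W' (i p₀) ^ m /
      (η p₀ ^ (m₀ * m) * (u (i p₀) * W (q (i p₀))) ^ m) = 0
    rw [hv0, zero_pow hd0.ne', mul_zero, zero_mul, zero_div]
  · have e1 : ∀ᶠ p in 𝓝 p₀, ∀ D ∈ Ts, gs D p = eD D (i p) ∧ IsLocalEq E D (eD D) (i p) := by
      rw [Finset.eventually_all]
      intro D hD
      exact (heD D hD).2.and (hic.eventually (heD D hD).1.eventually)
    filter_upwards [hevs, e1, hic.eventually hev, hqi.eventually hWe, hic.eventually hW'e, hηe,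
      hη.continuousAt.eventually_ne hη0, hui.continuousAt.eventually_ne hu0,
      hWi.continuousAt.eventually_ne hW0, hW'i.continuousAt.eventually_ne hW'0,
      jac_chart_ev (E := E₀) p₀, hic.eventually (jac_comp (hq (i p₀))),
      hqi.eventually (jac_chart_ev (E := E) (q (i p₀)))]
      with p g1 g2 g3 g4 g5 g6 g7 g8 g9 g10 g11 g12 g13 hdet hmem
    obtain ⟨g3a, g3b⟩ := g3
    -- products
    set P := ∏ D ∈ Ts, eD D (i p) ^ k₀' D with hP
    set Fm := ∏ D ∈ Tf, form (fun J => fd.p a D J y) (v (q (i p))) ^ k₀ D with hFm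
    have hP0 : P ≠ 0 := by
      refine Finset.prod_ne_zero_iff.2 fun D hD => ?_
      by_cases hk : k₀' D = 0
      · simp [hk]
      · exact pow_ne_zero _ fun h0 => hmem D hk (((g2 D hD).2).mem_iff.2 h0)
    have hprod : (∏ D ∈ Ts, gs D p ^ k D) ^ m₀ = P ^ m := by
      rw [hP, ← Finset.prod_pow, ← Finset.prod_pow]
      refine Finset.prod_congr rfl fun D hD => ?_
      rw [← pow_mul, ← pow_mul, hkk, (g2 D hD).1]
    have hprodne : ∏ D ∈ Ts, gs D p ^ k D ≠ 0 := by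
      refine Finset.prod_ne_zero_iff.2 fun D hD => ?_
      by_cases hk : k D = 0
      · simp [hk]
      · by_cases hk' : k₀' D = 0
        · exfalso
          have := hkk D
          rw [hk', zero_mul] at this
          exact (Nat.mul_ne_zero hk hm₀.ne') this
        · refine pow_ne_zero _ fun h0 => hmem D hk' (((g2 D hD).2).mem_iff.2 ?_)
          rw [← (g2 D hD).1]; exact h0
    have hs1 := g1 hprodne
    have hs2 : s p ^ m₀ * P ^ m = c p ^ m₀ * jac E₀ (chartAt E₀ p₀) p ^ (m₀ * m) := by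
      rw [← hprod, ← mul_pow, hs1, mul_pow, ← pow_mul, mul_comm m m₀]
    rw [g5] at g3b
    have g4' : ∏ D ∈ T₁, g D (q (i p)) ^ k₀ D = W (q (i p)) * Fm := by
      rw [g4, hFm, hfi]
    rw [g4'] at g3b
    have hb0 : b (i p) ≠ 0 := by
      intro h0
      rw [h0, zero_mul, g12] at g3a
      exact (mul_ne_zero g13 hdet) g3a
    have hFm0 : Fm ≠ 0 := by
      intro h0
      rw [h0, mul_zero, mul_zero] at g3b
      exact (mul_ne_zero (pow_ne_zero _ hb0) (mul_ne_zero g10 hP0)) g3b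
    unfold hF
    rw [g6]
    show s p ^ m₀ * Fm ^ m * (v (q (i p)) l) ^ d /
      (η p * b (i p) * jac E₀ (chartAt E₀ p₀) p) ^ (m₀ * m) =
      c p ^ m₀ * (v (q (i p)) l) ^ d * W' (i p) ^ m /
      (η p ^ (m₀ * m) * (u (i p) * W (q (i p))) ^ m)
    set j := jac E₀ (chartAt E₀ p₀) p with hj
    set bb := b (i p) with hbb
    set uu := u (i p) with huu
    set WW := W (q (i p)) with hWW
    set WW' := W' (i p) with hWW'
    set et := η p with het
    set ll := (v (q (i p)) l) with hll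
    have hkey : (bb ^ m₀) ^ m * WW' ^ m * P ^ m = uu ^ m * WW ^ m * Fm ^ m := by
      rw [← mul_pow, ← mul_pow, ← mul_pow, ← mul_pow]
      congr 1
      rw [mul_assoc, g3b, mul_assoc]
    rw [div_eq_div_iff (pow_ne_zero _ (mul_ne_zero (mul_ne_zero g7 hb0) g11))
      (mul_ne_zero (pow_ne_zero _ g7) (pow_ne_zero _ (mul_ne_zero g8 g9)))]
    have hPm : P ^ m ≠ 0 := pow_ne_zero _ hP0
    refine mul_right_cancel₀ hPm ?_
    calc s p ^ m₀ * Fm ^ m * ll ^ d * (et ^ (m₀ * m) * (uu * WW) ^ m) * P ^ m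
        = (s p ^ m₀ * P ^ m) * ll ^ d * et ^ (m₀ * m) * (uu ^ m * WW ^ m * Fm ^ m) := by
          rw [mul_pow]; ring
      _ = (c p ^ m₀ * j ^ (m₀ * m)) * ll ^ d * et ^ (m₀ * m) *
          ((bb ^ m₀) ^ m * WW' ^ m * P ^ m) := by rw [hs2, hkey]
      _ = c p ^ m₀ * ll ^ d * WW' ^ m * (et * bb * j) ^ (m₀ * m) * P ^ m := by
          rw [mul_pow, mul_pow, ← pow_mul]; ring

end Vale.Agent.P281.H76
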