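import Vale.Agent.P281.H76.Fib

/-! P281 (helper76): the Kodaira dimension of the fibres of `f ∘ q`. -/

namespace Vale.Agent.P281.H76

open scoped Manifold ContDiff Topology ENNReal
open Set Filter Metric

set_option linter.all false

universe u

variable {E E' E₀ : Type} [NormedAddCommGroup E] [NormedSpace ℂ E]
  [NormedAddCommGroup E'] [NormedSpace ℂ E'] [NormedAddCommGroup E₀] [NormedSpace ℂ E₀]
  [FiniteDimensional ℂ E] [FiniteDimensional ℂ E'] [FiniteDimensional ℂ E₀]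
variable {X X' Y F : Type u} [TopologicalSpace X] [ChartedSpace E X] [IsManifold 𝓘(ℂ, E) ω X]
  [TopologicalSpace X'] [ChartedSpace E X'] [IsManifold 𝓘(ℂ, E) ω X']
  [TopologicalSpace Y] [ChartedSpace E' Y] [IsManifold 𝓘(ℂ, E') ω Y]
  [TopologicalSpace F] [ChartedSpace E₀ F] [IsManifold 𝓘(ℂ, E₀) ω F]

/-- hypersurfaces restrict to thin sets -/
theorem dense_restrict [PreconnectedSpace F] {i : F → X'} (hi : ∀ p, HolM E₀ E i p) {D : Set X'}
    (h : ∀ x, ∃ g, IsLocalEq E D g x) (hne : ∃ p, i p ∉ D) : Dense {p | i p ∉ D} := by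
  refine dense_of_local (E := E₀) hne fun p => ?_
  obtain ⟨g, hg⟩ := h (i p)
  refine ⟨fun z => g (i z), HolV.comp hg.holAt (hi p), ?_⟩
  filter_upwards [(hi p).continuousAt.eventually hg.eventually] with z hz
  rw [hz.mem_iff]

theorem dense_restrict_fin [PreconnectedSpace F] {i : F → X'} (hi : ∀ p, HolM E₀ E i p)
    {T : Set (Set X')} (hfin : T.Finite) (hcl : ∀ D ∈ T, IsClosed D)
    (h : ∀ D ∈ T, ∀ x, ∃ g, IsLocalEq E D g x) (hne : ∀ D ∈ T, ∃ p, i p ∉ D) :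
    IsOpen {p | ∀ D ∈ T, i p ∉ D} ∧ Dense {p | ∀ D ∈ T, i p ∉ D} := by
  have hic : Continuous i := continuous_iff_continuousAt.2 fun x => (hi x).continuousAt
  have hfin' : ((fun D : Set X' => i ⁻¹' D) '' T).Finite := hfin.image _
  have key := dense_compl_finite (X := F) hfin' (by
      rintro _ ⟨D, hD, rfl⟩
      exact (hcl D hD).preimage hic) (by
      rintro _ ⟨D, hD, rfl⟩
      exact dense_restrict hi (h D hD) (hne D hD))
  have heq : {p | ∀ D ∈ T, i p ∉ D} =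
      {x | ∀ D ∈ ((fun D : Set X' => i ⁻¹' D) '' T), x ∉ D} := by
    ext z
    simp only [mem_ofPred_eq, mem_image, forall_exists_index, and_imp, forall_apply_eq_imp_iff₂,
      mem_preimage]
  rw [heq]
  exact key

theorem section_localF {i : F → X'} (hi : ∀ p, HolM E₀ E i p) {m : ℕ} {k : Set X' → ℕ}
    {s : F → ℂ} {z : F} (hs : IsSection E₀ (eqnF E i) m k s) (hz : ∀ D, k D ≠ 0 → i z ∉ D) :
    ∃ A : F → ℂ, HolV E₀ A z ∧ ∀ᶠ p in 𝓝 z, s p = A p * jac E₀ (chartAt E₀ z) p ^ m := by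
  obtain ⟨T, g, a, hT, hg, ha, hev⟩ := hs z
  have hg0 : ∀ D ∈ T, k D ≠ 0 → g D z ≠ 0 := by
    intro D hD hk h0
    exact hz D hk (((eqnF_mem hi (hg D hD)).self_of_nhds).2 h0)
  have hQ : HolV E₀ (fun y => ∏ i ∈ T, g i y ^ k i) z :=
    HolV.prod fun D hD => (eqnF_hol hi (hg D hD)).pow _
  have hQ0 : ∏ i ∈ T, g i z ^ k i ≠ 0 := by
    refine Finset.prod_ne_zero_iff.2 fun D hD => ?_
    by_cases hk : k D = 0
    · simp [hk]
    · exact pow_ne_zero _ (hg0 D hD hk)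
  refine ⟨fun y => a y / ∏ i ∈ T, g i y ^ k i, HolV.div ha hQ hQ0, ?_⟩
  filter_upwards [hev, hQ.continuousAt.eventually_ne hQ0] with y hy hy0
  have := hy hy0
  rw [div_mul_eq_mul_div, ← this, mul_div_assoc, div_self hy0, mul_one]

variable {f : X → Y} {q : X' → X} {r : ℕ} {B : ProjectiveBundle E E' f r}
  {i : F → X'} {y : Y} {a : B.ι}

theorem J0_ne (e : (E × ℂ) ≃L[ℂ] (E' × (Fin (r + 1) → ℂ)))
    (e₀ : (E₀ × ℂ) ≃L[ℂ] (Fin (r + 1) → ℂ)) (hfc : ContMDiff 𝓘(ℂ, E) 𝓘(ℂ, E') ω f)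
    (hq : ∀ x, HolM E E q x) (hi : ∀ p, HolM E₀ E i p) (hya : y ∈ B.U a)
    (hfi : ∀ p, f (q (i p)) = y) {m₀ : ℕ} {k₀' : Set X' → ℕ} {k₀ : Set X → ℕ} {p : F}
    {u : X' → ℂ} (hlog : LogAt E q m₀ k₀' k₀ (i p) u)
    (hsub : Function.Surjective ((dM E E' f (q (i p))).comp (dM E E q (i p))))
    (himm : Function.Injective (dM E₀ E i p)) (hdet : (dM E E q (i p)).det ≠ 0)
    {v : X → (Fin (r + 1) → ℂ)} (hv : IsLift E f (B.π a) v (q (i p))) :
    J0 e₀ (fun p => v (q (i p))) p ≠ 0 := by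
  obtain ⟨T', g', T₁, g, b, hT', hg', hT₁, hg, hb, hu, hev⟩ := hlog
  have hjne : J e f v (q (i p)) ≠ 0 :=
    (J_ne_zero e hfc (B.triv a) (by rw [hfi]; exact hya) hv).1
  obtain ⟨η, hη, hη0, hηe⟩ := adj e e₀ (f := f) (q := q) (i := i) (v := v) (b := b) (p₀ := p)
    (fun x => hfc x) hq hi hv.hol hjne hb (hev.mono fun z hz => hz.1)
    (fun p => by rw [hfi, hfi]) hsub himm
  rw [hηe.self_of_nhds]
  have h1 := hev.self_of_nhds.1
  rw [(jac_comp (hq (i p))).self_of_nhds] at h1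
  have hb0 : b (i p) ≠ 0 := by
    intro h0
    rw [h0, zero_mul] at h1
    exact (mul_ne_zero (jac_chart_ne_zero (mem_chart_source E (q (i p)))) hdet) h1
  exact mul_ne_zero (mul_ne_zero hη0 hb0) (jac_chart_ne_zero (mem_chart_source E₀ p))

theorem kodF_le' [ConnectedSpace F] [CompactSpace F] (hr : 0 < r)
    (e : (E × ℂ) ≃L[ℂ] (E' × (Fin (r + 1) → ℂ)))
    (e₀ : (E₀ × ℂ) ≃L[ℂ] (Fin (r + 1) → ℂ)) (hfc : ContMDiff 𝓘(ℂ, E) 𝓘(ℂ, E') ω f)
    (hq : ∀ x, HolM E E q x) (hqs : Function.Surjective q)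
    (hi : ∀ p, HolM E₀ E i p) (hya : y ∈ B.U a)
    (hfi : ∀ p, f (q (i p)) = y) (hrng : ∀ x, f (q x) = y → ∃ p, i p = x)
    {Δ' : Set X' → ℝ} {Δ : Set X → ℝ} (hΔ' : IsSNCBoundary E Δ') (hΔ : IsSNCBoundary E Δ)
    (fd : FormData B {D | Δ D ≠ 0})
    {m₀ : ℕ} {k₀' : Set X' → ℕ} {k₀ : Set X → ℕ} (hm₀ : 0 < m₀)
    (hk₀' : ∀ D, (k₀' D : ℝ) = m₀ * Δ' D) (hk₀ : ∀ D, (k₀ D : ℝ) = m₀ * Δ D)
    (hlog : ∀ p, ∃ u : X' → ℂ, LogAt E q m₀ k₀' k₀ (i p) u ∧ u (i p) ≠ 0)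
    (hsub : ∀ p, Function.Surjective ((dM E E' f (q (i p))).comp (dM E E q (i p))))
    (himm : ∀ p, Function.Injective (dM E₀ E i p))
    (hgen : ∃ p, (dM E E q (i p)).det ≠ 0) {j : ℕ} (h : KodGE E₀ (eqnF E i) Δ' j)
    (hS : ∑ D ∈ hΔ.finite.toFinset, (fd.deg D : ℝ) * Δ D ≤ r + 1) :
    j = 0 ∧ ∑ D ∈ hΔ.finite.toFinset, (fd.deg D : ℝ) * Δ D = r + 1 := by
  classical
  obtain ⟨m, k, s, z, hm, hk, hs, hz, hs0, hind⟩ := h
  set Tf := hΔ.finite.toFinset with hTfdef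
  have hTf : ∀ D, D ∈ Tf ↔ D ∈ {D | Δ D ≠ 0} := fun D => Set.Finite.mem_toFinset _
  have hsupp : ∀ D, k₀ D ≠ 0 → Δ D ≠ 0 := by
    intro D hD h0
    have := hk₀ D
    rw [h0, mul_zero] at this
    exact hD (by exact_mod_cast this)
  have hm₀r : (0 : ℝ) < m₀ := by exact_mod_cast hm₀
  have hmr : (0 : ℝ) < m := by exact_mod_cast hm
  have hsuppinv : ∀ D, Δ D ≠ 0 → k₀ D ≠ 0 := by
    intro D hD h0
    have := hk₀ D
    rw [h0, Nat.cast_zero] at this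
    exact (mul_ne_zero hm₀r.ne' hD) this.symm
  have hsupp' : ∀ D, k₀' D ≠ 0 → Δ' D ≠ 0 := by
    intro D hD h0
    have := hk₀' D
    rw [h0, mul_zero] at this
    exact hD (by exact_mod_cast this)
  have hsm : Smooth E {D | k₀ D ≠ 0} := fun D hD => smooth_of_snc hΔ D (hsupp D hD)
  have hsm' : Smooth E {D | k₀' D ≠ 0} := fun D hD => smooth_of_snc hΔ' D (hsupp' D hD)
  have hkk : ∀ D, k D * m₀ = k₀' D * m := by
    intro D
    have h1 : ((k D * m₀ : ℕ) : ℝ) = ((k₀' D * m : ℕ) : ℝ) := by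
      push_cast
      rw [hk, hk₀']; ring
    exact_mod_cast h1
  have hsum : ((∑ D ∈ Tf, fd.deg D * k₀ D : ℕ) : ℝ) =
      m₀ * ∑ D ∈ Tf, (fd.deg D : ℝ) * Δ D := by
    push_cast
    rw [Finset.mul_sum]
    refine Finset.sum_congr rfl fun D _ => ?_
    rw [hk₀ D]; ring
  have hL : ∑ D ∈ Tf, fd.deg D * k₀ D ≤ (r + 1) * m₀ := by
    have h1 : ((∑ D ∈ Tf, fd.deg D * k₀ D : ℕ) : ℝ) ≤ (((r + 1) * m₀ : ℕ) : ℝ) := by
      rw [hsum]
      push_cast
      nlinarith only [hS, hm₀r]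
    exact_mod_cast h1
  set d : ℕ := ((r + 1) * m₀ - ∑ D ∈ Tf, fd.deg D * k₀ D) * m with hd
  have hdeq : d + (∑ D ∈ Tf, fd.deg D * k₀ D) * m = (r + 1) * (m₀ * m) := by
    rw [hd, ← add_mul, Nat.sub_add_cancel hL]; ring
  -- the good set
  have hzD : ∀ D, k D ≠ 0 → i z ∉ D := by
    intro D hkD hmem
    obtain ⟨g, hg, hg0⟩ := hz D hkD
    exact hg0 (((eqnF_mem hi hg).self_of_nhds).1 hmem)
  have hzD' : ∀ D, Δ' D ≠ 0 → i z ∉ D := by
    intro D hD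
    refine hzD D fun h0 => ?_
    have := hk D
    rw [h0, Nat.cast_zero] at this
    exact (mul_ne_zero hmr.ne' hD) this.symm
  obtain ⟨hGbo, hGbd⟩ := dense_restrict_fin (T := {D | Δ' D ≠ 0}) hi hΔ'.finite
    (fun D hD => (hΔ'.prime D hD).1) (fun D hD => (hΔ'.prime D hD).2.1)
    (fun D hD => ⟨z, hzD' D hD⟩)
  have hic : Continuous i := continuous_iff_continuousAt.2 fun x => (hi x).continuousAt
  have hGao : IsOpen {p | (dM E E q (i p)).det ≠ 0} := (isOpen_det hq).preimage hic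
  have hGad : Dense {p | (dM E E q (i p)).det ≠ 0} := by
    refine dense_of_local (E := E₀) hgen fun p => ?_
    obtain ⟨R, hR, hRe⟩ := det_local (hq (i p))
    exact ⟨fun z => R (i z), HolV.comp (h := R) hR (hi p), (hi p).continuousAt.eventually hRe⟩
  set G : Set F := {p | (dM E E q (i p)).det ≠ 0} ∩ {p | ∀ D ∈ {D | Δ' D ≠ 0}, i p ∉ D} with hGdef
  have hGd : Dense G := hGad.inter_of_isOpen_left hGbd hGao
  have hG1 : ∀ p ∈ G, (dM E E q (i p)).det ≠ 0 := fun p hp => hp.1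
  have hG2 : ∀ p ∈ G, ∀ D, k₀' D ≠ 0 → i p ∉ D := fun p hp D hD => hp.2 D (hsupp' D hD)
  -- lifts
  have hlift : ∀ p, ∃ v, IsLift E f (B.π a) v (q (i p)) := fun p =>
    (B.triv a).lift (q (i p)) (by rw [hfi]; exact hya)
  choose v hv using hlift
  choose u hu hu0 using hlog
  -- local functions
  have hloc := fun (b : Fin (j + 1)) (l : Fin (r + 1)) (p : F) =>
    fib_local (m := m) (d := d) (k := k) fd hTf (fun D hD => hsupp D hD) hm₀ hm hkk e e₀ hfc hq hi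
      hya hfi l hsm hsm' (hs b) (hu p) (hu0 p) (hsub p) (himm p) (hv p)
  choose A hA hA0 hAe using hloc
  have hqi : Continuous (fun p => q (i p)) :=
    (continuous_iff_continuousAt.2 fun x => (hq x).continuousAt).comp hic
  have hglue := fun (b : Fin (j + 1)) (l : Fin (r + 1)) =>
    glue_fun (G := G) hGd (h := fun p => hF fd Tf k₀ m₀ m d e₀ q i y a l (s b) (v p) p)
      (A := A b l) (hA b l) (by
        intro p₀
        filter_upwards [hAe b l p₀, hqi.continuousAt.eventually (hv p₀).eventually] with p h1 h2 hp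
        rw [← h1 (hG1 p hp) (hG2 p hp)]
        exact hF_change fd Tf k₀ e₀ (fun x => hfc x) hq hi hya hfi l (s b) h2 (hv p) hdeq)
  -- constants
  have hconst : ∀ (b : Fin (j + 1)) (l : Fin (r + 1)), ∃ C : ℂ, ∀ p, A b l p p = C := by
    intro b l
    have hmd : MDifferentiable 𝓘(ℂ, E₀) 𝓘(ℂ, ℂ) (fun p => A b l p p) := fun p =>
      ((hglue b l).1 p).mdiff
    exact ⟨A b l z z, fun p => hmd.apply_eq_of_compactSpace p z⟩
  choose C hC using hconst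
  have hHC : ∀ b l, ∀ p ∈ G, hF fd Tf k₀ m₀ m d e₀ q i y a l (s b) (v p) p = C b l := by
    intro b l p hp
    rw [← (hglue b l).2 p hp, hC]
  -- nonvanishing factors
  have hfac : ∀ p ∈ G, (∏ D ∈ Tf, form (fun J => fd.p a D J y) (v p (q (i p))) ^ k₀ D) ≠ 0 ∧
      J0 e₀ (fun p' => v p (q (i p'))) p ≠ 0 := by
    intro p hp
    refine ⟨Finset.prod_ne_zero_iff.2 fun D hD => ?_,
      J0_ne e e₀ hfc hq hi hya hfi (hu p) (hsub p) (himm p) (hG1 p hp) (hv p)⟩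
    have hD' : Δ D ≠ 0 := (hTf D).1 hD
    refine pow_ne_zero _ fun h0 => ?_
    have h1 := (mem_iff_form B fd ((hTf D).1 hD) hya (hv p).ne_zero).2 h0
    have h2 := (hv p).eq
    rw [hfi] at h2
    rw [h2] at h1
    exact crep_good (hq (i p)) (hu p) (hG1 p hp) (hG2 p hp) D (hsuppinv D hD') h1
  -- near `z`
  obtain ⟨A₀, hA₀, hA₀e⟩ := section_localF hi (hs 0) hzD
  have hA₀0 : A₀ z ≠ 0 := by
    intro h0
    have := hA₀e.self_of_nhds
    rw [h0, zero_mul] at this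
    exact hs0 this
  have hs0ev : ∀ᶠ p in 𝓝 z, s 0 p ≠ 0 := by
    filter_upwards [hA₀e, hA₀.continuousAt.eventually_ne hA₀0, jac_chart_ev (E := E₀) z]
      with p h1 h2 h3
    rw [h1]
    exact mul_ne_zero h2 (pow_ne_zero _ h3)
  obtain ⟨V, hV, hVo, hzV⟩ := eventually_nhds_iff.1 hs0ev
  obtain ⟨z₁, hz₁V, hz₁G⟩ := hGd.inter_open_nonempty V hVo ⟨z, hzV⟩
  have hs1 : s 0 z₁ ≠ 0 := hV z₁ hz₁V
  -- `d = 0`
  have hd0 : d = 0 := by
    by_contra hdne
    have hdpos : 0 < d := Nat.pos_of_ne_zero hdne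
    obtain ⟨l, hl⟩ : ∃ l, v z₁ (q (i z₁)) l ≠ 0 := by
      by_contra hcon
      push Not at hcon
      exact (hv z₁).ne_zero (funext hcon)
    have h1 : C 0 l ≠ 0 := by
      rw [← hHC 0 l z₁ hz₁G]
      unfold hF
      obtain ⟨h2, h3⟩ := hfac z₁ hz₁G
      exact div_ne_zero (mul_ne_zero (mul_ne_zero (pow_ne_zero _ hs1) (pow_ne_zero _ h2))
        (pow_ne_zero _ hl)) (pow_ne_zero _ h3)
    -- a point on the hyperplane
    obtain ⟨l', hl'⟩ : ∃ l' : Fin (r + 1), l' ≠ l := by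
      have : Nontrivial (Fin (r + 1)) := Fin.nontrivial_iff_two_le.2 (by omega)
      exact exists_ne l
    set w₀ : Fin (r + 1) → ℂ := Pi.single l' 1 with hw₀
    have hw₀0 : w₀ ≠ 0 := by
      intro h0
      have := congrFun h0 l'
      simp [hw₀] at this
    have hw₀l : w₀ l = 0 := by simp [hw₀, Pi.single_apply, hl'.symm]
    have hfx : f (B.π a y w₀) = y := (B.triv a).proj y hya w₀ hw₀0
    obtain ⟨x', hx'⟩ := hqs (B.π a y w₀)
    obtain ⟨p₂, hp₂⟩ := hrng x' (by rw [hx', hfx])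
    have hlift2 := (hv p₂).eq
    rw [hfi, hp₂, hx'] at hlift2
    have hvne : v p₂ (B.π a y w₀) ≠ 0 := by
      have := (hv p₂).ne_zero
      rwa [hp₂, hx'] at this
    obtain ⟨c, hc⟩ := ((B.triv a).eq_iff y hya _ hvne w₀ hw₀0).1 hlift2
    have hvl : v p₂ (q (i p₂)) l = 0 := by
      rw [hp₂, hx']
      have h2 := congrFun hc l
      rw [hw₀l, Pi.smul_apply, smul_eq_mul] at h2
      have hc0 : c ≠ 0 := by
        rintro rfl
        rw [zero_smul] at hc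
        exact hw₀0 hc
      exact (mul_eq_zero.1 h2.symm).resolve_left hc0
    have h3 := hA0 0 l p₂ hdpos hvl
    rw [hC] at h3
    exact h1 h3
  refine ⟨?_, ?_⟩
  · by_contra hj
    have b : Fin j := ⟨0, Nat.pos_of_ne_zero hj⟩
    apply hind.ne_zero b
    let l : Fin (r + 1) := 0
    have hC0 : C 0 l ≠ 0 := by
      rw [← hHC 0 l z₁ hz₁G]
      unfold hF
      obtain ⟨h2, h3⟩ := hfac z₁ hz₁G
      rw [hd0, pow_zero, mul_one]
      exact div_ne_zero (mul_ne_zero (pow_ne_zero _ hs1) (pow_ne_zero _ h2)) (pow_ne_zero _ h3)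
    obtain ⟨Ab, hAb, hAbe⟩ := section_localF hi (hs b.succ) hzD
    set ρ : F → ℂ := fun w => s b.succ w / s 0 w with hρ
    have hρh : HolV E₀ ρ z := by
      refine HolV.congr (HolV.div hAb hA₀ hA₀0) ?_
      filter_upwards [hAbe, hA₀e, jac_chart_ev (E := E₀) z] with p h1 h2 h3
      rw [hρ]
      show s b.succ p / s 0 p = Ab p / A₀ p
      rw [h1, h2, mul_div_mul_right _ _ (pow_ne_zero _ h3)]
    -- on `G`
    have hρG : ∀ p ∈ G, s 0 p ≠ 0 → ρ p ^ m₀ = C b.succ l / C 0 l := by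
      intro p hp hsp
      obtain ⟨h2, h3⟩ := hfac p hp
      rw [← hHC b.succ l p hp, ← hHC 0 l p hp]
      unfold hF
      rw [hd0, pow_zero, mul_one, mul_one]
      have h4 : J0 e₀ (fun p' => v p (q (i p'))) p ^ (m₀ * m) ≠ 0 := pow_ne_zero _ h3
      have h5 := pow_ne_zero m h2
      rw [div_div_div_cancel_right₀ h4, mul_div_mul_right _ _ h5, hρ, ← div_pow]
    -- near `z`
    have hρz : ∀ᶠ p in 𝓝 z, ρ p ^ m₀ = C b.succ l / C 0 l := by
      filter_upwards [(hρh.pow m₀).eventually, eventually_eventually_nhds.2 hs0ev] with p h1 h2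
      by_contra hne
      have h5 := (h1.continuousAt.ne_iff_eventually_ne
        (continuousAt_const (y := C b.succ l / C 0 l))).1 hne
      obtain ⟨V', hV', hVo', hzV'⟩ := eventually_nhds_iff.1 (h5.and h2)
      obtain ⟨w, hwV, hwG⟩ := hGd.inter_open_nonempty V' hVo' ⟨p, hzV'⟩
      exact (hV' w hwV).1 (hρG w hwG (hV' w hwV).2)
    show dV E₀ ρ z = 0
    by_cases hρ0 : ρ z = 0
    · have hc0 : C b.succ l / C 0 l = 0 := by
        rw [← hρz.self_of_nhds, hρ0, zero_pow hm₀.ne']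
      have : ρ =ᶠ[𝓝 z] fun _ => (0 : ℂ) := by
        filter_upwards [hρz] with p hp
        rw [hc0] at hp
        exact (pow_eq_zero_iff hm₀.ne').1 hp
      rw [dV_congr this]
      unfold dV; rw [mfderiv_const]; rfl
    · have hp : ContDiffAt ℂ ω (fun t : ℂ => t ^ m₀) (ρ z) := (contDiff_id.pow m₀).contDiffAt
      have h3 : dV E₀ (fun y => (ρ y) ^ m₀) z =
          (fderiv ℂ (fun t : ℂ => t ^ m₀) (ρ z)).comp (dV E₀ ρ z) :=
        dV_comp_contDiff hp hρh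
      have h4 : HasDerivAt (fun t : ℂ => t ^ m₀) ((m₀ : ℂ) * ρ z ^ (m₀ - 1)) (ρ z) :=
        hasDerivAt_pow m₀ _
      have h6 : dV E₀ (fun y => (ρ y) ^ m₀) z = 0 := by
        have : (fun y => (ρ y) ^ m₀) =ᶠ[𝓝 z] fun _ => C b.succ l / C 0 l := hρz
        rw [dV_congr this]
        unfold dV; rw [mfderiv_const]; rfl
      rw [h6] at h3
      refine ContinuousLinearMap.ext fun ξ => ?_
      have h7 := congrArg (fun A : E₀ →L[ℂ] ℂ => A ξ) h3.symm
      simp only [ContinuousLinearMap.comp_apply] at h7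
      rw [h4.hasFDerivAt.fderiv] at h7
      have h8 : ((m₀ : ℂ) * ρ z ^ (m₀ - 1)) ≠ 0 :=
        mul_ne_zero (by exact_mod_cast hm₀.ne') (pow_ne_zero _ hρ0)
      have h9 : dV E₀ ρ z ξ * ((m₀ : ℂ) * ρ z ^ (m₀ - 1)) = 0 := by
        simpa using h7
      exact (mul_eq_zero.1 h9).resolve_right h8
  · -- `S = r + 1`
    have h1 : (r + 1) * m₀ - ∑ D ∈ Tf, fd.deg D * k₀ D = 0 := by
      rcases Nat.mul_eq_zero.1 (hd ▸ hd0) with h | h
      · exact h
      · exact absurd h hm.ne'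
    have h2 : ∑ D ∈ Tf, fd.deg D * k₀ D = (r + 1) * m₀ := le_antisymm hL (Nat.sub_eq_zero_iff_le.1 h1)
    have h3 : ((∑ D ∈ Tf, fd.deg D * k₀ D : ℕ) : ℝ) = (((r + 1) * m₀ : ℕ) : ℝ) := by rw [h2]
    rw [hsum] at h3
    push_cast at h3
    have h4 : (m₀ : ℝ) * (∑ D ∈ Tf, (fd.deg D : ℝ) * Δ D) = m₀ * (r + 1) := by rw [h3]; ring
    exact mul_left_cancel₀ hm₀r.ne' h4

end Vale.Agent.P281.H76
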