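import Vale.Agent.P281.H76.LP
import Vale.Agent.P281.Bdl.B1

/-! P281 (helper76): covariants of log canonical tuples of forms. -/

namespace Vale.Agent.P281.GIT.L

open MvPolynomial Vale.Agent.P281
open scoped ContDiff

set_option linter.all false

section Main

variable {κ : Type*} [Fintype κ] {deg : κ → ℕ} {n : ℕ} {K : κ → ℕ} {N m : ℕ}

/-- The algebraic Hilbert-Mumford criterion. -/
theorem exists_nonvanishing (p0 : Coefs deg n) (v0 : Fin n → ℂ)
    (hBAL : ∀ h : Matrix (Fin n) (Fin n) ℂ, h.det ≠ 0 →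
      ∃ (σ : Type) (_ : Fintype σ) (j0 : Fin n) (J : σ → (i : κ) → Fin (deg i) → Fin n)
        (lam : σ → ℕ),
        (h.adjugate.mulVec v0) j0 ≠ 0 ∧ (∀ j i, act (sym (p0 i)) h (J j i) ≠ 0) ∧
        0 < ∑ j, lam j ∧
        ∀ l, ∑ j, lam j * ∑ i, K i * cnt l (J j i) =
          (∑ j, lam j) * (m + if l = j0 then N else 0)) :
    ∃ (j w₁ : ℕ) (μ : Fin j → Mon deg n K N), 0 < j ∧
      fock ((XM n).det ^ (w₁ + j * (m + N))) ((XM n).det ^ w₁ * ∏ s, xp p0 v0 (μ s)) ≠ 0 := by
  by_contra hcon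
  push Not at hcon
  obtain ⟨O, hO1, hO2⟩ := exists_valuation (XM n).det (fun w => fock_det_ne_zero w) (m + N)
    (xp (K := K) (N := N) p0 v0) (fun j w₁ μ hj => hcon j w₁ μ hj)
  set L := FractionRing (MvPolynomial (Fin n × Fin n) ℂ) with hL
  set ι : MvPolynomial (Fin n × Fin n) ℂ →+* L := algebraMap (MvPolynomial (Fin n × Fin n) ℂ) L
    with hι
  have hinj : Function.Injective ι := IsFractionRing.injective (MvPolynomial (Fin n × Fin n) ℂ) L
  set G : Matrix (Fin n) (Fin n) L := (XM n).map ι with hG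
  have hdetG : G.det = ι (XM n).det := by
    rw [hG, RingHom.map_det]; rfl
  have hδ0 : (XM n).det ≠ 0 := by
    intro h0
    have := fock_det_ne_zero (n := n) 1
    rw [h0, pow_one, map_zero] at this
    exact this rfl
  have hδ : G.det ≠ 0 := by
    rw [hdetG]
    exact fun h0 => hδ0 (hinj (by rw [h0, map_zero]))
  -- the data over `L`
  set q : (i : κ) → (Fin (deg i) → Fin n) → L := fun i J => algebraMap ℂ L (sym (p0 i) J) with hq
  set u : Fin n → L := fun l => algebraMap ℂ L (v0 l) with hu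
  have hιC : ∀ c : ℂ, ι (C c) = algebraMap ℂ L c := by
    intro c
    rfl
  have hx : ∀ μ : Mon deg n K N, ι (xp p0 v0 μ) = xm q u G μ := by
    intro μ
    unfold xp
    rw [xm_map]
    simp only [hιC]
    rfl
  -- decomposition
  obtain ⟨k₁, k₂, hk₁, hk₂, D, hD⟩ := kak O n G
  obtain ⟨a, ha, ha1, ha2⟩ := hk₁.exists_inv
  obtain ⟨c, hc, hc1, hc2⟩ := hk₂.exists_inv
  have hGD : G = a * Matrix.diagonal D * c := by
    rw [← hD]
    calc G = (a * k₁) * G * (k₂ * c) := by rw [ha2, hc1, Matrix.one_mul, Matrix.mul_one]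
      _ = a * (k₁ * G * k₂) * c := by simp only [Matrix.mul_assoc]
  have hGk : G * k₂ = a * Matrix.diagonal D := by
    rw [hGD, Matrix.mul_assoc, hc2, Matrix.mul_one]
  have hvδ : O.valuation G.det = ∏ l, O.valuation (D l) := by
    rw [hGD, Matrix.det_mul, Matrix.det_mul, Matrix.det_diagonal, map_mul, map_mul, ha.det, hc.det,
      one_mul, mul_one, map_prod]
  -- maximal valuations
  have hn : Nonempty (Fin n) := by
    obtain ⟨_, _, j0, -⟩ := hBAL 1 (by simp)
    exact ⟨j0⟩
  have hmax1 : ∀ i, ∃ J₀, ∀ J, O.valuation (act (q i) G J) ≤ O.valuation (act (q i) G J₀) :=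
    fun i => Finite.exists_max (fun J => O.valuation (act (q i) G J))
  choose Js hJs using hmax1
  obtain ⟨ls, hls⟩ : ∃ l₀, ∀ l, O.valuation (G.adjugate.mulVec u l) ≤
      O.valuation (G.adjugate.mulVec u l₀) :=
    Finite.exists_max (fun l => O.valuation (G.adjugate.mulVec u l))
  -- the tensor in the diagonal frame
  have ht1 : ∀ i J, O.valuation ((∏ s, D (J s)) * act (q i) a J) ≤
      O.valuation (act (q i) G (Js i)) := by
    intro i J
    rw [← act_diagonal, ← act_mul, ← hGk, act_mul]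
    rw [show act (act (q i) G) k₂ J =
      ∑ J' : Fin (deg i) → Fin n, (∏ l, k₂ (J' l) (J l)) * act (q i) G J' from rfl]
    exact val_sum_le _ _ _ _ (fun J' _ => prod_mem fun l _ => hk₂.mem _ _) fun J' _ => hJs i J'
  have ht2 : ∀ j, O.valuation ((∏ l ∈ Finset.univ.erase j, D l) * (a.adjugate.mulVec u) j) ≤
      O.valuation (G.adjugate.mulVec u ls) := by
    intro j
    have h1 : (∏ l ∈ Finset.univ.erase j, D l) * (a.adjugate.mulVec u) j =
        ((Matrix.diagonal D).adjugate.mulVec (a.adjugate.mulVec u)) j := by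
      rw [Matrix.adjugate_diagonal, Matrix.mulVec_diagonal]
    have h2 : (Matrix.diagonal D).adjugate.mulVec (a.adjugate.mulVec u) =
        (k₂.adjugate).mulVec (G.adjugate.mulVec u) := by
      rw [Matrix.mulVec_mulVec, Matrix.mulVec_mulVec, ← Matrix.adjugate_mul_distrib,
        ← Matrix.adjugate_mul_distrib, hGk]
    rw [h1, h2]
    rw [show (k₂.adjugate).mulVec (G.adjugate.mulVec u) j =
      ∑ l, k₂.adjugate j l * (G.adjugate.mulVec u) l from rfl]
    refine val_sum_le _ _ _ _ (fun l _ => ?_) fun l _ => hls l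
    rw [Matrix.adjugate_apply, Matrix.det_apply']
    refine sum_mem fun σ _ => mul_mem (intCast_mem O _) (prod_mem fun i _ => ?_)
    rw [Matrix.updateRow_apply]
    split_ifs
    · rw [Pi.single_apply]
      split_ifs
      · exact one_mem _
      · exact zero_mem _
    · exact hk₂.mem _ _
  -- the strict inequality
  have hlt : (∏ i, O.valuation (act (q i) G (Js i)) ^ K i) *
      O.valuation (G.adjugate.mulVec u ls) ^ N < O.valuation G.det ^ (m + N) := by
    have h1 := hO2 (fun i s => Js i, fun s => ls)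
    rw [hx, map_div₀, map_pow, ← hdetG] at h1
    have h2 : 0 < O.valuation G.det ^ (m + N) :=
      pow_pos (zero_lt_iff.2 ((map_ne_zero _).2 hδ)) _
    rw [div_lt_one₀ h2] at h1
    refine lt_of_eq_of_lt ?_ h1
    unfold xm
    simp only [Finset.prod_const, Finset.card_univ, Fintype.card_fin, map_mul, map_prod, map_pow]
  -- the frame
  obtain ⟨h, hh, hfr⟩ := exists_frame O hO1 a ha.mem ha.det
  obtain ⟨σ, instσ, j0, J, lam, hb1, hb2, hb3, hb4⟩ := hBAL h hh
  have hf1 : ∀ j i, O.valuation (act (q i) a (J j i)) = 1 := by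
    intro j i
    have h1 := hfr (act (fun J => (C (sym (p0 i) J) : MvPolynomial (Fin n × Fin n) ℂ)) (XM n)
      (J j i)) ?_
    · have h2 : aeval (fun p : Fin n × Fin n => a p.1 p.2)
          (act (fun J => (C (sym (p0 i) J) : MvPolynomial (Fin n × Fin n) ℂ)) (XM n) (J j i)) =
          act (q i) a (J j i) := by
        have := act_map ((aeval (fun p : Fin n × Fin n => a p.1 p.2) :
          MvPolynomial (Fin n × Fin n) ℂ →ₐ[ℂ] L) : MvPolynomial (Fin n × Fin n) ℂ →+* L)
          (fun J => (C (sym (p0 i) J) : MvPolynomial (Fin n × Fin n) ℂ)) (XM n) (J j i)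
        rw [RingHom.coe_coe] at this
        rw [this]
        congr 1
        · funext J
          simp [hq]
        · ext i j
          simp only [XM, Matrix.map_apply, Matrix.mvPolynomialX_apply, aeval_X]
      rw [← h2]
      exact h1
    · have := act_map (eval (fun p : Fin n × Fin n => h p.1 p.2))
        (fun J => (C (sym (p0 i) J) : MvPolynomial (Fin n × Fin n) ℂ)) (XM n) (J j i)
      rw [this]
      have h3 : (XM n).map (eval (fun p : Fin n × Fin n => h p.1 p.2)) = h := by
        ext i j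
        simp [XM, Matrix.mvPolynomialX_apply]
      rw [h3]
      simpa only [eval_C, ne_eq] using hb2 j i
  have hf2 : O.valuation ((a.adjugate.mulVec u) j0) = 1 := by
    have h1 := hfr (((XM n).adjugate.mulVec
      (fun l => (C (v0 l) : MvPolynomial (Fin n × Fin n) ℂ))) j0) ?_
    · have h2 : aeval (fun p : Fin n × Fin n => a p.1 p.2)
          (((XM n).adjugate.mulVec
            (fun l => (C (v0 l) : MvPolynomial (Fin n × Fin n) ℂ))) j0) =
          (a.adjugate.mulVec u) j0 := by
        have h3 : a = (XM n).map (aeval (fun p : Fin n × Fin n => a p.1 p.2) :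
          MvPolynomial (Fin n × Fin n) ℂ →ₐ[ℂ] L) := by
          ext i j
          simp only [XM, Matrix.map_apply, Matrix.mvPolynomialX_apply, aeval_X]
        have h4 : a.adjugate = (XM n).adjugate.map (aeval (fun p : Fin n × Fin n => a p.1 p.2) :
          MvPolynomial (Fin n × Fin n) ℂ →ₐ[ℂ] L) := by
          conv_lhs => rw [h3]
          have := AlgHom.map_adjugate (aeval (fun p : Fin n × Fin n => a p.1 p.2) :
            MvPolynomial (Fin n × Fin n) ℂ →ₐ[ℂ] L) (XM n)
          rw [AlgHom.mapMatrix_apply, AlgHom.mapMatrix_apply] at this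
          exact this.symm
        rw [h4]
        simp only [Matrix.mulVec, dotProduct, map_sum, map_mul, algHom_C, Matrix.map_apply, hu]
        rfl
      rw [← h2]
      exact h1
    · have h3 : (XM n).map (eval (fun p : Fin n × Fin n => h p.1 p.2)) = h := by
        ext i j
        simp [XM, Matrix.mvPolynomialX_apply]
      have h4 : h.adjugate = (XM n).adjugate.map (eval (fun p : Fin n × Fin n => h p.1 p.2)) := by
        conv_lhs => rw [← h3]
        have := RingHom.map_adjugate (eval (fun p : Fin n × Fin n => h p.1 p.2)) (XM n)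
        rw [RingHom.mapMatrix_apply, RingHom.mapMatrix_apply] at this
        exact this.symm
      have h5 : (eval fun p : Fin n × Fin n => h p.1 p.2)
          (((XM n).adjugate.mulVec
            (fun l => (C (v0 l) : MvPolynomial (Fin n × Fin n) ℂ))) j0) =
          (h.adjugate.mulVec v0) j0 := by
        rw [h4]
        simp only [Matrix.mulVec, dotProduct, map_sum, map_mul, eval_C, Matrix.map_apply]
      rw [h5]
      exact hb1
  -- combine
  set d : Fin n → O.ValueGroup := fun l => O.valuation (D l) with hd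
  have hd0 : ∀ l, d l ≠ 0 := by
    intro l h0
    have h1 : O.valuation G.det = 0 := by
      rw [hvδ]; exact Finset.prod_eq_zero (Finset.mem_univ l) h0
    exact hδ ((map_eq_zero _).1 h1)
  have hineq : ∀ j, (∏ i, (∏ l, d l ^ cnt l (J j i)) ^ K i) *
      (∏ l ∈ Finset.univ.erase j0, d l) ^ N ≤
      (∏ i, O.valuation (act (q i) G (Js i)) ^ K i) * O.valuation (G.adjugate.mulVec u ls) ^ N := by
    intro j
    refine mul_le_mul' (Finset.prod_le_prod' fun i _ => pow_le_pow_left' ?_ _)
      (pow_le_pow_left' ?_ _)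
    · have := ht1 i (J j i)
      rw [map_mul, hf1, mul_one, map_prod] at this
      rw [← prod_cnt d]
      exact this
    · have := ht2 j0
      rw [map_mul, hf2, mul_one, map_prod] at this
      exact this
  set A := (∏ i, O.valuation (act (q i) G (Js i)) ^ K i) *
    O.valuation (G.adjugate.mulVec u ls) ^ N with hA
  have hprod : ∏ j, ((∏ i, (∏ l, d l ^ cnt l (J j i)) ^ K i) *
      (∏ l ∈ Finset.univ.erase j0, d l) ^ N) ^ lam j ≤ A ^ (∑ j, lam j) := by
    rw [← Finset.prod_pow_eq_pow_sum]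
    exact Finset.prod_le_prod' fun j _ => pow_le_pow_left' (hineq j) _
  have hstrict : A ^ (∑ j, lam j) < (O.valuation G.det ^ (m + N)) ^ (∑ j, lam j) :=
    pow_lt_pow_left₀ hlt zero_le hb3.ne'
  have heq : ∏ j, ((∏ i, (∏ l, d l ^ cnt l (J j i)) ^ K i) *
      (∏ l ∈ Finset.univ.erase j0, d l) ^ N) ^ lam j =
      (O.valuation G.det ^ (m + N)) ^ (∑ j, lam j) := by
    have h1 : ∀ j, (∏ i, (∏ l, d l ^ cnt l (J j i)) ^ K i) = ∏ l, d l ^ (∑ i, K i * cnt l (J j i)) := by
      intro j
      simp only [← Finset.prod_pow]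
      rw [Finset.prod_comm]
      refine Finset.prod_congr rfl fun l _ => ?_
      rw [← Finset.prod_pow_eq_pow_sum]
      refine Finset.prod_congr rfl fun i _ => ?_
      rw [← pow_mul, mul_comm]
    simp only [h1, mul_pow]
    rw [Finset.prod_mul_distrib]
    have h2 : ∏ j, (∏ l, d l ^ (∑ i, K i * cnt l (J j i))) ^ lam j =
        ∏ l, d l ^ ((∑ j, lam j) * (m + if l = j0 then N else 0)) := by
      simp only [← Finset.prod_pow]
      rw [Finset.prod_comm]
      refine Finset.prod_congr rfl fun l _ => ?_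
      rw [← hb4 l, ← Finset.prod_pow_eq_pow_sum]
      refine Finset.prod_congr rfl fun j _ => ?_
      rw [← pow_mul, mul_comm]
    have h3 : ∏ j, ((∏ l ∈ Finset.univ.erase j0, d l) ^ N) ^ lam j =
        ((∏ l ∈ Finset.univ.erase j0, d l) ^ N) ^ (∑ j, lam j) :=
      Finset.prod_pow_eq_pow_sum _ _ _
    rw [h2, h3, hvδ]
    have h4 : ∏ l, d l ^ ((∑ j, lam j) * (m + if l = j0 then N else 0)) =
        ((∏ l, d l) ^ m * d j0 ^ N) ^ (∑ j, lam j) := by
      have : ∀ l, d l ^ ((∑ j, lam j) * (m + if l = j0 then N else 0)) =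
          (d l ^ m * (if l = j0 then d j0 ^ N else 1)) ^ (∑ j, lam j) := by
        intro l
        rw [mul_comm (∑ j, lam j), pow_mul, pow_add]
        congr 2
        split_ifs with hl
        · rw [hl]
        · rw [pow_zero]
      rw [Finset.prod_congr rfl fun l _ => this l, Finset.prod_pow, Finset.prod_mul_distrib,
        Finset.prod_pow, Finset.prod_ite_eq' Finset.univ j0, if_pos (Finset.mem_univ j0)]
    rw [h4, ← mul_pow]
    congr 1
    have h5 : d j0 * ∏ l ∈ Finset.univ.erase j0, d l = ∏ l, d l :=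
      Finset.mul_prod_erase Finset.univ d (Finset.mem_univ j0)
    rw [pow_add, mul_assoc, ← mul_pow, h5]
  exact absurd (hprod.trans_lt hstrict) (by rw [heq]; exact lt_irrefl _)

end Main

section Lc

variable {κ : Type*} [Fintype κ] {deg : κ → ℕ} {n : ℕ} {K : κ → ℕ} {N m : ℕ}

/-- the tuple of forms `p` with coefficients `c` is log canonical (with respect to the weighted
blow ups in linear coordinates). -/
def LcForm (c : κ → ℝ) (p : Coefs deg n) : Prop :=
  ∀ h : Matrix (Fin n) (Fin n) ℂ, h.det ≠ 0 → ∀ w : Fin n → ℕ, (∃ l, w l = 0) →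
    ∃ J : (i : κ) → Fin (deg i) → Fin n, (∀ i, act (sym (p i)) h (J i) ≠ 0) ∧
      ∑ i, c i * ∑ s, (w (J i s) : ℝ) ≤ ∑ l, (w l : ℝ)

theorem sum_cnt_w {n d : ℕ} (w : Fin n → ℤ) (J : Fin d → Fin n) :
    ∑ s, w (J s) = ∑ l, w l * cnt l J := by
  rw [← Finset.sum_fiberwise' (Finset.univ : Finset (Fin d)) J w]
  refine Finset.sum_congr rfl fun l _ => ?_
  rw [Finset.sum_const, nsmul_eq_mul, mul_comm]
  rfl

theorem exists_covariant {c : κ → ℝ} (p : Coefs deg n) (hp : LcForm c p) (v : Fin n → ℂ)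
    (hv : v ≠ 0) (hm : 0 < m) (hK : ∀ i, (K i : ℝ) = m * c i)
    (hsum : n * m + N = ∑ i, deg i * K i) :
    ∃ j : ℕ, 0 < j ∧ ∃ A : Covariant deg n Set.univ (fun i => j * K i) (j * m) (j * N),
      A.C p v ≠ 0 := by
  classical
  have hB : ∀ h : Matrix (Fin n) (Fin n) ℂ, h.det ≠ 0 →
      ∃ (σ : Type) (_ : Fintype σ) (j0 : Fin n) (J : σ → (i : κ) → Fin (deg i) → Fin n)
        (lam : σ → ℕ),
        (h.adjugate.mulVec v) j0 ≠ 0 ∧ (∀ j i, GIT.act (sym (p i)) h (J j i) ≠ 0) ∧
        0 < ∑ j, lam j ∧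
        ∀ l, ∑ j, lam j * ∑ i, K i * cnt l (J j i) =
          (∑ j, lam j) * (m + if l = j0 then N else 0) := by
    intro h hh
    have hu : IsUnit h.adjugate := by
      rw [Matrix.isUnit_iff_isUnit_det, Matrix.det_adjugate]
      exact isUnit_iff_ne_zero.2 (pow_ne_zero _ hh)
    have hav : h.adjugate.mulVec v ≠ 0 := by
      intro h0
      apply hv
      exact (Matrix.mulVec_injective_iff_isUnit.2 hu) (by rw [h0, Matrix.mulVec_zero])
    obtain ⟨j0, hj0⟩ := Function.ne_iff.1 hav
    have hne : Nonempty (Fin n) := ⟨j0⟩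
    let S := {J : (i : κ) → Fin (deg i) → Fin n // ∀ i, GIT.act (sym (p i)) h (J i) ≠ 0}
    let V : S → Fin n → ℤ := fun s l => (∑ i, (K i : ℤ) * cnt l (s.1 i)) -
      (m + if l = j0 then (N : ℤ) else 0)
    have hC : ∀ J : (i : κ) → Fin (deg i) → Fin n,
        ∑ l, ∑ i, (K i : ℤ) * cnt l (J i) = n * m + N := by
      intro J
      rw [Finset.sum_comm]
      have h1 : ((n * m + N : ℕ) : ℤ) = ((∑ i, deg i * K i : ℕ) : ℤ) := by rw [hsum]
      push_cast at h1
      rw [h1]
      refine Finset.sum_congr rfl fun i _ => ?_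
      rw [← Finset.mul_sum, mul_comm]
      congr 1
      have := sum_cnt (J i)
      exact_mod_cast this
    obtain ⟨σ, instσ, τ, lam, hl1, hl2⟩ := Vale.Agent.P281.H76.lp V (by
      intro s
      show ∑ l, ((∑ i, (K i : ℤ) * cnt l (s.1 i)) - (m + if l = j0 then (N : ℤ) else 0)) = 0
      rw [Finset.sum_sub_distrib, hC, Finset.sum_add_distrib,
        Finset.sum_ite_eq' Finset.univ j0, if_pos (Finset.mem_univ _)]
      simp only [Finset.sum_const, Finset.card_univ, Fintype.card_fin, nsmul_eq_mul]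
      ring) (by
      intro w
      obtain ⟨l1, hl1⟩ : ∃ l1, ∀ l, w l1 ≤ w l := Finite.exists_min w
      obtain ⟨J, hJ1, hJ2⟩ := hp h hh (fun l => w l - w l1) ⟨l1, Nat.sub_self _⟩
      refine ⟨⟨J, hJ1⟩, ?_⟩
      show ∑ l, (w l : ℤ) * ((∑ i, (K i : ℤ) * cnt l (J i)) -
        (m + if l = j0 then (N : ℤ) else 0)) ≤ 0
      have e1 : ∑ i, (K i : ℤ) * ∑ s, ((w (J i s) - w l1 : ℕ) : ℤ) ≤
          m * ∑ l, ((w l - w l1 : ℕ) : ℤ) := by
        have h1 : ((∑ i, (K i : ℤ) * ∑ s, ((w (J i s) - w l1 : ℕ) : ℤ) : ℤ) : ℝ) ≤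
            ((m * ∑ l, ((w l - w l1 : ℕ) : ℤ) : ℤ) : ℝ) := by
          push_cast
          have h2 : ∀ i, (K i : ℝ) * ∑ s, ((w (J i s) - w l1 : ℕ) : ℝ) =
              m * (c i * ∑ s, ((w (J i s) - w l1 : ℕ) : ℝ)) := by
            intro i; rw [hK]; ring
          rw [Finset.sum_congr rfl fun i _ => h2 i, ← Finset.mul_sum]
          exact mul_le_mul_of_nonneg_left hJ2 (Nat.cast_nonneg _)
        exact_mod_cast h1
      have e2 : ∀ l, ((w l - w l1 : ℕ) : ℤ) = (w l : ℤ) - w l1 := fun l => by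
        rw [Nat.cast_sub (hl1 l)]
      simp only [e2] at e1
      have e3 : ∑ i, (K i : ℤ) * ∑ s, ((w (J i s) : ℤ) - w l1) =
          ∑ l, ((w l : ℤ) - w l1) * ∑ i, (K i : ℤ) * cnt l (J i) := by
        have h3 : ∀ i, (K i : ℤ) * ∑ s, ((w (J i s) : ℤ) - w l1) =
            ∑ l, ((w l : ℤ) - w l1) * ((K i : ℤ) * cnt l (J i)) := by
          intro i
          rw [sum_cnt_w (fun l => (w l : ℤ) - w l1) (J i), Finset.mul_sum]
          exact Finset.sum_congr rfl fun l _ => by ring
        rw [Finset.sum_congr rfl fun i _ => h3 i, Finset.sum_comm]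
        exact Finset.sum_congr rfl fun l _ => by rw [Finset.mul_sum]
      rw [e3] at e1
      have e4 : ∑ l, ((w l : ℤ) - w l1) * ∑ i, (K i : ℤ) * cnt l (J i) =
          ∑ l, (w l : ℤ) * (∑ i, (K i : ℤ) * cnt l (J i)) - w l1 * (n * m + N) := by
        rw [← hC J, Finset.mul_sum, ← Finset.sum_sub_distrib]
        exact Finset.sum_congr rfl fun l _ => by ring
      have e5 : ∑ l, ((w l : ℤ) - w l1) = (∑ l, (w l : ℤ)) - n * w l1 := by
        rw [Finset.sum_sub_distrib]
        simp only [Finset.sum_const, Finset.card_univ, Fintype.card_fin, nsmul_eq_mul]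
      have e6 : ∑ l, (w l : ℤ) * ((∑ i, (K i : ℤ) * cnt l (J i)) -
          (m + if l = j0 then (N : ℤ) else 0)) =
          ∑ l, (w l : ℤ) * (∑ i, (K i : ℤ) * cnt l (J i)) - (m * ∑ l, (w l : ℤ)) -
            w j0 * N := by
        have h4 : ∀ l, (w l : ℤ) * ((∑ i, (K i : ℤ) * cnt l (J i)) -
            (m + if l = j0 then (N : ℤ) else 0)) =
            (w l : ℤ) * (∑ i, (K i : ℤ) * cnt l (J i)) - m * w l -
              (if l = j0 then (w j0 : ℤ) * N else 0) := by
          intro l
          split_ifs with hl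
          · subst hl; ring
          · ring
        rw [Finset.sum_congr rfl fun l _ => h4 l, Finset.sum_sub_distrib, Finset.sum_sub_distrib,
          Finset.sum_ite_eq' Finset.univ j0, if_pos (Finset.mem_univ _), ← Finset.mul_sum]
      rw [e6]
      rw [e4, e5] at e1
      have e7 : (w l1 : ℤ) * N ≤ w j0 * N :=
        mul_le_mul_of_nonneg_right (by exact_mod_cast hl1 j0) (Nat.cast_nonneg _)
      nlinarith only [e1, e7])
    refine ⟨σ, instσ, j0, fun y => (τ y).1, lam, hj0, fun j i => (τ j).2 i, hl1, fun l => ?_⟩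
    have h1 := hl2 l
    have h2 : ∑ y, (lam y : ℤ) * V (τ y) l = ∑ y, (lam y : ℤ) * (∑ i, (K i : ℤ) * cnt l ((τ y).1 i)) -
        (∑ y, (lam y : ℤ)) * (m + if l = j0 then (N : ℤ) else 0) := by
      rw [Finset.sum_mul, ← Finset.sum_sub_distrib]
      exact Finset.sum_congr rfl fun y _ => by
        show (lam y : ℤ) * ((∑ i, (K i : ℤ) * cnt l ((τ y).1 i)) -
          (m + if l = j0 then (N : ℤ) else 0)) = _
        ring
    rw [h2] at h1
    have h3 := sub_eq_zero.1 h1
    have h4 : ((∑ j, lam j * ∑ i, K i * cnt l ((τ j).1 i) : ℕ) : ℤ) =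
        (((∑ j, lam j) * (m + if l = j0 then N else 0) : ℕ) : ℤ) := by
      push_cast
      exact h3
    exact_mod_cast h4
  obtain ⟨j, w₁, μ, hj, hne⟩ := exists_nonvanishing (K := K) (N := N) (m := m) p v hB
  exact ⟨j, hj, covF j w₁ μ (fun _ => rfl) rfl rfl, hne⟩

/-- A system of covariants of the same type, with independent differentials somewhere. -/
theorem exists_system {c : κ → ℝ} (p : Coefs deg n) (hp : LcForm c p) (hm : 0 < m)
    (hK : ∀ i, (K i : ℝ) = m * c i)
    (hsum : n * m + N = ∑ i, deg i * K i) (hN : 0 < N) :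
    ∃ j : ℕ, 0 < j ∧
      ∃ (A : Fin n → Covariant deg n Set.univ (fun i => j * K i) (j * m) (j * N)) (v : Fin n → ℂ),
        (∀ i, (A i).C p v ≠ 0) ∧
        LinearIndependent ℂ (fun i => fderiv ℂ ((A i).C p) v) := by
  classical
  set β := Σ j : {j : ℕ // 0 < j}, Covariant deg n Set.univ (fun i => j * K i) (j * m) (j * N)
    with hβ
  have hcd : ∀ (b : β), ContDiff ℂ ω (b.2.C p) := by
    intro b
    exact b.2.hol.comp (contDiff_const.prodMk contDiff_id)
  have hq : ∀ b : β, ∃ q : (Fin (b.1.1 * N) → Fin n) → ℂ, ∀ v, b.2.C p v = form q v :=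
    fun b => exists_form _ (hcd b) fun c v => b.2.homog p c v
  choose q hq using hq
  obtain ⟨b, hb⟩ := exists_jac (fun b : β => b.1.1 * N) (fun b => Nat.mul_pos b.1.2 hN) q
    (fun v hv => by
      by_contra hv0
      obtain ⟨j, hj, A, hA⟩ := exists_covariant p hp v hv0 hm hK hsum
      exact hA ((hq ⟨⟨j, hj⟩, A⟩ v).trans (hv _)))
  -- a good point
  have hpoly : ∀ i, poly (q (b i)) ≠ 0 := by
    intro i h0
    apply hb
    apply Matrix.det_eq_zero_of_row_eq_zero i
    intro l
    simp only [Matrix.of_apply, h0, map_zero]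
  have hprod : (Matrix.of fun i l => pderiv l (poly (q (b i)))).det * ∏ i, poly (q (b i)) ≠ 0 :=
    mul_ne_zero hb (Finset.prod_ne_zero_iff.2 fun i _ => hpoly i)
  obtain ⟨v, hv⟩ : ∃ v : Fin n → ℂ, eval v ((Matrix.of fun i l =>
      pderiv l (poly (q (b i)))).det * ∏ i, poly (q (b i))) ≠ 0 := by
    by_contra hcon
    push Not at hcon
    exact hprod (MvPolynomial.funext fun x => by rw [hcon x, map_zero])
  rw [map_mul, map_prod] at hv
  have hv1 := left_ne_zero_of_mul hv
  have hv2 := right_ne_zero_of_mul hv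
  have hCv : ∀ i, (b i).2.C p v ≠ 0 := by
    intro i
    rw [hq, ← eval_poly]
    exact Finset.prod_ne_zero_iff.1 hv2 i (Finset.mem_univ i)
  have hli : LinearIndependent ℂ (fun i => fderiv ℂ ((b i).2.C p) v) := by
    rw [linearIndependent_iff_det]
    rw [RingHom.map_det] at hv1
    refine ne_of_eq_of_ne (congrArg Matrix.det ?_) hv1
    ext i l
    have : (b i).2.C p = form (q (b i)) := _root_.funext (hq (b i))
    rw [Matrix.of_apply, this, fderiv_form]
    rfl
  -- common powers
  set J := ∏ i, (b i).1.1 with hJ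
  have hJpos : 0 < J := Finset.prod_pos fun i _ => (b i).1.2
  have hdiv : ∀ i, (J / (b i).1.1) * (b i).1.1 = J := fun i =>
    Nat.div_mul_cancel (Finset.dvd_prod_of_mem (fun i => (b i).1.1) (Finset.mem_univ i))
  refine ⟨J, hJpos, fun i => ((b i).2.pow (J / (b i).1.1)).cast ?_ ?_ ?_, v, ?_, ?_⟩
  · funext i'
    rw [← mul_assoc, hdiv]
  · rw [← mul_assoc, hdiv]
  · rw [← mul_assoc, hdiv]
  · intro i
    exact pow_ne_zero _ (hCv i)
  · have hexp : ∀ i, 0 < J / (b i).1.1 := by
      intro i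
      refine Nat.pos_of_ne_zero fun h1 => ?_
      have := hdiv i
      rw [h1, zero_mul] at this
      exact hJpos.ne this
    let w : Fin n → ℂˣ := fun i => Units.mk0
      (((J / (b i).1.1 : ℕ) : ℂ) * (b i).2.C p v ^ (J / (b i).1.1 - 1))
      (mul_ne_zero (by exact_mod_cast (hexp i).ne') (pow_ne_zero _ (hCv i)))
    have h2 := hli.units_smul w
    refine (linearIndependent_equiv' (Equiv.refl _) ?_).1 h2
    funext i
    show fderiv ℂ (fun w => (b i).2.C p w ^ (J / (b i).1.1)) v = _
    have h3 : DifferentiableAt ℂ ((b i).2.C p) v :=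
      ((hcd (b i)).differentiable (by simp)).differentiableAt
    rw [fderiv_fun_pow _ h3]
    ext1 x
    simp only [nsmul_eq_mul, smul_apply, smul_eq_mul, Units.mk0_mul, Pi.smul_apply',
      Units.smul_def, Units.val_mul, Units.val_mk0, w]

end Lc

end Vale.Agent.P281.GIT.L
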