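import Vale.Agent.P281.H76.Vol

/-! P281 (helper76): fibres transversal to the boundary map to log canonical tuples of forms. -/

namespace Vale.Agent.P281.H76.S

open scoped Manifold ContDiff Topology ENNReal
open Set Filter Metric MeasureTheory

set_option linter.all false

universe u

theorem linInd_dual {K ι : Type*} [NormedAddCommGroup K] [NormedSpace ℂ K]
    {φ : ι → (K →L[ℂ] ℂ)} (h : ∀ i, ∃ ξ, φ i ξ = 1 ∧ ∀ j, j ≠ i → φ j ξ = 0) :
    LinearIndependent ℂ φ := by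
  rw [linearIndependent_iff']
  intro s a ha i hi
  obtain ⟨ξ, h1, h2⟩ := h i
  have h3 : (∑ j ∈ s, a j • φ j) ξ = 0 := by rw [ha]; rfl
  have h4 : (∑ j ∈ s, a j • φ j) ξ = ∑ j ∈ s, a j * φ j ξ := by
    rw [ContinuousLinearMap.sum_apply]
    rfl
  rw [h4, Finset.sum_eq_single i (fun j _ hj => by rw [h2 j hj, mul_zero])
    (fun hi' => absurd hi hi'), h1, mul_one] at h3
  exact h3

section Glob

variable {E E' E₀ : Type} [NormedAddCommGroup E] [NormedSpace ℂ E]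
  [NormedAddCommGroup E'] [NormedSpace ℂ E'] [NormedAddCommGroup E₀] [NormedSpace ℂ E₀]
  [FiniteDimensional ℂ E] [FiniteDimensional ℂ E'] [FiniteDimensional ℂ E₀]
variable {X X' Y F : Type u} [TopologicalSpace X] [ChartedSpace E X] [IsManifold 𝓘(ℂ, E) ω X]
  [TopologicalSpace X'] [ChartedSpace E X'] [IsManifold 𝓘(ℂ, E) ω X']
  [TopologicalSpace Y] [ChartedSpace E' Y] [IsManifold 𝓘(ℂ, E') ω Y]
  [TopologicalSpace F] [ChartedSpace E₀ F] [IsManifold 𝓘(ℂ, E₀) ω F]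
variable {f : X → Y} {q : X' → X} {r : ℕ} {B : ProjectiveBundle E E' f r}
  {i : F → X'} {y : Y} {a : B.ι} {Δ : Set X → ℝ}

theorem trAt_of_transversal (hf : ∀ x, HolM E E' f x) (hq : ∀ x, HolM E E q x)
    (hi : ∀ p, HolM E₀ E i p) (hfi : ∀ p, f (q (i p)) = y) {Δ' : Set X' → ℝ}
    (hdim : Module.finrank ℂ E₀ + Module.finrank ℂ E' = Module.finrank ℂ E)
    (htr : J.IsTransversal E E' (f ∘ q) Δ' y) (p : F)
    (hsub : Function.Surjective ((dM E E' f (q (i p))).comp (dM E E q (i p))))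
    (himm : Function.Injective (dM E₀ E i p)) : TrAt E E₀ i Δ' p := by
  classical
  have hd : (mfderiv 𝓘(ℂ, E) 𝓘(ℂ, E') (f ∘ q) (i p) : E →L[ℂ] E') =
      (dM E E' f (q (i p))).comp (dM E E q (i p)) :=
    mfderiv_comp (i p) ((hf (q (i p))).mdifferentiableAt (by simp))
      ((hq (i p)).mdifferentiableAt (by simp))
  have hfq : ∀ x, HolM E E' (f ∘ q) x := fun x => ContMDiffAt.comp x (hf (q x)) (hq x)
  have hzero : ∀ ξ, ((dM E E' f (q (i p))).comp (dM E E q (i p))) (dM E₀ E i p ξ) = 0 := by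
    intro ξ
    have h1 := dM_comp_zero (f := f ∘ q) hfq hi hfi p ξ
    have h2 : dM E E' (f ∘ q) (i p) = (dM E E' f (q (i p))).comp (dM E E q (i p)) := hd
    rw [h2] at h1
    exact h1
  -- the kernel is the image
  have hker : ∀ ξ : E, ((dM E E' f (q (i p))).comp (dM E E q (i p))) ξ = 0 →
      ∃ ξ₀ : E₀, dM E₀ E i p ξ₀ = ξ := by
    set Dl : E →ₗ[ℂ] E' := (((dM E E' f (q (i p))).comp (dM E E q (i p)) : E →L[ℂ] E') :
      E →ₗ[ℂ] E') with hDl
    set Di : E₀ →ₗ[ℂ] E := ((dM E₀ E i p : E₀ →L[ℂ] E) : E₀ →ₗ[ℂ] E) with hDi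
    have h1 : LinearMap.range Di ≤ LinearMap.ker Dl := by
      rintro _ ⟨ξ, rfl⟩
      exact hzero ξ
    have h2 : Module.finrank ℂ (LinearMap.range Di) = Module.finrank ℂ E₀ :=
      LinearMap.finrank_range_of_inj himm
    have h3 := LinearMap.finrank_range_add_finrank_ker Dl
    have h4 : LinearMap.range Dl = ⊤ := LinearMap.range_eq_top.2 hsub
    rw [h4, finrank_top] at h3
    have h5 : LinearMap.range Di = LinearMap.ker Dl :=
      Submodule.eq_of_le_of_finrank_eq h1 (by rw [h2]; omega)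
    intro ξ hξ
    have h6 : ξ ∈ LinearMap.ker Dl := hξ
    rw [← h5] at h6
    exact h6
  intro g' hg'
  refine linInd_dual fun D => ?_
  obtain ⟨ξ, hξ0, hξ⟩ := htr (i p) g' (hfi p) hg' (fun D' => if D' = D.1 then 1 else 0)
  rw [hd] at hξ0
  obtain ⟨ξ₀, rfl⟩ := hker ξ hξ0
  refine ⟨ξ₀, (hξ D.1 D.2.1 D.2.2).trans (if_pos rfl), fun j hj => ?_⟩
  exact (hξ j.1 j.2.1 j.2.2).trans (if_neg fun h' => hj (Subtype.ext h'))

/-- fibres transversal to `Δ'` map to log canonical tuples of forms. -/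
theorem lcForm_of_fibre [CompactSpace F] (hfc : ContMDiff 𝓘(ℂ, E) 𝓘(ℂ, E') ω f)
    (hΔ : IsBdry E Δ) {Δ' : Set X' → ℝ} (hΔ' : IsBdry E Δ')
    (fd : FormData B {D | Δ D ≠ 0}) {H : Finset (Set X)} (hH : ∀ D ∈ H, Δ D ≠ 0)
    {m₀ : ℕ} {k₀' : Set X' → ℕ} {k₀ : Set X → ℕ} (hm₀ : 0 < m₀)
    (hk₀' : ∀ D, (k₀' D : ℝ) = m₀ * Δ' D) (hk₀ : ∀ D, (k₀ D : ℝ) = m₀ * Δ D)
    (e : (E × ℂ) ≃L[ℂ] (E' × (Fin (r + 1) → ℂ)))
    (e₀ : (E₀ × ℂ) ≃L[ℂ] (Fin (r + 1) → ℂ))
    (hq : ∀ x, HolM E E q x) (hqs : Function.Surjective q) (hi : ∀ p, HolM E₀ E i p)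
    (hya : y ∈ B.U a) (hfi : ∀ p, f (q (i p)) = y) (hrng : ∀ x, f (q x) = y → ∃ p, i p = x)
    (hlog : ∀ p, ∃ u : X' → ℂ, LogAt E q m₀ k₀' k₀ (i p) u)
    (hsub : ∀ p, Function.Surjective ((dM E E' f (q (i p))).comp (dM E E q (i p))))
    (himm : ∀ p, Function.Injective (dM E₀ E i p)) (htr : ∀ p, TrAt E E₀ i Δ' p) :
    GIT.L.LcForm (fun i : H => Δ i) (fd.P H a y) := by
  classical
  intro h hh w hw1
  obtain ⟨l1, hl1⟩ := hw1
  by_contra hcon
  push Not at hcon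
  have hΔ0 : ∀ D, 0 ≤ Δ D := by
    intro D
    obtain ⟨q, hq, h0, h1⟩ := hΔ.rational D
    rw [hq]
    exact_mod_cast h0
  obtain ⟨o, ho1, ho2⟩ := exists_orders (c := fun i : H => Δ i)
    (fun i => lt_of_le_of_ne (hΔ0 _) (hH i i.2).symm) (fd.P H a y) h w hcon
  set Tf := hΔ.finite.toFinset with hTfdef
  have hTf : ∀ D, D ∈ Tf ↔ Δ D ≠ 0 := fun D => Set.Finite.mem_toFinset _
  set oD : Set X → ℕ := fun D => if hD : D ∈ H then o ⟨D, hD⟩ else 0 with hoD
  have hS : ∑ i : H, Δ i * o i = ∑ D ∈ Tf, Δ D * oD D := by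
    have h1 : ∑ i : H, Δ i * o i = ∑ i : H, Δ i * oD i := by
      refine Finset.sum_congr rfl fun i _ => ?_
      rw [hoD]; simp
    rw [h1, Finset.sum_coe_sort H fun D => Δ D * (oD D : ℝ)]
    refine Finset.sum_subset (fun D hD => (hTf D).2 (hH D hD)) fun D _ hD => ?_
    rw [hoD]; simp [hD]
  have ho : ∀ D ∈ Tf, ∀ J, GIT.act (GIT.sym (fun J => fd.p a D J y)) h J ≠ 0 →
      oD D ≤ ∑ s, w (J s) := by
    intro D _ J hJ
    by_cases hD : D ∈ H
    · rw [hoD]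
      simp only [hD, dif_pos]
      exact ho1 ⟨D, hD⟩ J hJ
    · rw [hoD]; simp [hD]
  -- the exponent `s`
  set W : ℝ := ∑ l, (w l : ℝ) with hW
  set S : ℝ := ∑ D ∈ Tf, Δ D * oD D with hSdef
  rw [hS] at ho2
  have hW0 : 0 ≤ W := Finset.sum_nonneg fun l _ => Nat.cast_nonneg _
  have hS0 : 0 < S := hW0.trans_lt ho2
  set s : ℝ := (1 + W / S) / 2 with hs
  have hWS : W / S < 1 := (div_lt_one hS0).2 ho2
  have hWS0 : 0 ≤ W / S := div_nonneg hW0 hS0.le
  have hs0 : 0 < s := by rw [hs]; linarith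
  have hs1 : s < 1 := by rw [hs]; linarith
  have hsS : W < s * S := by
    have : s * S = (S + W) / 2 := by rw [hs]; field_simp
    rw [this]; linarith
  have hic : Continuous i := continuous_iff_continuousAt.2 fun x => (hi x).continuousAt
  have hqi : Continuous (fun p => q (i p)) :=
    (continuous_iff_continuousAt.2 fun x => (hq x).continuousAt).comp hic
  have hunit : IsUnit h.det := isUnit_iff_ne_zero.2 hh
  -- step 2: a neighbourhood of a point of the fibre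
  have step2 : ∀ (p₀ : F) (v : X → Fin (r + 1) → ℂ), IsLift E f (B.π a) v (q (i p₀)) →
      ∀ R : ℝ, ∃ V ∈ 𝓝 p₀, ∃ C : ℝ, 0 ≤ C ∧ ∀ t : ℝ, 0 < t → t ≤ 1 →
      volume {x | x ∈ PD (Pi.single l1 1) w (1 / 2) t ∧
        ∃ p ∈ V, ∃ c ∈ closedBall (0 : ℂ) R, x = c • h⁻¹.mulVec (v (q (i p)))} ≤
      ENNReal.ofReal (C * t ^ (2 * s * S)) := by
    intro p₀ v hv R
    refine IsCompact.induction_on (isCompact_closedBall (0 : ℂ) R)
      (p := fun K : Set ℂ => ∃ V ∈ 𝓝 p₀, ∃ C : ℝ, 0 ≤ C ∧ ∀ t : ℝ, 0 < t → t ≤ 1 →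
      volume {x | x ∈ PD (Pi.single l1 1) w (1 / 2) t ∧
        ∃ p ∈ V, ∃ c ∈ K, x = c • h⁻¹.mulVec (v (q (i p)))} ≤
      ENNReal.ofReal (C * t ^ (2 * s * S))) ?_ ?_ ?_ ?_
    · refine ⟨univ, univ_mem, 0, le_rfl, fun t _ _ => ?_⟩
      have : {x | x ∈ PD (Pi.single l1 1) w (1 / 2) t ∧
        ∃ p ∈ (univ : Set F), ∃ c ∈ (∅ : Set ℂ), x = c • h⁻¹.mulVec (v (q (i p)))} = ∅ := by
        ext x; simp
      rw [this, measure_empty]
      exact zero_le
    · rintro K K' hKK' ⟨V, hV, C, hC0, hC⟩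
      refine ⟨V, hV, C, hC0, fun t ht ht1 => le_trans (measure_mono ?_) (hC t ht ht1)⟩
      rintro x ⟨hx, p, hp, c, hc, hxc⟩
      exact ⟨hx, p, hp, c, hKK' hc, hxc⟩
    · rintro K K' ⟨V, hV, C, hC0, hC⟩ ⟨V', hV', C', hC0', hC'⟩
      refine ⟨V ∩ V', inter_mem hV hV', C + C', add_nonneg hC0 hC0', fun t ht ht1 => ?_⟩
      rw [add_mul, ENNReal.ofReal_add (by positivity) (by positivity)]
      refine le_trans (measure_mono ?_) ((measure_union_le _ _).trans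
        (add_le_add (hC t ht ht1) (hC' t ht ht1)))
      rintro x ⟨hx, p, hp, c, hc, hxc⟩
      rcases hc with hc | hc
      · exact Or.inl ⟨hx, p, hp.1, c, hc, hxc⟩
      · exact Or.inr ⟨hx, p, hp.2, c, hc, hxc⟩
    · intro c₀ _
      obtain ⟨u, hu⟩ := hlog p₀
      obtain ⟨V, hV, K, hK, C, hC0, hC⟩ := local_vol fd hTf hΔ' hm₀ hk₀' hk₀ e e₀ hfc hq hi hya
        hfi hu (hsub p₀) (himm p₀) (htr p₀) hh hl1 ho hv hs0 hs1 c₀
      exact ⟨K, mem_nhdsWithin_of_mem_nhds hK, V, hV, C, hC0, hC⟩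
  -- step 3: the whole fibre
  have step3 : ∃ C : ℝ, 0 ≤ C ∧ ∀ t : ℝ, 0 < t → t ≤ 1 →
      volume {x | x ∈ PD (Pi.single l1 1) w (1 / 2) t ∧
        ∃ p ∈ (univ : Set F), q (i p) = B.π a y (h.mulVec x)} ≤
      ENNReal.ofReal (C * t ^ (2 * s * S)) := by
    refine IsCompact.induction_on (isCompact_univ (X := F))
      (p := fun V : Set F => ∃ C : ℝ, 0 ≤ C ∧ ∀ t : ℝ, 0 < t → t ≤ 1 →
      volume {x | x ∈ PD (Pi.single l1 1) w (1 / 2) t ∧
        ∃ p ∈ V, q (i p) = B.π a y (h.mulVec x)} ≤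
      ENNReal.ofReal (C * t ^ (2 * s * S))) ?_ ?_ ?_ ?_
    · refine ⟨0, le_rfl, fun t _ _ => ?_⟩
      have : {x | x ∈ PD (Pi.single l1 1) w (1 / 2) t ∧
        ∃ p ∈ (∅ : Set F), q (i p) = B.π a y (h.mulVec x)} = ∅ := by
        ext x; simp
      rw [this, measure_empty]
      exact zero_le
    · rintro V V' hVV' ⟨C, hC0, hC⟩
      refine ⟨C, hC0, fun t ht ht1 => le_trans (measure_mono ?_) (hC t ht ht1)⟩
      rintro x ⟨hx, p, hp, hxp⟩
      exact ⟨hx, p, hVV' hp, hxp⟩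
    · rintro V V' ⟨C, hC0, hC⟩ ⟨C', hC0', hC'⟩
      refine ⟨C + C', add_nonneg hC0 hC0', fun t ht ht1 => ?_⟩
      rw [add_mul, ENNReal.ofReal_add (by positivity) (by positivity)]
      refine le_trans (measure_mono ?_) ((measure_union_le _ _).trans
        (add_le_add (hC t ht ht1) (hC' t ht ht1)))
      rintro x ⟨hx, p, hp, hxp⟩
      rcases hp with hp | hp
      · exact Or.inl ⟨hx, p, hp, hxp⟩
      · exact Or.inr ⟨hx, p, hp, hxp⟩
    · intro p₀ _
      obtain ⟨v, hv⟩ := (B.triv a).lift (q (i p₀)) (by rw [hfi]; exact hya)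
      have hv0 : h⁻¹.mulVec (v (q (i p₀))) ≠ 0 := by
        intro h0
        apply hv.ne_zero
        have h1 : h.mulVec (h⁻¹.mulVec (v (q (i p₀)))) = v (q (i p₀)) := by
          rw [Matrix.mulVec_mulVec, Matrix.mul_nonsing_inv _ hunit, Matrix.one_mulVec]
        rw [← h1, h0, Matrix.mulVec_zero]
      set mm : ℝ := ‖h⁻¹.mulVec (v (q (i p₀)))‖ / 2 with hmm
      have hmm0 : 0 < mm := half_pos (norm_pos_iff.2 hv0)
      obtain ⟨V, hV, C, hC0, hC⟩ := step2 p₀ v hv (2 / mm)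
      have hvi : ContinuousAt (fun p => h⁻¹.mulVec (v (q (i p)))) p₀ := by
        have h1 : Continuous fun x : Fin (r + 1) → ℂ => h⁻¹.mulVec x := by fun_prop
        exact h1.continuousAt.comp (HolV.comp (h := fun z => v (q z))
          (HolV.comp (h := v) hv.hol (hq _)) (hi p₀)).continuousAt
      have e1 : ∀ᶠ p in 𝓝 p₀, mm < ‖h⁻¹.mulVec (v (q (i p)))‖ :=
        hvi.norm.eventually_const_lt (by
          rw [hmm]
          have := norm_pos_iff.2 hv0
          linarith)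
      have e2 : ∀ᶠ p in 𝓝 p₀, IsLift E f (B.π a) v (q (i p)) :=
        hqi.continuousAt.eventually (p := fun z => IsLift E f (B.π a) v z) hv.eventually
      refine ⟨V ∩ {p | mm < ‖h⁻¹.mulVec (v (q (i p)))‖ ∧ IsLift E f (B.π a) v (q (i p))},
        mem_nhdsWithin_of_mem_nhds (inter_mem hV (e1.and e2)), C, hC0, fun t ht ht1 => ?_⟩
      refine le_trans (measure_mono ?_) (hC t ht ht1)
      rintro x ⟨hx, p, ⟨hpV, hp1, hp2⟩, hxp⟩
      refine ⟨hx, p, hpV, ?_⟩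
      have hxl := fun l => PD_single hl1 (by norm_num : (1 / 2 : ℝ) ≤ 1) ht hx l
      have hx0 : x ≠ 0 := by
        rintro rfl
        have := hx l1 (mem_univ l1)
        rw [mem_ball, hl1, pow_zero, mul_one, Pi.single_eq_same, Pi.zero_apply,
          dist_zero_left, norm_one] at this
        norm_num at this
      have hhx := mulVec_ne_zero hh hx0
      have h4 := hp2.eq
      rw [hfi] at h4
      obtain ⟨c, hc⟩ := ((B.triv a).eq_iff y hya _ hp2.ne_zero _ hhx).1 (h4.trans hxp)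
      have hxc : x = c • h⁻¹.mulVec (v (q (i p))) := by
        rw [← Matrix.mulVec_smul, ← hc, Matrix.mulVec_mulVec, Matrix.nonsing_inv_mul _ hunit,
          Matrix.one_mulVec]
      refine ⟨c, ?_, hxc⟩
      rw [mem_closedBall, dist_zero_right, le_div_iff₀ hmm0]
      have hxn : ‖x‖ ≤ 2 := by
        rw [pi_norm_le_iff_of_nonneg (by norm_num)]
        intro l
        refine (hxl l).trans ?_
        have : t ^ w l ≤ 1 := pow_le_one₀ ht.le ht1
        linarith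
      rw [hxc, norm_smul] at hxn
      nlinarith [norm_nonneg c]
  obtain ⟨C, hC0, hC⟩ := step3
  have hle : ∀ R : ℝ, 1 ≤ R → (((1 / 2 : ℝ) ^ 2 * Real.pi) ^ (r + 1)) * R ^ (2 * s * S - 2 * W) ≤
      C := by
    intro R hR
    have hR0 : 0 < R := by linarith
    have ht : 0 < R⁻¹ := inv_pos.2 hR0
    have ht1 : R⁻¹ ≤ 1 := inv_le_one_of_one_le₀ hR
    have h1 : volume (PD (Pi.single l1 1) w (1 / 2) R⁻¹ : Set (Fin (r + 1) → ℂ)) ≤
        ENNReal.ofReal (C * R⁻¹ ^ (2 * s * S)) := by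
      refine le_trans (measure_mono ?_) (hC R⁻¹ ht ht1)
      intro x hx
      refine ⟨hx, ?_⟩
      have hx0 : x ≠ 0 := by
        rintro rfl
        have := hx l1 (mem_univ l1)
        rw [mem_ball, hl1, pow_zero, mul_one, Pi.single_eq_same, Pi.zero_apply,
          dist_zero_left, norm_one] at this
        norm_num at this
      obtain ⟨x', hx'⟩ := hqs (B.π a y (h.mulVec x))
      obtain ⟨p, hp⟩ := hrng x' (by
        rw [hx']; exact (B.triv a).proj y hya _ (mulVec_ne_zero hh hx0))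
      exact ⟨p, mem_univ _, by rw [hp, hx']⟩
    rw [volume_PD (Pi.single l1 1) w (by norm_num : (0 : ℝ) < 1 / 2) ht] at h1
    have h2 := (ENNReal.ofReal_le_ofReal_iff (by positivity)).1 h1
    have h3 : (R⁻¹ : ℝ) ^ (2 * ∑ l, w l) = R ^ (-(2 * W)) := by
      rw [← Real.rpow_natCast, Real.inv_rpow hR0.le, ← Real.rpow_neg hR0.le]
      congr 2
      push_cast
      rw [hW]
    have h4 : (R⁻¹ : ℝ) ^ (2 * s * S) = R ^ (-(2 * s * S)) := by
      rw [Real.inv_rpow hR0.le, ← Real.rpow_neg hR0.le]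
    rw [h3, h4] at h2
    have h5 : 0 < R ^ (2 * s * S) := Real.rpow_pos_of_pos hR0 _
    have h6 := mul_le_mul_of_nonneg_right h2 h5.le
    have h7 : R ^ (-(2 * s * S)) * R ^ (2 * s * S) = 1 := by
      rw [← Real.rpow_add hR0, neg_add_cancel, Real.rpow_zero]
    have h8 : R ^ (-(2 * W)) * R ^ (2 * s * S) = R ^ (2 * s * S - 2 * W) := by
      rw [← Real.rpow_add hR0]
      congr 1
      ring
    rw [mul_assoc _ (R ^ (-(2 * W))), h8, mul_assoc C, h7, mul_one] at h6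
    exact h6
  have hexp : 0 < 2 * s * S - 2 * W := by nlinarith
  have hc0 : 0 < ((1 / 2 : ℝ) ^ 2 * Real.pi) ^ (r + 1) := by
    have := Real.pi_pos
    positivity
  have htend := (tendsto_rpow_atTop hexp).const_mul_atTop hc0
  obtain ⟨R, hR1, hR2⟩ := ((htend.eventually_gt_atTop C).and (eventually_ge_atTop 1)).exists
  exact absurd (hle R hR2) (not_le.2 hR1)

end Glob

end Vale.Agent.P281.H76.S
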