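import Vale.Agent.P281.H76.Ord

/-! P281 (helper76): identity theorem on the smooth locus of a prime divisor. -/

namespace Vale.Agent.P281.H76.S

open scoped Manifold ContDiff Topology ENNReal
open Set Filter Metric

set_option linter.all false

universe u

variable {E : Type} [NormedAddCommGroup E] [NormedSpace ℂ E] [FiniteDimensional ℂ E]
variable {X : Type u} [TopologicalSpace X] [ChartedSpace E X] [IsManifold 𝓘(ℂ, E) ω X]

/-- a local parametrization in which the smooth hypersurface is a hyperplane. -/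
theorem graph {V : Type*} [NormedAddCommGroup V] [NormedSpace ℂ V] {D : Set X} {e : X → ℂ} {x : X}
    (he : IsLocalEq E D e x) (hx : x ∈ D) (hd : dif E e x ≠ 0) :
    ∃ (ℓ : E →L[ℂ] ℂ) (σ : E → X) (γ : X → E), γ x = 0 ∧ σ 0 = x ∧ ContinuousAt γ x ∧
      (∀ᶠ z in 𝓝 x, σ (γ z) = z) ∧
      ∀ᶠ w in 𝓝 (0 : E), ContinuousAt σ w ∧ (σ w ∈ D ↔ ℓ w = 0) ∧
        ∀ Φ : X → V, HolV E Φ (σ w) → ContDiffAt ℂ ω (fun w => Φ (σ w)) w := by
  set φ := chartAt E x with hφ
  have hxs : x ∈ φ.source := mem_chart_source E x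
  set p := φ x with hp
  set e' : E → ℂ := e ∘ φ.symm with he'
  have he'c : ContDiffAt ℂ ω e' p := he.holAt.rep hxs
  set ℓ := fderiv ℂ e' p with hℓ
  have hℓ0 : ℓ ≠ 0 := by
    intro h0
    apply hd
    rw [dif_eq_dV, dV_eq_chart hxs he.holAt]
    show (fderiv ℂ e' p).comp _ = 0
    rw [← hℓ, h0]
    ext; simp
  obtain ⟨v₀, hv₀⟩ : ∃ v₀, ℓ v₀ ≠ 0 := by
    by_contra hcon
    push Not at hcon
    exact hℓ0 (ContinuousLinearMap.ext hcon)
  set v : E := (ℓ v₀)⁻¹ • v₀ with hv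
  have hv1 : ℓ v = 1 := by rw [hv, map_smul, smul_eq_mul, inv_mul_cancel₀ hv₀]
  have he'p : e' p = 0 := by
    show e (φ.symm (φ x)) = 0
    rw [φ.left_inv hxs]
    exact he.mem_iff.1 hx
  set G : E → E := fun w => w + (e' (p + w) - ℓ w) • v with hG
  have hshift : ContDiffAt ℂ ω (fun w => e' (p + w)) 0 := by
    have h1 : ContDiffAt ℂ ω (fun w : E => p + w) 0 := by fun_prop
    refine ContDiffAt.comp (g := e') (f := fun w : E => p + w) (0 : E) ?_ h1
    rw [add_zero]; exact he'c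
  have hGc : ContDiffAt ℂ ω G 0 := by
    refine contDiffAt_id.add ((hshift.sub ?_).smul contDiffAt_const)
    exact ℓ.contDiff.contDiffAt
  have hG0 : G 0 = 0 := by
    rw [hG]; simp [he'p]
  have hG' : HasFDerivAt G ((ContinuousLinearEquiv.refl ℂ E : E ≃L[ℂ] E) : E →L[ℂ] E) 0 := by
    have h1 : HasFDerivAt (fun w => e' (p + w)) ℓ 0 := by
      have h2 : HasFDerivAt e' ℓ (p + 0) := by
        rw [add_zero]
        exact (he'c.differentiableAt (by simp)).hasFDerivAt
      have h3 : HasFDerivAt (fun w : E => p + w) (ContinuousLinearMap.id ℂ E) 0 :=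
        (hasFDerivAt_id (0 : E)).const_add p
      have := h2.comp (0 : E) h3
      rw [ContinuousLinearMap.comp_id] at this
      exact this
    have h4 := (hasFDerivAt_id (𝕜 := ℂ) (0 : E)).add
      ((h1.sub (ℓ.hasFDerivAt (x := (0 : E)))).smul_const v)
    refine h4.congr_fderiv ?_
    ext ξ
    simp
  set τ := hGc.localInverse hG' (by simp) with hτ
  have hτc : ContDiffAt ℂ ω τ 0 := by
    have := hGc.to_localInverse hG' (by simp)
    rwa [hG0] at this
  have hτ0 : τ 0 = 0 := by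
    have := hGc.localInverse_apply_image hG' (by simp)
    rwa [hG0] at this
  have hr : ∀ᶠ w in 𝓝 (0 : E), G (τ w) = w := by
    have := (hGc.hasStrictFDerivAt' hG' (by simp)).eventually_right_inverse
    rwa [hG0] at this
  have hl : ∀ᶠ w in 𝓝 (0 : E), τ (G w) = w :=
    (hGc.hasStrictFDerivAt' hG' (by simp)).eventually_left_inverse
  have hγc : ContinuousAt (fun z => φ z - p) x := (φ.continuousAt hxs).sub continuousAt_const
  have hγc' : Tendsto (fun z => φ z - p) (𝓝 x) (𝓝 0) := by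
    have := hγc.tendsto
    rwa [show φ x - p = 0 by rw [hp]; simp] at this
  have hpt : Tendsto (fun w => p + τ w) (𝓝 0) (𝓝 p) := by
    have := (continuousAt_const (y := p)).add hτc.continuousAt
    have h2 := this.tendsto
    simp only [Pi.add_apply, hτ0, add_zero] at h2
    exact h2
  have hσ0 : φ.symm (p + τ 0) = x := by rw [hτ0, add_zero, hp, φ.left_inv hxs]
  have hσt : Tendsto (fun w => φ.symm (p + τ w)) (𝓝 0) (𝓝 x) := by
    have h1 : Tendsto φ.symm (𝓝 p) (𝓝 x) := by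
      have := (φ.continuousAt_symm (φ.map_source hxs)).tendsto
      rwa [φ.left_inv hxs] at this
    exact h1.comp hpt
  refine ⟨ℓ, fun w => φ.symm (p + τ w), fun z => G (φ z - p), ?_, hσ0, ?_, ?_, ?_⟩
  · show G (φ x - p) = 0
    rw [show φ x - p = 0 by rw [hp]; simp, hG0]
  · refine ContinuousAt.comp (g := G) (f := fun z => φ z - p) (x := x) ?_ hγc
    rw [show φ x - p = 0 by rw [hp]; simp]
    exact hGc.continuousAt
  · filter_upwards [hγc'.eventually hl, φ.open_source.mem_nhds hxs] with z hz hzs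
    show φ.symm (p + τ (G (φ z - p))) = z
    rw [hz, add_sub_cancel, φ.left_inv hzs]
  · filter_upwards [hr, (hτc.eventually (by simp)), hpt.eventually
      (φ.open_target.mem_nhds (φ.map_source hxs)), hσt.eventually he.eventually] with w h1 h2 h3 h4
    have hws : φ.symm (p + τ w) ∈ φ.source := φ.map_target h3
    refine ⟨?_, ?_, ?_⟩
    · exact ContinuousAt.comp (g := φ.symm) (f := fun w => p + τ w) (x := w)
        (φ.continuousAt_symm h3) (continuousAt_const.add h2.continuousAt)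
    · rw [h4.mem_iff]
      have h5 : ℓ (G (τ w)) = e' (p + τ w) := by
        simp only [hG, map_add, map_smul, smul_eq_mul, hv1]; ring
      rw [h1] at h5
      rw [h5]
      rfl
    · intro Φ hΦ
      have h6 := hΦ.rep (x₀ := x) hws
      rw [← hφ, φ.right_inv h3] at h6
      have h7 : ContDiffAt ℂ ω (fun w => p + τ w) w := contDiffAt_const.add h2
      exact ContDiffAt.comp (g := Φ ∘ φ.symm) (f := fun w => p + τ w) w h6 h7

/-- identity theorem on the smooth locus of a prime divisor. -/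
theorem ident {V : Type*} [NormedAddCommGroup V] [NormedSpace ℂ V] {D : Set X}
    (hconn : IsConnected {x | x ∈ D ∧ ∃ g, IsLocalEq E D g x ∧ dif E g x ≠ 0}) {P : X → Prop}
    (hP : ∀ x ∈ D, (∃ g, IsLocalEq E D g x ∧ dif E g x ≠ 0) → ∃ Φ : X → V, HolV E Φ x ∧
      ∀ᶠ z in 𝓝 x, z ∈ D → (P z ↔ Φ z = 0))
    (hne : ∃ z ∈ D, (∃ g, IsLocalEq E D g z ∧ dif E g z ≠ 0) ∧ ¬ P z) {x : X} (hx : x ∈ D)
    (hxg : ∃ g, IsLocalEq E D g x ∧ dif E g x ≠ 0) : ∃ᶠ z in 𝓝 x, z ∈ D ∧ ¬ P z := by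
  set M := {x | x ∈ D ∧ ∃ g, IsLocalEq E D g x ∧ dif E g x ≠ 0} with hM
  set U : Set X := {x | ∀ᶠ z in 𝓝 x, z ∈ D → P z} with hU
  have hUo : IsOpen U := isOpen_setOf_eventually_nhds
  have hloc : ∀ x ∈ M, x ∈ closure (M ∩ U) → x ∈ U := by
    rintro x ⟨hxD, e, he, hd⟩ hcl
    obtain ⟨Φ, hΦ, hPΦ⟩ := hP x hxD ⟨e, he, hd⟩
    obtain ⟨ℓ, σ, γ, hγ0, hσ0, hγc, hσγ, hσ⟩ := graph (V := V) he hxD hd
    have hσc : ContinuousAt σ 0 := hσ.self_of_nhds.1
    have hσt : Tendsto σ (𝓝 0) (𝓝 x) := by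
      have := hσc.tendsto
      rwa [hσ0] at this
    have hγt : Tendsto γ (𝓝 x) (𝓝 0) := by
      have := hγc.tendsto
      rwa [hγ0] at this
    obtain ⟨ρ, hρ, hball⟩ := Metric.eventually_nhds_iff_ball.1
      (hσ.and (hσt.eventually (hΦ.eventually.and hPΦ)))
    -- a point of `U`
    rw [mem_closure_iff_frequently] at hcl
    obtain ⟨z₁, ⟨hz₁M, hz₁U⟩, hz₁γ, hz₁b⟩ := (hcl.and_eventually
      (hσγ.and (hγt.eventually (ball_mem_nhds 0 hρ)))).exists
    set K := LinearMap.ker (ℓ : E →ₗ[ℂ] ℂ) with hK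
    have hw₁K : γ z₁ ∈ K := by
      rw [hK, LinearMap.mem_ker]
      show ℓ (γ z₁) = 0
      rw [← (hball _ hz₁b).1.2.1, hz₁γ]
      exact hz₁M.1
    have hKan : AnalyticOnNhd ℂ (fun κ : K => Φ (σ κ)) (ball 0 ρ) := by
      intro κ hκ
      have hκ' : (κ : E) ∈ ball (0 : E) ρ := by
        rw [mem_ball_zero_iff] at hκ ⊢
        exact hκ
      have h1 := (hball κ hκ').1.2.2 Φ (hball κ hκ').2.1
      have h2 : ContDiffAt ℂ ω (fun κ : K => (κ : E)) κ := K.subtypeL.contDiff.contDiffAt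
      exact (ContDiffAt.comp (g := fun w => Φ (σ w)) (f := fun κ : K => (κ : E)) κ h1
        h2).analyticAt
    have hzero : (fun κ : K => Φ (σ κ)) =ᶠ[𝓝 (⟨γ z₁, hw₁K⟩ : K)] 0 := by
      have h1 : ContinuousAt (fun κ : K => σ κ) (⟨γ z₁, hw₁K⟩ : K) := by
        refine ContinuousAt.comp (g := σ) (f := fun κ : K => (κ : E)) ?_
          continuous_subtype_val.continuousAt
        exact (hball _ hz₁b).1.1
      have h2 : ∀ᶠ κ : K in 𝓝 (⟨γ z₁, hw₁K⟩ : K), σ κ ∈ D → P (σ κ) := by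
        have h3 : ∀ᶠ z in 𝓝 (σ (γ z₁)), z ∈ D → P z := by rw [hz₁γ]; exact hz₁U
        exact h1.eventually h3
      have h4 : ∀ᶠ κ : K in 𝓝 (⟨γ z₁, hw₁K⟩ : K), (κ : E) ∈ ball (0 : E) ρ :=
        (continuous_subtype_val.continuousAt (x := (⟨γ z₁, hw₁K⟩ : K))).eventually
          (isOpen_ball.mem_nhds hz₁b)
      filter_upwards [h2, h4] with κ hκ1 hκ2
      have hD : σ κ ∈ D := (hball _ hκ2).1.2.1.2 κ.2
      exact ((hball _ hκ2).2.2 hD).1 (hκ1 hD)
    have hall := hKan.eqOn_zero_of_preconnected_of_eventuallyEq_zero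
      (convex_ball _ _).isPreconnected (by
        have h := hz₁b
        rw [dist_zero_right] at h
        rw [mem_ball_zero_iff]
        exact h) hzero
    show ∀ᶠ z in 𝓝 x, z ∈ D → P z
    filter_upwards [hσγ, hγt.eventually (ball_mem_nhds 0 hρ)] with z hz1 hz2 hzD
    have h5 := hball _ hz2
    rw [hz1] at h5
    have hzK : γ z ∈ K := by
      rw [hK, LinearMap.mem_ker]
      exact h5.1.2.1.1 hzD
    rw [h5.2.2 hzD]
    have h6 := hall (show (⟨γ z, hzK⟩ : K) ∈ ball 0 ρ by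
      have h := hz2
      rw [dist_zero_right] at h
      rw [mem_ball_zero_iff]
      exact h)
    simp only [hz1] at h6
    exact h6
  have hMU : M ∩ U = ∅ := by
    by_contra hcon
    rw [← Ne, ← nonempty_iff_ne_empty] at hcon
    obtain ⟨z, hzD, hzg, hzP⟩ := hne
    have hcov : M ⊆ U ∪ (closure (M ∩ U))ᶜ := by
      intro w hw
      by_cases h : w ∈ closure (M ∩ U)
      · exact Or.inl (hloc w hw h)
      · exact Or.inr h
    obtain ⟨w, hwM, hwU, hwV⟩ := hconn.2 U (closure (M ∩ U))ᶜ hUo isClosed_closure.isOpen_compl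
      hcov hcon ⟨z, ⟨hzD, hzg⟩, fun h => hzP
        ((show ∀ᶠ z in 𝓝 z, z ∈ D → P z from hloc z ⟨hzD, hzg⟩ h).self_of_nhds hzD)⟩
    exact hwV (subset_closure ⟨hwM, hwU⟩)
  have hxU : x ∉ U := by
    intro h
    have : x ∈ M ∩ U := ⟨⟨hx, hxg⟩, h⟩
    rw [hMU] at this
    exact this
  rw [hU, mem_setOf_eq, Filter.not_eventually] at hxU
  exact hxU.mono fun z hz => by
    rw [Classical.not_imp] at hz; exact hz

end Vale.Agent.P281.H76.S
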