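import Vale.Agent.P281.H76.Pull

/-! P281 (helper76): the Kodaira dimension does not drop under log maps. -/

namespace Vale.Agent.P281.H76

open scoped Manifold ContDiff Topology ENNReal
open Set Filter Metric

set_option linter.all false

universe u

variable {E : Type} [NormedAddCommGroup E] [NormedSpace ℂ E] [FiniteDimensional ℂ E]
variable {X X' : Type u} [TopologicalSpace X] [ChartedSpace E X] [IsManifold 𝓘(ℂ, E) ω X]
  [TopologicalSpace X'] [ChartedSpace E X'] [IsManifold 𝓘(ℂ, E) ω X']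

theorem dense_compl_hyp {D : Set X} (h : ∀ x, ∃ g, IsLocalEq E D g x) : Dense Dᶜ := by
  rw [dense_iff_inter_open]
  intro U hU hne
  obtain ⟨x, hx, hxD⟩ := IsLocalEq.exists_notMem h hU hne
  exact ⟨x, hx, hxD⟩

theorem det_local {q : X' → X} {x' : X'} (hq : HolM E E q x') :
    ∃ R : X' → ℂ, HolV E R x' ∧ ∀ᶠ z in 𝓝 x', ((dM E E q z).det ≠ 0 ↔ R z ≠ 0) := by
  have h1 : HolV E (fun w => chartAt E (q x') (q w)) x' :=
    HolV.comp (h := (chartAt E (q x') : X → E)) (HolV.chart (mem_chart_source E (q x'))) hq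
  obtain ⟨R, hR, hRe⟩ := jac_local h1
  refine ⟨R, hR, ?_⟩
  filter_upwards [hRe, jac_comp hq, jac_chart_ev (E := E) x',
    hq.continuousAt.eventually (jac_chart_ev (E := E) (q x'))] with z h2 h3 h4 h5
  rw [h3] at h2
  constructor
  · intro h0 hR0
    rw [hR0, zero_mul] at h2
    exact (mul_ne_zero h5 h0) h2
  · intro h0 hd0
    rw [hd0, mul_zero] at h2
    exact (mul_ne_zero h0 h4) h2.symm

theorem isOpen_det {q : X' → X} (hq : ∀ x, HolM E E q x) :
    IsOpen {z | (dM E E q z).det ≠ 0} := by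
  rw [isOpen_iff_mem_nhds]
  intro x hx
  obtain ⟨R, hR, hRe⟩ := det_local (hq x)
  have h0 : R x ≠ 0 := hRe.self_of_nhds.1 hx
  filter_upwards [hRe, hR.continuousAt.eventually_ne h0] with z h1 h2
  exact h1.2 h2

theorem dense_det [PreconnectedSpace X'] {q : X' → X} (hq : ∀ x, HolM E E q x)
    (hne : ∃ x, (dM E E q x).det ≠ 0) : Dense {z | (dM E E q z).det ≠ 0} := by
  refine dense_of_local (E := E) hne fun x => ?_
  obtain ⟨R, hR, hRe⟩ := det_local (hq x)
  exact ⟨R, hR, hRe⟩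

theorem dense_pre [PreconnectedSpace X'] [Nonempty X] {q : X' → X} (hq : ∀ x, HolM E E q x)
    (hsurj : Function.Surjective q) {D : Set X} (h : ∀ x, ∃ g, IsLocalEq E D g x) :
    Dense {z | q z ∉ D} := by
  refine dense_of_local (E := E) ?_ fun x => ?_
  · obtain ⟨x, -, hx⟩ := IsLocalEq.exists_notMem h isOpen_univ (univ_nonempty (α := X))
    obtain ⟨z, rfl⟩ := hsurj x
    exact ⟨z, hx⟩
  · obtain ⟨g, hg⟩ := h (q x)
    refine ⟨fun z => g (q z), HolV.comp hg.holAt (hq x), ?_⟩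
    filter_upwards [(hq x).continuousAt.eventually hg.eventually] with z hz
    rw [hz.mem_iff]

theorem dense_pre_fin [PreconnectedSpace X'] [Nonempty X] {q : X' → X}
    (hq : ∀ x, HolM E E q x) (hsurj : Function.Surjective q) {T : Set (Set X)} (hfin : T.Finite)
    (hcl : ∀ D ∈ T, IsClosed D) (h : ∀ D ∈ T, ∀ x, ∃ g, IsLocalEq E D g x) :
    IsOpen {z | ∀ D ∈ T, q z ∉ D} ∧ Dense {z | ∀ D ∈ T, q z ∉ D} := by
  have hqc : Continuous q := continuous_iff_continuousAt.2 fun x => (hq x).continuousAt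
  have hfin' : ((fun D : Set X => q ⁻¹' D) '' T).Finite := hfin.image _
  have key := dense_compl_finite (X := X') hfin' (by
      rintro _ ⟨D, hD, rfl⟩
      exact (hcl D hD).preimage hqc) (by
      rintro _ ⟨D, hD, rfl⟩
      exact dense_pre hq hsurj (h D hD))
  have heq : {z | ∀ D ∈ T, q z ∉ D} =
      {x | ∀ D ∈ ((fun D : Set X => q ⁻¹' D) '' T), x ∉ D} := by
    ext z
    simp only [mem_ofPred_eq, mem_image, forall_exists_index, and_imp, forall_apply_eq_imp_iff₂,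
      mem_preimage]
  rw [heq]
  exact key

/-- the Kodaira dimension does not drop under log maps. -/
theorem kodGE_pull [ConnectedSpace X'] {q : X' → X} (hq : ∀ x, HolM E E q x)
    (hsurj : Function.Surjective q) (hne : ∃ x, (dM E E q x).det ≠ 0)
    {Δ' : Set X' → ℝ} {Δ : Set X → ℝ} (hΔ' : IsSNCBoundary E Δ') (hΔ : IsSNCBoundary E Δ)
    {m₀ : ℕ} {k₀' : Set X' → ℕ} {k₀ : Set X → ℕ} (hm₀ : 0 < m₀)
    (hk₀' : ∀ D, (k₀' D : ℝ) = m₀ * Δ' D) (hk₀ : ∀ D, (k₀ D : ℝ) = m₀ * Δ D)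
    (hcr : ∀ x', ∃ u, LogAt E q m₀ k₀' k₀ x' u) {j : ℕ}
    (h : KodGE E (fun (D : Set X) z g => IsLocalEq E D g z) Δ j) :
    KodGE E (fun (D : Set X') z g => IsLocalEq E D g z) Δ' j := by
  classical
  have hneX' : Nonempty X' := inferInstance
  have hneX : Nonempty X := ⟨q hneX'.some⟩
  have hqc : Continuous q := continuous_iff_continuousAt.2 fun x => (hq x).continuousAt
  have hsupp : ∀ D, k₀ D ≠ 0 → Δ D ≠ 0 := by
    intro D hD h0
    have := hk₀ D
    rw [h0, mul_zero] at this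
    exact hD (by exact_mod_cast this)
  have hsupp' : ∀ D, k₀' D ≠ 0 → Δ' D ≠ 0 := by
    intro D hD h0
    have := hk₀' D
    rw [h0, mul_zero] at this
    exact hD (by exact_mod_cast this)
  have hsm : Smooth E {D | k₀ D ≠ 0} := fun D hD => smooth_of_snc hΔ D (hsupp D hD)
  obtain ⟨hG1o, hG1d⟩ := dense_pre_fin (T := {D | Δ D ≠ 0}) hq hsurj hΔ.finite
    (fun D hD => (hΔ.prime D hD).1) (fun D hD => (hΔ.prime D hD).2.1)
  obtain ⟨hG2o, hG2d⟩ := dense_compl_finite (X := X') (T := {D | Δ' D ≠ 0}) hΔ'.finite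
    (fun D hD => (hΔ'.prime D hD).1) (fun D hD => dense_compl_hyp (hΔ'.prime D hD).2.1)
  have hG : Dense {z | ∀ D, k₀ D ≠ 0 → q z ∉ D} := by
    refine hG1d.mono ?_
    intro z hz D hD
    exact hz D (hsupp D hD)
  obtain ⟨m, k, s, z, hm, hk, hs, hz, hs0, hind⟩ := h
  obtain ⟨y₂, hy₂⟩ := good_point hs hz hs0 hind
  -- powers
  have hkk : (fun D => k D * m₀) = fun D => k₀ D * m := by
    funext D
    have h1 : ((k D * m₀ : ℕ) : ℝ) = ((k₀ D * m : ℕ) : ℝ) := by
      push_cast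
      rw [hk, hk₀]; ring
    exact_mod_cast h1
  have hpull := fun b => by
    have h1 := isSection_pow (hs b) m₀
    rw [hkk, mul_comm m m₀] at h1
    exact pull_section hq hcr hsm hG hm h1
  choose s' hs' hs'e using hpull
  -- a good point
  obtain ⟨V, hV, hVo, hyV⟩ := eventually_nhds_iff.1 hy₂
  obtain ⟨x₂, hx₂⟩ := hsurj y₂
  have hd1 := (dense_det hq hne).inter_of_isOpen_left
    (hG1d.inter_of_isOpen_left hG2d hG1o) (isOpen_det hq)
  obtain ⟨z', hz'V, hz'1, hz'2, hz'3⟩ := hd1.inter_open_nonempty (q ⁻¹' V) (hVo.preimage hqc)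
    ⟨x₂, by rw [mem_preimage, hx₂]; exact hyV⟩
  have hev : ∀ᶠ w in 𝓝 z', (dM E E q w).det ≠ 0 ∧ (∀ D, Δ D ≠ 0 → q w ∉ D) ∧
      (∀ D, Δ' D ≠ 0 → w ∉ D) ∧ q w ∈ V := by
    filter_upwards [(isOpen_det hq).mem_nhds hz'1, hG1o.mem_nhds hz'2, hG2o.mem_nhds hz'3,
      (hVo.preimage hqc).mem_nhds hz'V] with w h1 h2 h3 h4
    exact ⟨h1, h2, h3, h4⟩
  have hse : ∀ b, ∀ᶠ w in 𝓝 z', s' b w = s b (q w) ^ m₀ * (dM E E q w).det ^ (m₀ * m) := by
    intro b
    filter_upwards [hev] with w hw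
    exact hs'e b w (fun D hD => hw.2.1 D (hsupp D hD)) (fun D hD => hw.2.2.1 D (hsupp' D hD))
  refine ⟨m₀ * m, fun D => k₀' D * m, s', z', Nat.mul_pos hm₀ hm, fun D => ?_, hs', ?_, ?_, ?_⟩
  · push_cast
    rw [hk₀']; ring
  · intro D hD
    have hD' := hsupp' D (left_ne_zero_of_mul hD)
    obtain ⟨g, hg⟩ := (hΔ'.prime D hD').2.1 z'
    exact ⟨g, hg, fun h0 => hz'3 D hD' (hg.mem_iff.2 h0)⟩
  · rw [(hse 0).self_of_nhds]
    exact mul_ne_zero (pow_ne_zero _ (hV (q z') hz'V).1) (pow_ne_zero _ hz'1)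
  · -- independence
    obtain ⟨hg1, hg2, hg3, hg4⟩ := hV (q z') hz'V
    set ρ : Fin j → X → ℂ := fun b w => s b.succ w / s 0 w with hρ
    have hρ0 : ∀ b, ρ b (q z') ≠ 0 := fun b => div_ne_zero (hg2 b) hg1
    have hratio : ∀ b : Fin j, (fun w => s' b.succ w / s' 0 w) =ᶠ[𝓝 z']
        fun w => (ρ b (q w)) ^ m₀ := by
      intro b
      filter_upwards [hse b.succ, hse 0, hev] with w h1 h2 h3
      have h4 : (dM E E q w).det ^ (m₀ * m) ≠ 0 := pow_ne_zero _ h3.1
      rw [h1, h2, mul_div_mul_right _ _ h4, ← div_pow]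
    set c : Fin j → ℂ := fun b => (m₀ : ℂ) * ρ b (q z') ^ (m₀ - 1) with hc
    have hc0 : ∀ b, c b ≠ 0 := fun b => mul_ne_zero (by exact_mod_cast hm₀.ne')
      (pow_ne_zero _ (hρ0 b))
    have hdif : ∀ b : Fin j, dif E (fun w => s' b.succ w / s' 0 w) z' =
        c b • ((dif E (ρ b) (q z')).comp (dM E E q z')) := by
      intro b
      have h1 : dif E (fun w => s' b.succ w / s' 0 w) z' =
          dV E (fun w => (ρ b (q w)) ^ m₀) z' := dV_congr (hratio b)
      have hp : ContDiffAt ℂ ω (fun t : ℂ => t ^ m₀) (ρ b (q z')) :=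
        (contDiff_id.pow m₀).contDiffAt
      have h2 : dV E (fun w => (ρ b (q w)) ^ m₀) z' =
          (dV E (fun y => (ρ b y) ^ m₀) (q z')).comp (dM E E q z') :=
        dV_comp (h := fun y => (ρ b y) ^ m₀) ((hg3 b).pow m₀) (hq z')
      have h3 : dV E (fun y => (ρ b y) ^ m₀) (q z') =
          (fderiv ℂ (fun t : ℂ => t ^ m₀) (ρ b (q z'))).comp (dV E (ρ b) (q z')) :=
        dV_comp_contDiff hp (hg3 b)
      have h4 : HasDerivAt (fun t : ℂ => t ^ m₀) (c b) (ρ b (q z')) := hasDerivAt_pow m₀ _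
      have h5 : ∀ η : ℂ, fderiv ℂ (fun t : ℂ => t ^ m₀) (ρ b (q z')) η = c b * η := by
        intro η
        rw [h4.hasFDerivAt.fderiv]
        simp [mul_comm]
      rw [h1, h2, h3]
      refine ContinuousLinearMap.ext fun ξ => ?_
      simp only [ContinuousLinearMap.comp_apply, h5, smul_apply, smul_eq_mul]
      rfl
    have hsurjA : Function.Surjective (dM E E q z') := by
      intro w
      refine ⟨(LinearMap.equivOfDetNeZero
        ((dM E E q z' : E →L[ℂ] E) : E →ₗ[ℂ] E) hz'1).symm w, ?_⟩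
      exact (LinearMap.equivOfDetNeZero
        ((dM E E q z' : E →L[ℂ] E) : E →ₗ[ℂ] E) hz'1).apply_symm_apply w
    have hli := (linearIndependent_precomp hsurjA (fun b : Fin j => dif E (ρ b) (q z'))).2 hg4
    have hli2 := hli.units_smul (fun b => Units.mk0 (c b) (hc0 b))
    have heq : (fun b : Fin j => dif E (fun w => s' b.succ w / s' 0 w) z') =
        ((fun b => Units.mk0 (c b) (hc0 b)) •
          fun b : Fin j => (dif E (ρ b) (q z')).comp (dM E E q z')) := by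
      funext b
      rw [hdif b]
      rfl
    rw [heq]
    exact hli2

end Vale.Agent.P281.H76
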