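import Vale.Agent.P281.MathlibUsed
import Mathlib.Analysis.Convex.Caratheodory
import Mathlib.Analysis.LocallyConvex.Separation
import Mathlib.Analysis.Convex.Topology

/-! P281 (helper76): linear programming duality with natural weights. -/

namespace Vale.Agent.P281.H76

open Set

set_option linter.all false

theorem lp {S : Type*} [Finite S] {n : ℕ} (v : S → Fin n → ℤ) (h0 : ∀ s, ∑ l, v s l = 0)
    (h : ∀ w : Fin n → ℕ, ∃ s, ∑ l, (w l : ℤ) * v s l ≤ 0) :
    ∃ (ι : Type) (_ : Fintype ι) (σ : ι → S) (lam : ι → ℕ), 0 < ∑ y, lam y ∧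
      ∀ l, ∑ y, (lam y : ℤ) * v (σ y) l = 0 := by
  classical
  set V : S → (Fin n → ℝ) := fun s l => (v s l : ℝ) with hV
  have hfin : (Set.range V).Finite := Set.finite_range V
  have hmem : (0 : Fin n → ℝ) ∈ convexHull ℝ (Set.range V) := by
    by_contra hcon
    obtain ⟨f, u, hf0, hf⟩ := geometric_hahn_banach_point_closed (convex_convexHull ℝ _)
      (hfin.isCompact_convexHull ℝ).isClosed hcon
    rw [map_zero] at hf0
    have hfs : ∀ s, 0 < f (V s) := fun s =>
      hf0.trans (hf _ (subset_convexHull ℝ _ ⟨s, rfl⟩))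
    have hfexp : ∀ x : Fin n → ℝ, f x = ∑ l, f (Pi.single l 1) * x l := by
      intro x
      conv_lhs => rw [← Finset.univ_sum_single x]
      rw [map_sum]
      refine Finset.sum_congr rfl fun l _ => ?_
      have : (Pi.single l (x l) : Fin n → ℝ) = x l • (Pi.single l (1 : ℝ)) := by
        rw [← Pi.single_smul]; simp
      rw [this, map_smul, smul_eq_mul, mul_comm]
    set U : Set (Fin n → ℝ) := {a | ∀ s, 0 < ∑ l, a l * V s l} with hU
    have hUo : IsOpen U := by
      have : U = ⋂ s, {a : Fin n → ℝ | 0 < ∑ l, a l * V s l} := by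
        ext a; simp [hU]
      rw [this]
      refine isOpen_iInter_of_finite fun s => isOpen_lt continuous_const ?_
      exact continuous_finset_sum _ fun l _ => (continuous_apply l).mul continuous_const
    have hUne : (fun l => f (Pi.single l 1)) ∈ U := fun s => by
      have := hfs s
      rwa [hfexp] at this
    have hdense : DenseRange (Pi.map (fun (_ : Fin n) (q : ℚ) => (q : ℝ))) :=
      DenseRange.piMap fun _ => Rat.denseRange_cast
    obtain ⟨a, ha⟩ := hdense.exists_mem_open hUo ⟨_, hUne⟩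
    -- clear denominators
    set d : ℕ := ∏ l, (a l).den with hd
    have hdpos : 0 < d := Finset.prod_pos fun l _ => (a l).pos
    have hA : ∀ l, ∃ A : ℤ, (A : ℝ) = d * (a l : ℝ) := by
      intro l
      obtain ⟨c, hc⟩ := Finset.dvd_prod_of_mem (fun l => (a l).den) (Finset.mem_univ l)
      refine ⟨c * (a l).num, ?_⟩
      have h3 : ((a l : ℚ) : ℝ) * ((a l).den : ℝ) = ((a l).num : ℝ) := by
        exact_mod_cast Rat.mul_den_eq_num (a l)
      push_cast
      rw [← h3]
      have h4 : (d : ℝ) = ((a l).den : ℝ) * c := by exact_mod_cast hc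
      rw [h4]; ring
    choose A hA using hA
    set M : ℤ := ∑ l, |A l| with hM
    have hAM : ∀ l, 0 ≤ A l + M := by
      intro l
      have h1 : |A l| ≤ M := Finset.single_le_sum (f := fun l => |A l|)
        (fun i _ => abs_nonneg _) (Finset.mem_univ l)
      have h2 := neg_abs_le (A l)
      linarith
    obtain ⟨s, hs⟩ := h (fun l => (A l + M).toNat)
    have h1 : ∑ l, (((A l + M).toNat : ℕ) : ℤ) * v s l = ∑ l, A l * v s l := by
      have : ∀ l, (((A l + M).toNat : ℕ) : ℤ) * v s l = A l * v s l + M * v s l := by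
        intro l
        rw [Int.toNat_of_nonneg (hAM l)]; ring
      rw [Finset.sum_congr rfl fun l _ => this l, Finset.sum_add_distrib, ← Finset.mul_sum, h0,
        mul_zero, add_zero]
    rw [h1] at hs
    have h2 : (0 : ℝ) < ∑ l, (a l : ℝ) * V s l := ha s
    have h3 : ((∑ l, A l * v s l : ℤ) : ℝ) = d * ∑ l, (a l : ℝ) * V s l := by
      push_cast
      rw [Finset.mul_sum]
      exact Finset.sum_congr rfl fun l _ => by rw [hA]; ring
    have h4 : (0 : ℝ) < ((∑ l, A l * v s l : ℤ) : ℝ) := by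
      rw [h3]
      exact mul_pos (by exact_mod_cast hdpos) h2
    have h5 : (0 : ℤ) < ∑ l, A l * v s l := by exact_mod_cast h4
    exact absurd hs (not_le.2 h5)
  rw [convexHull_eq_union] at hmem
  simp only [mem_iUnion] at hmem
  obtain ⟨t, hts, hai, ht⟩ := hmem
  rw [Finset.mem_convexHull'] at ht
  obtain ⟨w, hw0, hw1, hw2⟩ := ht
  -- a rational projection
  obtain ⟨φ, hφ⟩ : ∃ φ : ℝ →ₗ[ℚ] ℚ, φ 1 = 1 := by
    obtain ⟨g, hg⟩ := LinearMap.exists_leftInverse_of_injective
      (LinearMap.toSpanSingleton ℚ ℝ (1 : ℝ)) (by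
        rw [LinearMap.ker_eq_bot']
        intro m hm
        rw [LinearMap.toSpanSingleton_apply] at hm
        rcases smul_eq_zero.1 hm with h | h
        · exact h
        · exact absurd h one_ne_zero)
    refine ⟨g, ?_⟩
    have := congrArg (fun k : ℚ →ₗ[ℚ] ℚ => k 1) hg
    simpa using this
  choose σ hσ using fun y : t => hts y.2
  have hcoord : ∀ (y : t) l, (y : Fin n → ℝ) l = (v (σ y) l : ℝ) := by
    intro y l
    rw [← hσ y]
  have hφz : ∀ (x : ℝ) (z : ℤ), φ (x * z) = φ x * z := by
    intro x z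
    have : x * (z : ℝ) = (z : ℚ) • x := by
      rw [Rat.smul_def]; push_cast; ring
    rw [this, map_smul, smul_eq_mul, mul_comm]
  have hw1' : ∑ y : t, w y = 1 := by rw [Finset.sum_coe_sort t w]; exact hw1
  have hw2' : ∀ l, ∑ y : t, w y * (v (σ y) l : ℝ) = 0 := by
    intro l
    have h1 := congrFun hw2 l
    rw [← Finset.sum_coe_sort, Finset.sum_apply] at h1
    simp only [Pi.smul_apply, smul_eq_mul, hcoord, Pi.zero_apply] at h1
    exact h1
  have hq1 : ∑ y : t, φ (w y) = 1 := by rw [← map_sum, hw1', hφ]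
  have hq2 : ∀ l, ∑ y : t, φ (w y) * (v (σ y) l : ℚ) = 0 := by
    intro l
    have h1 := congrArg φ (hw2' l)
    rw [map_sum, map_zero] at h1
    rw [← h1]
    exact Finset.sum_congr rfl fun y _ => (hφz _ _).symm
  have hrat : ∀ y : t, w y = (φ (w y) : ℝ) := by
    have h1 := (affineIndependent_iff.1 hai) Finset.univ (fun y => w y - (φ (w y) : ℝ)) (by
      rw [Finset.sum_sub_distrib, hw1']
      have : ((∑ y : t, φ (w y) : ℚ) : ℝ) = 1 := by rw [hq1]; simp
      push_cast at this
      rw [this, sub_self]) (by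
      funext l
      rw [Finset.sum_apply]
      simp only [Pi.smul_apply, smul_eq_mul, hcoord, Pi.zero_apply, sub_mul]
      rw [Finset.sum_sub_distrib, hw2', zero_sub, neg_eq_zero]
      have : ((∑ y : t, φ (w y) * (v (σ y) l : ℚ) : ℚ) : ℝ) = 0 := by rw [hq2]; simp
      push_cast at this
      exact this)
    intro y
    exact sub_eq_zero.1 (h1 y (Finset.mem_univ y))
  have hqpos : ∀ y : t, 0 ≤ φ (w y) := by
    intro y
    have h1 := hw0 y y.2
    rw [hrat y] at h1
    exact_mod_cast h1
  -- clear denominators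
  set d : ℕ := ∏ y : t, (φ (w y)).den with hd
  have hdpos : 0 < d := Finset.prod_pos fun l _ => (φ (w l)).pos
  have hA : ∀ y : t, ∃ A : ℕ, (A : ℚ) = d * φ (w y) := by
    intro y
    obtain ⟨c, hc⟩ := Finset.dvd_prod_of_mem (fun y : t => (φ (w y)).den) (Finset.mem_univ y)
    refine ⟨c * (φ (w y)).num.toNat, ?_⟩
    have h2 : (((φ (w y)).num.toNat : ℕ) : ℚ) = ((φ (w y)).num : ℚ) := by
      have : (((φ (w y)).num.toNat : ℤ)) = (φ (w y)).num :=
        Int.toNat_of_nonneg (Rat.num_nonneg.2 (hqpos y))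
      exact_mod_cast this
    have h3 : (φ (w y)) * ((φ (w y)).den : ℚ) = ((φ (w y)).num : ℚ) := Rat.mul_den_eq_num _
    push_cast
    rw [h2, ← h3]
    have h4 : (d : ℚ) = ((φ (w y)).den : ℚ) * c := by exact_mod_cast hc
    rw [h4]; ring
  choose A hA using hA
  refine ⟨t, inferInstance, σ, A, ?_, ?_⟩
  · have h1 : ((∑ y : t, A y : ℕ) : ℚ) = d := by
      push_cast
      rw [Finset.sum_congr rfl fun y _ => hA y, ← Finset.mul_sum, hq1, mul_one]
    have h2 : ∑ y : t, A y = d := by exact_mod_cast h1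
    rw [h2]; exact hdpos
  · intro l
    have h1 : ((∑ y : t, (A y : ℤ) * v (σ y) l : ℤ) : ℚ) = 0 := by
      push_cast
      have : ∀ y : t, (A y : ℚ) * (v (σ y) l : ℚ) = d * (φ (w y) * (v (σ y) l : ℚ)) := by
        intro y; rw [hA]; ring
      rw [Finset.sum_congr rfl fun y _ => this y, ← Finset.mul_sum, hq2, mul_zero]
    exact_mod_cast h1

end Vale.Agent.P281.H76
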