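import Vale.Agent.P281.H76.Sing
import Vale.Agent.P281.H76.Git2
import Mathlib.MeasureTheory.Measure.Lebesgue.VolumeOfBalls

/-! P281 (helper76): integrability on a fibre gives log canonical tuples of forms. -/

namespace Vale.Agent.P281.H76.S

open scoped Manifold ContDiff Topology ENNReal
open Set Filter Metric MeasureTheory

set_option linter.all false

universe u

section Forms

/-- size of a form on weighted polydiscs. -/
theorem form_le {n d : ℕ} (p : (Fin d → Fin n) → ℂ) (h : Matrix (Fin n) (Fin n) ℂ)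
    (w : Fin n → ℕ) (o : ℕ) (ho : ∀ J, GIT.act (GIT.sym p) h J ≠ 0 → o ≤ ∑ s, w (J s)) :
    ∃ C : ℝ, 0 < C ∧ ∀ (t : ℝ) (x : Fin n → ℂ), 0 < t → t ≤ 1 → (∀ l, ‖x l‖ ≤ 2 * t ^ w l) →
      ‖form p (h.mulVec x)‖ ≤ C * t ^ o := by
  classical
  set Q : ℝ := (Fintype.card (Equiv.Perm (Fin d)) : ℝ) with hQ
  have hQ0 : 0 < Q := by
    rw [hQ]
    exact_mod_cast Fintype.card_pos
  refine ⟨(∑ J, ‖GIT.act (GIT.sym p) h J‖) * 2 ^ d / Q + 1, by positivity, ?_⟩
  intro t x ht ht1 hx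
  have h1 : form (GIT.act (GIT.sym p) h) x =
      (Fintype.card (Equiv.Perm (Fin d)) : ℂ) * form p (h.mulVec x) := by
    rw [GIT.form_act, GIT.form_sym]
  have h2 : ‖form (GIT.act (GIT.sym p) h) x‖ ≤
      (∑ J, ‖GIT.act (GIT.sym p) h J‖) * 2 ^ d * t ^ o := by
    unfold form
    refine (norm_sum_le _ _).trans ?_
    rw [Finset.sum_mul, Finset.sum_mul]
    refine Finset.sum_le_sum fun J _ => ?_
    rw [norm_mul]
    by_cases hJ : GIT.act (GIT.sym p) h J = 0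
    · rw [hJ]; simp
    · rw [mul_assoc]
      refine mul_le_mul_of_nonneg_left ?_ (norm_nonneg _)
      rw [norm_prod]
      calc ∏ l, ‖x (J l)‖ ≤ ∏ l, (2 * t ^ w (J l)) :=
            Finset.prod_le_prod (fun _ _ => norm_nonneg _) fun l _ => hx _
        _ = 2 ^ d * t ^ (∑ s, w (J s)) := by
            rw [Finset.prod_mul_distrib, Finset.prod_const, Finset.card_univ, Fintype.card_fin,
              Finset.prod_pow_eq_pow_sum]
        _ ≤ 2 ^ d * t ^ o := by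
            refine mul_le_mul_of_nonneg_left ?_ (by positivity)
            exact pow_le_pow_of_le_one ht.le ht1 (ho J hJ)
  have h3 : ‖form (GIT.act (GIT.sym p) h) x‖ = Q * ‖form p (h.mulVec x)‖ := by
    rw [h1, norm_mul, hQ]
    simp
  rw [h3] at h2
  have h4 : ‖form p (h.mulVec x)‖ ≤ (∑ J, ‖GIT.act (GIT.sym p) h J‖) * 2 ^ d / Q * t ^ o := by
    rw [div_mul_eq_mul_div, le_div_iff₀ hQ0]
    linarith
  refine h4.trans ?_
  refine mul_le_mul_of_nonneg_right (by linarith) (by positivity)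

/-- weighted polydisc at `x₀`. -/
def PD {n : ℕ} (x₀ : Fin n → ℂ) (w : Fin n → ℕ) (δ t : ℝ) : Set (Fin n → ℂ) :=
  Set.pi univ fun l => ball (x₀ l) (δ * t ^ w l)

theorem volume_PD {n : ℕ} (x₀ : Fin n → ℂ) (w : Fin n → ℕ) {δ t : ℝ} (hδ : 0 < δ) (ht : 0 < t) :
    volume (PD x₀ w δ t) = ENNReal.ofReal ((δ ^ 2 * Real.pi) ^ n * t ^ (2 * ∑ l, w l)) := by
  unfold PD
  rw [volume_pi_pi]
  have h1 : ∀ l, volume (ball (x₀ l) (δ * t ^ w l)) =
      ENNReal.ofReal ((δ ^ 2 * Real.pi) * t ^ (2 * w l)) := by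
    intro l
    rw [Complex.volume_ball, ← ENNReal.ofReal_pow (by positivity)]
    have : ((NNReal.pi : NNReal) : ℝ≥0∞) = ENNReal.ofReal Real.pi := by
      rw [← NNReal.coe_real_pi, ENNReal.ofReal_coe_nnreal]
    rw [this, ← ENNReal.ofReal_mul (by positivity)]
    congr 1
    ring
  rw [Finset.prod_congr rfl fun l _ => h1 l,
    ← ENNReal.ofReal_prod_of_nonneg fun l _ => by positivity]
  congr 1
  rw [Finset.prod_mul_distrib, Finset.prod_const, Finset.card_univ, Fintype.card_fin,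
    Finset.prod_pow_eq_pow_sum, Finset.mul_sum]

theorem PD_subset {n : ℕ} (x₀ : Fin n → ℂ) (w : Fin n → ℕ) {δ t : ℝ} (hδ : 0 < δ) (ht : 0 < t)
    (ht1 : t ≤ 1) : PD x₀ w δ t ⊆ ball x₀ δ := by
  intro x hx
  rw [mem_ball, dist_pi_lt_iff hδ]
  intro l
  have h1 := hx l (mem_univ l)
  rw [mem_ball] at h1
  refine h1.trans_le ?_
  calc δ * t ^ w l ≤ δ * 1 := mul_le_mul_of_nonneg_left (pow_le_one₀ ht.le ht1) hδ.le
    _ = δ := mul_one δ

theorem PD_single {n : ℕ} {l1 : Fin n} {w : Fin n → ℕ} (hw : w l1 = 0) {δ t : ℝ} (hδ : δ ≤ 1)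
    (ht : 0 < t) {x : Fin n → ℂ} (hx : x ∈ PD (Pi.single l1 1) w δ t) (l : Fin n) :
    ‖x l‖ ≤ 2 * t ^ w l := by
  have h1 := hx l (mem_univ l)
  rw [mem_ball] at h1
  by_cases hl : l = l1
  · subst hl
    rw [hw, pow_zero, mul_one] at h1 ⊢
    rw [Pi.single_eq_same, dist_eq_norm] at h1
    calc ‖x l‖ = ‖(x l - 1) + 1‖ := by ring_nf
      _ ≤ ‖x l - 1‖ + ‖(1 : ℂ)‖ := norm_add_le _ _
      _ ≤ 2 := by rw [norm_one]; linarith
  · rw [Pi.single_eq_of_ne hl, dist_zero_right] at h1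
    have h2 : 0 < t ^ w l := by positivity
    nlinarith

end Forms

section Fibre

variable {E E' : Type} [NormedAddCommGroup E] [NormedSpace ℂ E]
  [NormedAddCommGroup E'] [NormedSpace ℂ E']
variable {X Y : Type u} [TopologicalSpace X] [ChartedSpace E X] [IsManifold 𝓘(ℂ, E) ω X]
  [TopologicalSpace Y] [ChartedSpace E' Y] [IsManifold 𝓘(ℂ, E') ω Y]
variable {f : X → Y} {r : ℕ} {B : ProjectiveBundle E E' f r}

/-- choice of orders violating the log canonical inequality. -/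
theorem exists_orders {κ : Type*} [Fintype κ] {deg : κ → ℕ} {n : ℕ} {c : κ → ℝ}
    (hc : ∀ i, 0 < c i) (p : Coefs deg n) (h : Matrix (Fin n) (Fin n) ℂ) (w : Fin n → ℕ)
    (hcon : ∀ J : (i : κ) → Fin (deg i) → Fin n, (∀ i, GIT.act (GIT.sym (p i)) h (J i) ≠ 0) →
      ∑ l, (w l : ℝ) < ∑ i, c i * ∑ s, (w (J i s) : ℝ)) :
    ∃ o : κ → ℕ, (∀ i J, GIT.act (GIT.sym (p i)) h J ≠ 0 → o i ≤ ∑ s, w (J s)) ∧
      ∑ l, (w l : ℝ) < ∑ i, c i * o i := by
  classical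
  by_cases hex : ∀ i, ∃ J, GIT.act (GIT.sym (p i)) h J ≠ 0
  · have hmin : ∀ i, ∃ J : {J // GIT.act (GIT.sym (p i)) h J ≠ 0},
        ∀ J' : {J // GIT.act (GIT.sym (p i)) h J ≠ 0}, ∑ s, w (J.1 s) ≤ ∑ s, w (J'.1 s) := by
      intro i
      obtain ⟨J, hJ⟩ := hex i
      have : Nonempty {J // GIT.act (GIT.sym (p i)) h J ≠ 0} := ⟨⟨J, hJ⟩⟩
      exact Finite.exists_min fun J : {J // GIT.act (GIT.sym (p i)) h J ≠ 0} => ∑ s, w (J.1 s)
    choose J hJ using hmin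
    refine ⟨fun i => ∑ s, w ((J i).1 s), fun i J' hJ' => hJ i ⟨J', hJ'⟩, ?_⟩
    have := hcon (fun i => (J i).1) (fun i => (J i).2)
    push_cast
    exact this
  · push Not at hex
    obtain ⟨i₀, hi₀⟩ := hex
    obtain ⟨M, hM⟩ := exists_nat_gt ((∑ l, (w l : ℝ)) / c i₀)
    refine ⟨fun i => if i = i₀ then M else 0, ?_, ?_⟩
    · intro i J hJ
      by_cases hi : i = i₀
      · subst hi; exact absurd (hi₀ J) hJ
      · simp [hi]
    · have h1 : ∑ i, c i * ((if i = i₀ then M else 0 : ℕ) : ℝ) = c i₀ * M := by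
        rw [Finset.sum_eq_single i₀]
        · simp
        · intro b _ hb; simp [hb]
        · intro hb; exact absurd (Finset.mem_univ _) hb
      rw [h1]
      rw [div_lt_iff₀ (hc i₀)] at hM
      linarith

/-- the fibre over `y` is log canonical: `∏ |g_D| ^ (- 2 s Δ(D))` is locally integrable for all
`s < 1`, in homogeneous coordinates. -/
def LcFib (B : ProjectiveBundle E E' f r) (Δ : Set X → ℝ) (a : B.ι) (y : Y) : Prop :=
  ∀ h : Matrix (Fin (r + 1)) (Fin (r + 1)) ℂ, h.det ≠ 0 → ∀ x₀ : Fin (r + 1) → ℂ, x₀ ≠ 0 →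
    ∀ (g : Set X → X → ℂ) (s : ℝ), 0 < s → s < 1 →
    (∀ D, Δ D ≠ 0 → IsLocalEq E D (g D) (B.π a y (h.mulVec x₀))) →
    ∃ N ∈ 𝓝 x₀, ∫⁻ x in N, ∏ᶠ D, ‖g D (B.π a y (h.mulVec x))‖ₑ ^ (-(2 * s * Δ D)) ≠ ⊤

/-- the local equations on weighted polydiscs -/
theorem eqn_le {T : Set (Set X)} (hf : Continuous f) (fd : FormData B T) {a : B.ι} {y : Y}
    (hya : y ∈ B.U a) {h : Matrix (Fin (r + 1)) (Fin (r + 1)) ℂ} (hh : h.det ≠ 0)
    {w : Fin (r + 1) → ℕ} {l1 : Fin (r + 1)} (hw : w l1 = 0)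
    {v : X → Fin (r + 1) → ℂ} (hv : IsLift E f (B.π a) v (B.π a y (h.mulVec (Pi.single l1 1))))
    (hvx : v (B.π a y (h.mulVec (Pi.single l1 1))) = h.mulVec (Pi.single l1 1))
    {D : Set X} {o : ℕ}
    (ho : ∀ J, GIT.act (GIT.sym (fun J => fd.p a D J y)) h J ≠ 0 → o ≤ ∑ s, w (J s)) :
    ∃ C : ℝ, 0 < C ∧ ∀ᶠ x in 𝓝 (Pi.single l1 1 : Fin (r + 1) → ℂ), ∀ δ t : ℝ, δ ≤ 1 → 0 < t →
      t ≤ 1 → x ∈ PD (Pi.single l1 1) w δ t →
      ‖form (fun J => fd.p a D J (f (B.π a y (h.mulVec x)))) (v (B.π a y (h.mulVec x)))‖ ≤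
        C * t ^ o := by
  obtain ⟨C, hC0, hC⟩ := form_le (fun J => fd.p a D J y) h w o ho
  set x₀ : Fin (r + 1) → ℂ := Pi.single l1 1 with hx₀
  have hx₀0 : x₀ ≠ 0 := by
    intro h0
    have := congrFun h0 l1
    simp [hx₀] at this
  have hcont := pi_continuousAt B a hya hh hx₀0
  have hvc : ContinuousAt (fun x => v (B.π a y (h.mulVec x))) x₀ :=
    ContinuousAt.comp (g := v) (f := fun x => B.π a y (h.mulVec x)) hv.hol.continuousAt hcont
  have hhc : ContinuousAt (fun x => h.mulVec x) x₀ := by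
    have : Continuous fun x : Fin (r + 1) → ℂ => h.mulVec x := by fun_prop
    exact this.continuousAt
  refine ⟨2 ^ fd.deg D * C, by positivity, ?_⟩
  have e1 : ∀ᶠ x in 𝓝 x₀, ‖v (B.π a y (h.mulVec x))‖ < 2 * ‖h.mulVec x‖ := by
    refine hvc.norm.eventually_lt (continuousAt_const.mul hhc.norm) ?_
    show ‖v (B.π a y (h.mulVec x₀))‖ < 2 * ‖h.mulVec x₀‖
    rw [hvx]
    have : 0 < ‖h.mulVec x₀‖ := norm_pos_iff.2 (mulVec_ne_zero hh hx₀0)
    linarith
  have e2 : ∀ᶠ x in 𝓝 x₀, IsLift E f (B.π a) v (B.π a y (h.mulVec x)) :=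
    hcont.eventually (p := fun z => IsLift E f (B.π a) v z) hv.eventually
  have e3 : ∀ᶠ x in 𝓝 x₀, x ≠ 0 := isOpen_ne.mem_nhds hx₀0
  filter_upwards [e1, e2, e3] with x h1 h2 h3 δ t hδ ht ht1 hx
  have hhx := mulVec_ne_zero hh h3
  have hfx : f (B.π a y (h.mulVec x)) = y := (B.triv a).proj y hya _ hhx
  have h4 := h2.eq
  rw [hfx] at h4 ⊢
  obtain ⟨c, hc⟩ := ((B.triv a).eq_iff y hya _ hhx _ h2.ne_zero).1 h4.symm
  have hcn : ‖c‖ ≤ 2 := by
    rw [hc, norm_smul] at h1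
    exact (lt_of_mul_lt_mul_right h1 (norm_nonneg _)).le
  rw [hc, form_smul, norm_mul, norm_pow, mul_assoc]
  exact mul_le_mul (pow_le_pow_left₀ (norm_nonneg _) hcn _)
    (hC t x ht ht1 fun l => PD_single hw hδ ht hx l) (norm_nonneg _) (by positivity)

theorem lcForm_of_lcFib (hf : Continuous f) {Δ : Set X → ℝ} (hΔ : IsBdry E Δ)
    (fd : FormData B {D | Δ D ≠ 0}) {H : Finset (Set X)} (hH : ∀ D ∈ H, Δ D ≠ 0)
    {y : Y} {a : B.ι} (ha : y ∈ B.U a) (hlc : LcFib B Δ a y) :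
    GIT.L.LcForm (fun i : H => Δ i) (fd.P H a y) := by
  classical
  intro h hh w hw1
  obtain ⟨l1, hl1⟩ := hw1
  by_contra hcon
  push Not at hcon
  have hΔ0 : ∀ D, 0 ≤ Δ D := by
    intro D
    obtain ⟨q, hq, h0, h1⟩ := hΔ.rational D
    rw [hq]
    exact_mod_cast h0
  obtain ⟨o, ho1, ho2⟩ := exists_orders (c := fun i : H => Δ i)
    (fun i => lt_of_le_of_ne (hΔ0 _) (hH i i.2).symm) (fd.P H a y) h w hcon
  set x₀ : Fin (r + 1) → ℂ := Pi.single l1 1 with hx₀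
  have hx₀0 : x₀ ≠ 0 := by
    intro h0
    have := congrFun h0 l1
    simp [hx₀] at this
  obtain ⟨v, hv, hvx⟩ := exists_lift_value hf ha (mulVec_ne_zero hh hx₀0)
  set Tf := hΔ.finite.toFinset with hTfdef
  have hTf : ∀ D, D ∈ Tf ↔ Δ D ≠ 0 := fun D => Set.Finite.mem_toFinset _
  set oD : Set X → ℕ := fun D => if hD : D ∈ H then o ⟨D, hD⟩ else 0 with hoD
  have hS : ∑ i : H, Δ i * o i = ∑ D ∈ Tf, Δ D * oD D := by
    have h1 : ∑ i : H, Δ i * o i = ∑ i : H, Δ i * oD i := by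
      refine Finset.sum_congr rfl fun i _ => ?_
      rw [hoD]; simp
    rw [h1, Finset.sum_coe_sort H fun D => Δ D * (oD D : ℝ)]
    refine Finset.sum_subset (fun D hD => (hTf D).2 (hH D hD)) fun D _ hD => ?_
    rw [hoD]; simp [hD]
  have hbd : ∀ D : Set X, ∃ C : ℝ, D ∈ Tf → 0 < C ∧ ∀ᶠ x in 𝓝 x₀, ∀ δ t : ℝ, δ ≤ 1 → 0 < t →
      t ≤ 1 → x ∈ PD x₀ w δ t →
      ‖form (fun J => fd.p a D J (f (B.π a y (h.mulVec x)))) (v (B.π a y (h.mulVec x)))‖ ≤
        C * t ^ oD D := by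
    intro D
    obtain ⟨C, hC⟩ := eqn_le (D := D) (o := oD D) hf fd ha hh hl1 hv hvx (by
      intro J hJ
      by_cases hD : D ∈ H
      · rw [hoD]
        simp only [hD, dif_pos]
        exact ho1 ⟨D, hD⟩ J hJ
      · rw [hoD]; simp [hD])
    exact ⟨C, fun _ => hC⟩
  choose C hC using hbd
  -- the exponent `s`
  set W : ℝ := ∑ l, (w l : ℝ) with hW
  set S : ℝ := ∑ D ∈ Tf, Δ D * oD D with hSdef
  rw [hS] at ho2
  have hW0 : 0 ≤ W := Finset.sum_nonneg fun l _ => Nat.cast_nonneg _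
  have hS0 : 0 < S := hW0.trans_lt ho2
  set s : ℝ := (1 + W / S) / 2 with hs
  have hWS : W / S < 1 := (div_lt_one hS0).2 ho2
  have hWS0 : 0 ≤ W / S := div_nonneg hW0 hS0.le
  have hs0 : 0 < s := by rw [hs]; linarith
  have hs1 : s < 1 := by rw [hs]; linarith
  have hsS : W < s * S := by
    have : s * S = (S + W) / 2 := by rw [hs]; field_simp
    rw [this]; linarith
  obtain ⟨N, hN, hI⟩ := hlc h hh x₀ hx₀0
    (fun D x => form (fun J => fd.p a D J (f x)) (v x)) s hs0 hs1 (fun D hD =>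
      fd.eqn a D hD _ v (by rw [(B.triv a).proj y ha _ (mulVec_ne_zero hh hx₀0)]; exact ha) hv)
  -- a good ball
  have hev : ∀ᶠ x in 𝓝 x₀, x ∈ N ∧ ∀ D ∈ Tf, ∀ δ t : ℝ, δ ≤ 1 → 0 < t →
      t ≤ 1 → x ∈ PD x₀ w δ t →
      ‖form (fun J => fd.p a D J (f (B.π a y (h.mulVec x)))) (v (B.π a y (h.mulVec x)))‖ ≤
        C D * t ^ oD D := by
    refine Filter.Eventually.and hN ?_
    rw [Finset.eventually_all]
    exact fun D hD => (hC D hD).2
  obtain ⟨δ', hδ', hball⟩ := Metric.eventually_nhds_iff_ball.1 hev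
  set δ := min δ' 1 with hδdef
  have hδ : 0 < δ := lt_min hδ' one_pos
  have hδ1 : δ ≤ 1 := min_le_right _ _
  set G : (Fin (r + 1) → ℂ) → ℝ≥0∞ := fun x => ∏ᶠ D,
    ‖form (fun J => fd.p a D J (f (B.π a y (h.mulVec x)))) (v (B.π a y (h.mulVec x)))‖ₑ ^
      (-(2 * s * Δ D)) with hG
  set K : ℝ := ∏ D ∈ Tf, (C D) ^ (2 * s * Δ D) with hK
  have hK0 : 0 < K := Finset.prod_pos fun D hD => Real.rpow_pos_of_pos (hC D hD).1 _
  have hlow : ∀ t : ℝ, 0 < t → t ≤ 1 → ∀ x ∈ PD x₀ w δ t,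
      ENNReal.ofReal (K⁻¹ * t ^ (-(2 * s * S))) ≤ G x := by
    intro t ht ht1 x hx
    have hxb : x ∈ ball x₀ δ' :=
      ball_subset_ball (min_le_left _ _) (PD_subset x₀ w hδ ht ht1 hx)
    have h1 := (hball x hxb).2
    have hfin : G x = ∏ D ∈ Tf,
        ‖form (fun J => fd.p a D J (f (B.π a y (h.mulVec x)))) (v (B.π a y (h.mulVec x)))‖ₑ ^
          (-(2 * s * Δ D)) := by
      rw [hG]
      refine finprod_eq_prod_of_mulSupport_subset _ fun D hD => ?_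
      rw [Finset.mem_coe, hTf]
      intro h0
      apply hD
      show _ ^ (-(2 * s * Δ D)) = 1
      rw [h0, mul_zero, neg_zero, ENNReal.rpow_zero]
    have h2 : ∀ D ∈ Tf, ENNReal.ofReal ((C D) ^ (2 * s * Δ D))⁻¹ *
        ENNReal.ofReal (t ^ (-(2 * s * (Δ D * oD D)))) ≤
        ‖form (fun J => fd.p a D J (f (B.π a y (h.mulVec x)))) (v (B.π a y (h.mulVec x)))‖ₑ ^
          (-(2 * s * Δ D)) := by
      intro D hD
      have hCD := (hC D hD).1
      have h3 := h1 D hD δ t hδ1 ht ht1 hx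
      have ha0 : 0 ≤ 2 * s * Δ D := by have := hΔ0 D; positivity
      have h4 : ‖form (fun J => fd.p a D J (f (B.π a y (h.mulVec x))))
          (v (B.π a y (h.mulVec x)))‖ₑ ≤ ENNReal.ofReal (C D * t ^ oD D) := by
        rw [← ofReal_norm_eq_enorm]
        exact ENNReal.ofReal_le_ofReal h3
      have hpos : 0 < C D * t ^ oD D := by positivity
      rw [ENNReal.rpow_neg]
      refine le_trans ?_ (ENNReal.inv_le_inv.2 (ENNReal.rpow_le_rpow h4 ha0))
      rw [ENNReal.ofReal_rpow_of_pos hpos, ← ENNReal.ofReal_inv_of_pos (Real.rpow_pos_of_pos hpos _),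
        ← ENNReal.ofReal_mul (by positivity)]
      refine ENNReal.ofReal_le_ofReal (le_of_eq ?_)
      rw [Real.mul_rpow hCD.le (by positivity), mul_inv, Real.rpow_neg ht.le,
        ← Real.rpow_natCast t (oD D), ← Real.rpow_mul ht.le]
      congr 3
      ring
    rw [hfin]
    refine le_trans (le_of_eq ?_) (Finset.prod_le_prod' h2)
    rw [Finset.prod_mul_distrib, ← ENNReal.ofReal_prod_of_nonneg (fun D hD => by
        have := (hC D hD).1; positivity),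
      ← ENNReal.ofReal_prod_of_nonneg (fun D hD => by positivity),
      ← ENNReal.ofReal_mul (Finset.prod_nonneg fun D hD => by
        have := (hC D hD).1; positivity)]
    congr 2
    · rw [hK, Finset.prod_inv_distrib]
    · rw [← Real.rpow_sum_of_pos ht]
      congr 1
      rw [hSdef, Finset.mul_sum, Finset.sum_neg_distrib]
  -- the contradiction
  have hle : ∀ R : ℝ, 1 ≤ R → (δ ^ 2 * Real.pi) ^ (r + 1) * K⁻¹ * R ^ (2 * s * S - 2 * W) ≤
      (∫⁻ x in N, G x).toReal := by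
    intro R hR
    have hR0 : 0 < R := by linarith
    have ht : 0 < R⁻¹ := inv_pos.2 hR0
    have ht1 : R⁻¹ ≤ 1 := inv_le_one_of_one_le₀ hR
    have hsub : PD x₀ w δ R⁻¹ ⊆ N := by
      intro x hx
      exact (hball x (ball_subset_ball (min_le_left _ _) (PD_subset x₀ w hδ ht ht1 hx))).1
    have h1 : ENNReal.ofReal (K⁻¹ * R⁻¹ ^ (-(2 * s * S))) * volume (PD x₀ w δ R⁻¹) ≤
        ∫⁻ x in N, G x := by
      calc ENNReal.ofReal (K⁻¹ * R⁻¹ ^ (-(2 * s * S))) * volume (PD x₀ w δ R⁻¹)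
          = ∫⁻ x in PD x₀ w δ R⁻¹, ENNReal.ofReal (K⁻¹ * R⁻¹ ^ (-(2 * s * S))) := by
            rw [setLIntegral_const]
        _ ≤ ∫⁻ x in PD x₀ w δ R⁻¹, G x := by
            refine setLIntegral_mono' ?_ (hlow _ ht ht1)
            exact MeasurableSet.univ_pi fun l => measurableSet_ball
        _ ≤ ∫⁻ x in N, G x := lintegral_mono_set hsub
    rw [volume_PD x₀ w hδ ht, ← ENNReal.ofReal_mul (by positivity)] at h1
    have h2 := (ENNReal.ofReal_le_iff_le_toReal hI).1 h1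
    refine le_trans (le_of_eq ?_) h2
    have h3 : (R⁻¹ : ℝ) ^ (2 * ∑ l, w l) = R ^ (-(2 * W)) := by
      rw [← Real.rpow_natCast, Real.inv_rpow hR0.le, ← Real.rpow_neg hR0.le]
      congr 2
      push_cast
      rw [hW]
    have h4 : (R⁻¹ : ℝ) ^ (-(2 * s * S)) = R ^ (2 * s * S) := by
      rw [Real.inv_rpow hR0.le, ← Real.rpow_neg hR0.le, neg_neg]
    rw [h3, h4, sub_eq_add_neg, Real.rpow_add hR0]
    ring
  have hexp : 0 < 2 * s * S - 2 * W := by nlinarith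
  have hc0 : 0 < (δ ^ 2 * Real.pi) ^ (r + 1) * K⁻¹ := by
    have := Real.pi_pos
    positivity
  have htend := (tendsto_rpow_atTop hexp).const_mul_atTop hc0
  obtain ⟨R, hR1, hR2⟩ := ((htend.eventually_gt_atTop (∫⁻ x in N, G x).toReal).and
    (eventually_ge_atTop 1)).exists
  exact absurd (hle R hR2) (not_le.2 hR1)

end Fibre

end Vale.Agent.P281.H76.S
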