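import Vale.Agent.P281.H76.Red2

/-! P281 (helper76): the construction of sections of `B1` for arbitrary (singular) relative
hypersurfaces. -/

namespace Vale.Agent.P281.H76

open scoped Manifold ContDiff Topology
open Set Filter Metric

set_option linter.all false

universe u

section A

variable {E E' : Type} [NormedAddCommGroup E] [NormedSpace ℂ E]
  [NormedAddCommGroup E'] [NormedSpace ℂ E']
variable {X Y : Type u} [TopologicalSpace X] [ChartedSpace E X] [IsManifold 𝓘(ℂ, E) ω X]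
  [TopologicalSpace Y] [ChartedSpace E' Y] [IsManifold 𝓘(ℂ, E') ω Y]

variable {f : X → Y} {r : ℕ} (B : ProjectiveBundle E E' f r) {T : Set (Set X)}

theorem local_ratio (fd : FormData B T) [FiniteDimensional ℂ E]
    {D : Set X} (hD : D ∈ T) {a b : B.ι} {y : Y}
    (hya : y ∈ B.U a) (hyb : y ∈ B.U b) {M N : Matrix (Fin (r + 1)) (Fin (r + 1)) ℂ}
    (hM : M.det ≠ 0) (hN : N.det ≠ 0)
    (hMN : ∀ w ≠ 0, B.π a y (M.mulVec w) = B.π b y (N.mulVec w)) (w₀ : Fin (r + 1) → ℂ)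
    (hw₀ : w₀ ≠ 0) :
    ∃ C : ℝ, ∀ᶠ w in 𝓝 w₀, ‖form (fun J => fd.p a D J y) (M.mulVec w)‖ ≤
      C * ‖form (fun J => fd.p b D J y) (N.mulVec w)‖ := by
  set x₀ := B.π a y (M.mulVec w₀) with hx₀
  have hfx : f x₀ = y := (B.triv a).proj y hya _ (mulVec_ne_zero hM hw₀)
  obtain ⟨v, hv⟩ := (B.triv a).lift x₀ (by rw [hfx]; exact hya)
  obtain ⟨v', hv'⟩ := (B.triv b).lift x₀ (by rw [hfx]; exact hyb)
  have ha := fd.eqn a D hD x₀ v (by rw [hfx]; exact hya) hv
  have hb := fd.eqn b D hD x₀ v' (by rw [hfx]; exact hyb) hv'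
  obtain ⟨C, hC⟩ := bound_red hb ha
  have hcont := pi_continuousAt B a hya hM hw₀
  -- the comparison function
  set z : (Fin (r + 1) → ℂ) → X := fun w => B.π a y (M.mulVec w) with hz
  have hz0 : z w₀ = x₀ := rfl
  set F : (Fin (r + 1) → ℂ) → ℝ := fun w =>
    (‖M.mulVec w‖ / ‖v (z w)‖) / (‖N.mulVec w‖ / ‖v' (z w)‖) with hF
  have hvc : ContinuousAt (fun w => v (z w)) w₀ :=
    ContinuousAt.comp (g := v) (f := z) hv.hol.continuousAt hcont
  have hvc' : ContinuousAt (fun w => v' (z w)) w₀ :=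
    ContinuousAt.comp (g := v') (f := z) hv'.hol.continuousAt hcont
  have hMc : Continuous fun w : Fin (r + 1) → ℂ => M.mulVec w := by fun_prop
  have hNc : Continuous fun w : Fin (r + 1) → ℂ => N.mulVec w := by fun_prop
  have hFc : ContinuousAt F w₀ := by
    refine ContinuousAt.div (ContinuousAt.div hMc.continuousAt.norm hvc.norm ?_)
      (ContinuousAt.div hNc.continuousAt.norm hvc'.norm ?_) ?_
    · exact norm_ne_zero_iff.2 hv.ne_zero
    · exact norm_ne_zero_iff.2 hv'.ne_zero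
    · exact div_ne_zero (norm_ne_zero_iff.2 (mulVec_ne_zero hN hw₀))
        (norm_ne_zero_iff.2 hv'.ne_zero)
  have hFb : ∀ᶠ w in 𝓝 w₀, F w < F w₀ + 1 := hFc.eventually_lt_const (by linarith only [])
  refine ⟨|C| * (F w₀ + 1) ^ fd.deg D, ?_⟩
  have e1 : ∀ᶠ w in 𝓝 w₀, ‖form (fun J => fd.p a D J (f (z w))) (v (z w))‖ ≤
      C * ‖form (fun J => fd.p b D J (f (z w))) (v' (z w))‖ := hcont.eventually hC
  have e2 := hcont.eventually (p := fun z => IsLift E f (B.π a) v z) hv.eventually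
  have e3 := hcont.eventually (p := fun z => IsLift E f (B.π b) v' z) hv'.eventually
  have e4 : ∀ᶠ w in 𝓝 w₀, w ≠ 0 := isOpen_ne.mem_nhds hw₀
  filter_upwards [hFb, e1, e2, e3, e4] with w hFw h1 h2 h3 hw
  have hMw := mulVec_ne_zero hM hw
  have hNw := mulVec_ne_zero hN hw
  have hfz : f (z w) = y := (B.triv a).proj y hya _ hMw
  rw [hfz] at h1
  obtain ⟨c, hc⟩ := ((B.triv a).eq_iff y hya (v (z w)) h2.ne_zero (M.mulVec w) hMw).1 (by
    have := h2.eq
    rw [hfz] at this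
    rw [this])
  obtain ⟨c', hc'⟩ := ((B.triv b).eq_iff y hyb (v' (z w)) h3.ne_zero (N.mulVec w) hNw).1 (by
    have := h3.eq
    rw [hfz] at this
    rw [this, ← hMN w hw])
  have hc0 : c' ≠ 0 := by
    intro h0
    rw [h0, zero_smul] at hc'
    exact hNw hc'
  have hnc : ‖c‖ = ‖M.mulVec w‖ / ‖v (z w)‖ := by
    rw [hc, norm_smul, mul_div_assoc, div_self (norm_ne_zero_iff.2 h2.ne_zero), mul_one]
  have hnc' : ‖c'‖ = ‖N.mulVec w‖ / ‖v' (z w)‖ := by
    rw [hc', norm_smul, mul_div_assoc, div_self (norm_ne_zero_iff.2 h3.ne_zero), mul_one]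
  have hFw' : F w = ‖c‖ / ‖c'‖ := by rw [hF, hnc, hnc']
  have hFpos : 0 ≤ F w := by rw [hFw']; (clear * - hc0; positivity)
  have hpow : F w ^ fd.deg D ≤ (F w₀ + 1) ^ fd.deg D := pow_le_pow_left₀ hFpos hFw.le _
  rw [hc, hc', form_smul, form_smul, norm_mul, norm_mul, norm_pow, norm_pow]
  set A := ‖form (fun J => fd.p a D J y) (v (z w))‖ with hA
  set Bb := ‖form (fun J => fd.p b D J y) (v' (z w))‖ with hBb
  have hB0 : 0 ≤ Bb := norm_nonneg _
  have hcpos : 0 < ‖c'‖ := norm_pos_iff.2 hc0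
  calc ‖c‖ ^ fd.deg D * A ≤ ‖c‖ ^ fd.deg D * (C * Bb) := by (clear * - h1; gcongr)
    _ ≤ ‖c‖ ^ fd.deg D * (|C| * Bb) := by gcongr; exact le_abs_self _
    _ = |C| * (F w ^ fd.deg D) * (‖c'‖ ^ fd.deg D * Bb) := by
        rw [hFw', div_pow]
        (clear * - hc0; field_simp)
    _ ≤ |C| * ((F w₀ + 1) ^ fd.deg D) * (‖c'‖ ^ fd.deg D * Bb) := by (clear * - hc0 hpow; gcongr)

theorem compat (fd : FormData B T) [FiniteDimensional ℂ E]
    {D : Set X} (hD : D ∈ T) {a b : B.ι} {y : Y}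
    (hya : y ∈ B.U a) (hyb : y ∈ B.U b) {M : Matrix (Fin (r + 1)) (Fin (r + 1)) ℂ}
    (hM : M.det ≠ 0)
    (hMπ : ∀ w ≠ 0, B.π a y w = B.π b y (M.mulVec w)) :
    ∃ c : ℂ, c ≠ 0 ∧ ∀ w, form (fun J => fd.p a D J y) w =
      c * form (fun J => fd.p b D J y) (M.mulVec w) := by
  refine form_ratio (Nat.succ_pos r) _ _ M ?_ ?_
  · refine sphere_bound _ _ (fun w => norm_nonneg _) fun w₀ hw₀ => ?_
    have := local_ratio B fd hD hya hyb (M := 1) (N := M) (by simp) hM
      (fun w hw => by rw [Matrix.one_mulVec]; exact hMπ w hw) w₀ hw₀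
    simpa only [Matrix.one_mulVec] using this
  · refine sphere_bound _ _ (fun w => norm_nonneg _) fun w₀ hw₀ => ?_
    have := local_ratio B fd hD hyb hya (M := M) (N := 1) hM (by simp)
      (fun w hw => by rw [Matrix.one_mulVec]; exact (hMπ w hw).symm) w₀ hw₀
    simpa only [Matrix.one_mulVec] using this


end A

section Bb

variable {E E' : Type} [NormedAddCommGroup E] [NormedSpace ℂ E]
  [NormedAddCommGroup E'] [NormedSpace ℂ E']
variable {X Y : Type u} [TopologicalSpace X] [ChartedSpace E X] [IsManifold 𝓘(ℂ, E) ω X]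
  [TopologicalSpace Y] [ChartedSpace E' Y] [IsManifold 𝓘(ℂ, E') ω Y]
variable {f : X → Y} {r : ℕ} {B : ProjectiveBundle E E' f r} {T : Set (Set X)}

theorem P_change (fd : FormData B T) [FiniteDimensional ℂ E]
    {H : Finset (Set X)} (hH : ∀ D ∈ H, D ∈ T) {a b : B.ι} {y : Y}
    (hya : y ∈ B.U a) (hyb : y ∈ B.U b) {g : Matrix (Fin (r + 1)) (Fin (r + 1)) ℂ}
    (hg : g.det ≠ 0) (hgπ : ∀ w ≠ 0, B.π a y w = B.π b y (g.mulVec w)) :
    ∃ c : H → ℂ, (∀ i, c i ≠ 0) ∧ ∀ i w, form (fd.P H a y i) w =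
      c i * form (fd.P H b y i) (g.mulVec w) := by
  have h : ∀ i : H, ∃ c : ℂ, c ≠ 0 ∧ ∀ w, form (fd.P H a y i) w =
      c * form (fd.P H b y i) (g.mulVec w) := fun i =>
    compat B fd (hH i i.2) hya hyb hg hgπ
  choose c hc0 hc using h
  exact ⟨c, hc0, hc⟩

theorem val_change [FiniteDimensional ℂ E] [FiniteDimensional ℂ E']
    (fd : FormData B T) {H : Finset (Set X)} (hH : ∀ D ∈ H, D ∈ T)
    (e : (E × ℂ) ≃L[ℂ] (E' × (Fin (r + 1) → ℂ)))
    {𝒢 : Set (Matrix (Fin (r + 1)) (Fin (r + 1)) ℂ)} (hG : HasTrans B 𝒢)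
    (hf : ∀ x, HolM E E' f x) {K : H → ℕ} {M N : ℕ}
    (C : Covariant (fun i : H => fd.deg i) (r + 1) 𝒢 K M N)
    (hN : (r + 1) * M + N = ∑ i : H, fd.deg i * K i)
    {x : X} {a b : B.ι} (ha : f x ∈ B.U a) (hb : f x ∈ B.U b)
    {v v' : X → (Fin (r + 1) → ℂ)} (hv : IsLift E f (B.π a) v x)
    (hv' : IsLift E f (B.π b) v' x) :
    val fd H C.C K M e b v' x = val fd H C.C K M e a v x := by
  obtain ⟨g, lam, hlam, hg, hgG, hgπ, hvx, hJ⟩ := lift_change B e hG hf ha hb hv hv'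
  obtain ⟨c, hc0, hc⟩ := P_change fd hH ha hb hg hgπ
  unfold val
  rw [hJ, hvx, C.law _ _ c g (v x) hgG hg hc0 hc, C.homog]
  have h1 : ∏ i : H, form (fd.P H a (f x) i) (v x) ^ K i =
      (∏ i, c i ^ K i) * ∏ i : H, form (fd.P H b (f x) i) (g.mulVec (v x)) ^ K i := by
    rw [← Finset.prod_mul_distrib]
    refine Finset.prod_congr rfl fun i _ => ?_
    rw [hc i, mul_pow]
  have h2 : ∏ i : H, form (fd.P H b (f x) i) (lam • g.mulVec (v x)) ^ K i =
      lam ^ ((r + 1) * M + N) * ∏ i : H, form (fd.P H b (f x) i) (g.mulVec (v x)) ^ K i := by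
    rw [hN, ← Finset.prod_pow_eq_pow_sum, ← Finset.prod_mul_distrib]
    refine Finset.prod_congr rfl fun i _ => ?_
    rw [form_smul, mul_pow, ← pow_mul]
  rw [h1, h2]
  have hl : lam ^ ((r + 1) * M + N) ≠ 0 := pow_ne_zero _ hlam
  have hcp : (∏ i, c i ^ K i) ≠ 0 := Finset.prod_ne_zero_iff.2 fun i _ => pow_ne_zero _ (hc0 i)
  set Q := ∏ i : H, form (fd.P H b (f x) i) (g.mulVec (v x)) ^ K i with hQ
  by_cases hQ0 : Q = 0
  · simp only [hQ0, mul_zero, div_zero, Finset.univ_eq_attach]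
  · rw [div_eq_div_iff (mul_ne_zero hl hQ0) (mul_ne_zero hcp hQ0)]
    ring

end Bb

section Cc

variable {E E' : Type} [NormedAddCommGroup E] [NormedSpace ℂ E]
  [NormedAddCommGroup E'] [NormedSpace ℂ E']
variable {X Y : Type u} [TopologicalSpace X] [ChartedSpace E X] [IsManifold 𝓘(ℂ, E) ω X]
  [TopologicalSpace Y] [ChartedSpace E' Y] [IsManifold 𝓘(ℂ, E') ω Y]
variable {f : X → Y} {r : ℕ} {B : ProjectiveBundle E E' f r} {T : Set (Set X)}

theorem sec_eq [FiniteDimensional ℂ E] [FiniteDimensional ℂ E']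
    (fd : FormData B T) {H : Finset (Set X)} (hH : ∀ D ∈ H, D ∈ T)
    (e : (E × ℂ) ≃L[ℂ] (E' × (Fin (r + 1) → ℂ)))
    {𝒢 : Set (Matrix (Fin (r + 1)) (Fin (r + 1)) ℂ)} (hG : HasTrans B 𝒢)
    (hf : ∀ x, HolM E E' f x) {K : H → ℕ} {M N : ℕ}
    (C : Covariant (fun i : H => fd.deg i) (r + 1) 𝒢 K M N)
    (hN : (r + 1) * M + N = ∑ i : H, fd.deg i * K i) (τ : Y → ℂ)
    {x : X} {a : B.ι} (ha : f x ∈ B.U a)
    {v : X → (Fin (r + 1) → ℂ)} (hv : IsLift E f (B.π a) v x) :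
    sec fd H C.C K M e τ x = τ (f x) * val fd H C.C K M e a v x := by
  unfold sec
  rw [val_change fd hH e hG hf C hN ha (exists_lift B x).choose_spec.1 hv
    (exists_lift B x).choose_spec.2]

theorem isSection_sec [FiniteDimensional ℂ E] [FiniteDimensional ℂ E']
    (fd : FormData B T) (hT : T.Finite) {H : Finset (Set X)}
    (hH : ∀ D ∈ H, D ∈ T)
    (e : (E × ℂ) ≃L[ℂ] (E' × (Fin (r + 1) → ℂ)))
    {𝒢 : Set (Matrix (Fin (r + 1)) (Fin (r + 1)) ℂ)} (hG : HasTrans B 𝒢)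
    (hf : ∀ x, HolM E E' f x) (hopen : IsOpenMap f)
    (hsub : ∀ x, Function.Surjective (dM E E' f x)) (hsurj : Function.Surjective f)
    {K : H → ℕ} {M N : ℕ}
    (C : Covariant (fun i : H => fd.deg i) (r + 1) 𝒢 K M N)
    (hN : (r + 1) * M + N = ∑ i : H, fd.deg i * K i)
    {kY : Set Y → ℕ} {τ : Y → ℂ}
    (hτ : IsSection E' (fun (D : Set Y) z g => IsLocalEq E' D g z) M kY τ)
    {KX : Set X → ℕ} (hKT : ∀ D, KX D ≠ 0 → D ∈ T) (hKY : ∀ G, kY G ≤ KX (f ⁻¹' G))
    (hHK : ∀ i : H, K i = KX i) (hHv : ∀ D ∈ H, ∀ G, kY G ≠ 0 → f ⁻¹' G ≠ D) :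
    IsSection E (fun (D : Set X) z g => IsLocalEq E D g z) M KX (sec fd H C.C K M e τ) := by
  classical
  intro z₀
  obtain ⟨a₀, ha₀⟩ := B.cover (f z₀)
  obtain ⟨v₀, hv₀⟩ := (B.triv a₀).lift z₀ ha₀
  obtain ⟨T', g', a', hT', hg', ha', hev⟩ := hτ (f z₀)
  obtain ⟨Hh, hHh, hJ⟩ := J_local e (hf z₀) hv₀.hol
  set TX : Finset (Set X) := hT.toFinset with hTX
  set TF : Finset (Set Y) := T'.filter (fun G => kY G ≠ 0) with hTF
  set TV : Finset (Set X) := TF.image (fun G => f ⁻¹' G) with hTV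
  set R : Finset (Set X) := TX \ (TV ∪ H) with hR
  have hinj : Function.Injective (fun G : Set Y => f ⁻¹' G) :=
    Function.Surjective.preimage_injective hsurj
  have hTVsub : TV ⊆ TX := by
    intro D hD
    rw [hTV, Finset.mem_image] at hD
    obtain ⟨G, hG', rfl⟩ := hD
    rw [hTF, Finset.mem_filter] at hG'
    rw [hTX, Set.Finite.mem_toFinset]
    exact hKT _ (fun h => hG'.2 (Nat.le_zero.1 (h ▸ hKY G)))
  have hHsub : H ⊆ TX := by
    intro D hD
    rw [hTX, Set.Finite.mem_toFinset]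
    exact hH D hD
  have hdisj : Disjoint TV H := by
    rw [Finset.disjoint_left]
    intro D hD hDH
    rw [hTV, Finset.mem_image] at hD
    obtain ⟨G, hG', hGD⟩ := hD
    rw [hTF, Finset.mem_filter] at hG'
    exact hHv D hDH G hG'.2 hGD
  -- local equations
  set gX : Set X → X → ℂ := fun D z => if D ∈ TV then g' (f '' D) (f z) else
    form (fun J => fd.p a₀ D J (f z)) (v₀ z) with hgX
  have himg : ∀ G : Set Y, f '' (f ⁻¹' G) = G := fun G => image_preimage_eq G hsurj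
  have hfe : ∀ᶠ z in 𝓝 z₀, f z ∈ B.U a₀ :=
    (hf z₀).continuousAt.eventually ((B.triv a₀).isOpen.mem_nhds ha₀)
  have hformH : ∀ D ∈ T, HolV E (fun z => form (fun J => fd.p a₀ D J (f z)) (v₀ z)) z₀ :=
    fun D hD => form_holV (fun J => HolV.comp (fd.hol a₀ D hD J _ ha₀) (hf z₀)) hv₀.hol
  refine ⟨TX, gX, fun z => a' (f z) * (∏ G ∈ TF, g' G (f z) ^ (KX (f ⁻¹' G) - kY G)) *
    C.C (fd.P H a₀ (f z)) (v₀ z) *
    (∏ D ∈ R, form (fun J => fd.p a₀ D J (f z)) (v₀ z) ^ KX D) * Hh z ^ M, ?_, ?_, ?_, ?_⟩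
  · intro D hD
    rw [hTX, Set.Finite.mem_toFinset]
    exact hKT D hD
  · intro D hD
    by_cases hDV : D ∈ TV
    · have h1 : gX D = fun z => g' (f '' D) (f z) := by
        funext z; simp [hgX, hDV]
      simp only [h1]
      rw [hTV, Finset.mem_image] at hDV
      obtain ⟨G, hG', rfl⟩ := hDV
      rw [himg]
      rw [hTF, Finset.mem_filter] at hG'
      exact isLocalEq_comp hf hopen hsub (hg' G hG'.1)
    · have h1 : gX D = fun z => form (fun J => fd.p a₀ D J (f z)) (v₀ z) := by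
        funext z; simp [hgX, hDV]
      simp only [h1]
      rw [hTX, Set.Finite.mem_toFinset] at hD
      exact fd.eqn a₀ D hD z₀ v₀ ha₀ hv₀
  · have hC : HolV E (fun z => C.C (fd.P H a₀ (f z)) (v₀ z)) z₀ := by
      have hpair : HolV E (fun z => (fd.P H a₀ (f z), v₀ z)) z₀ := by
        refine HolV.prodMk ?_ hv₀.hol
        refine HolV.piF fun i => HolV.piF fun J => ?_
        exact HolV.comp (fd.hol a₀ i (hH i i.2) J _ ha₀) (hf z₀)
      exact HolV.comp_contDiff (C.hol.contDiffAt) hpair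
    have h1 : HolV E (fun z => a' (f z)) z₀ := HolV.comp ha' (hf z₀)
    have h2 : HolV E (fun z => ∏ G ∈ TF, g' G (f z) ^ (KX (f ⁻¹' G) - kY G)) z₀ := by
      refine HolV.prod fun G hG' => HolV.pow ?_ _
      rw [hTF, Finset.mem_filter] at hG'
      exact HolV.comp (hg' G hG'.1).holAt (hf z₀)
    have h3 : HolV E (fun z => ∏ D ∈ R, form (fun J => fd.p a₀ D J (f z)) (v₀ z) ^ KX D) z₀ := by
      refine HolV.prod fun D hD => HolV.pow (hformH D ?_) _
      rw [hR, Finset.mem_sdiff, hTX, Set.Finite.mem_toFinset] at hD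
      exact hD.1
    exact (((h1.mul h2).mul hC).mul h3).mul (hHh.pow M)
  · have hev' := (hf z₀).continuousAt.eventually hev
    filter_upwards [hev', hJ, hfe, hv₀.eventually] with z h1 h2 h3 h4 hne
    rw [sec_eq fd hH e hG hf C hN τ h3 h4]
    -- split the product
    have hsplit : ∏ D ∈ TX, gX D z ^ KX D =
        (∏ G ∈ TF, g' G (f z) ^ KX (f ⁻¹' G)) *
        (∏ D ∈ H, form (fun J => fd.p a₀ D J (f z)) (v₀ z) ^ KX D) *
        (∏ D ∈ R, form (fun J => fd.p a₀ D J (f z)) (v₀ z) ^ KX D) := by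
      have hun : TX = (TV ∪ H) ∪ R := by
        rw [hR, Finset.union_sdiff_of_subset (Finset.union_subset hTVsub hHsub)]
      have hd2 : Disjoint (TV ∪ H) R := by rw [hR]; exact Finset.disjoint_sdiff
      rw [hun, Finset.prod_union hd2, Finset.prod_union hdisj]
      congr 1
      · congr 1
        · rw [hTV, Finset.prod_image (fun a _ b _ h => hinj h)]
          refine Finset.prod_congr rfl fun G hG' => ?_
          have : f ⁻¹' G ∈ TV := by rw [hTV]; exact Finset.mem_image_of_mem _ hG'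
          simp only [hgX, this, if_true, himg]
        · refine Finset.prod_congr rfl fun D hD => ?_
          have : D ∉ TV := fun h => Finset.disjoint_left.1 hdisj h hD
          simp only [hgX, this, if_false]
      · refine Finset.prod_congr rfl fun D hD => ?_
        have : D ∉ TV := fun h => Finset.disjoint_left.1 hd2 (Finset.mem_union_left _ h) hD
        simp only [hgX, this, if_false]
    rw [hsplit] at hne ⊢
    have hH' : ∏ i : H, form (fd.P H a₀ (f z) i) (v₀ z) ^ K i =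
        ∏ D ∈ H, form (fun J => fd.p a₀ D J (f z)) (v₀ z) ^ KX D := by
      rw [← Finset.prod_coe_sort H
        (fun D => form (fun J => fd.p a₀ D J (f z)) (v₀ z) ^ KX D)]
      refine Finset.prod_congr rfl fun i _ => ?_
      rw [hHK i]
      rfl
    have hTFe : ∏ G ∈ T', g' G (f z) ^ kY G = ∏ G ∈ TF, g' G (f z) ^ kY G := by
      rw [hTF, Finset.prod_filter]
      refine Finset.prod_congr rfl fun G _ => ?_
      by_cases hk : kY G = 0
      · simp [hk]
      · simp [hk]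
    have hA1 : ∏ G ∈ TF, g' G (f z) ^ KX (f ⁻¹' G) =
        (∏ G ∈ TF, g' G (f z) ^ kY G) * ∏ G ∈ TF, g' G (f z) ^ (KX (f ⁻¹' G) - kY G) := by
      rw [← Finset.prod_mul_distrib]
      refine Finset.prod_congr rfl fun G _ => ?_
      rw [← pow_add, Nat.add_sub_cancel' (hKY G)]
    have hne1 := left_ne_zero_of_mul (left_ne_zero_of_mul hne)
    have hne2 := right_ne_zero_of_mul (left_ne_zero_of_mul hne)
    have hne3 : ∏ G ∈ T', g' G (f z) ^ kY G ≠ 0 := by
      rw [hTFe]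
      rw [hA1] at hne1
      exact left_ne_zero_of_mul hne1
    have hτz := h1 hne3
    rw [hTFe] at hτz
    unfold val
    rw [hH', hA1]
    set Q1 := ∏ G ∈ TF, g' G (f z) ^ kY G with hQ1
    set Q2 := ∏ G ∈ TF, g' G (f z) ^ (KX (f ⁻¹' G) - kY G) with hQ2
    set Q3 := ∏ D ∈ H, form (fun J => fd.p a₀ D J (f z)) (v₀ z) ^ KX D with hQ3
    set Q4 := ∏ D ∈ R, form (fun J => fd.p a₀ D J (f z)) (v₀ z) ^ KX D with hQ4
    have hJM : jac E' (chartAt E' (f z₀)) (f z) ^ M * J e f v₀ z ^ M =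
        Hh z ^ M * jac E (chartAt E z₀) z ^ M := by
      rw [← mul_pow, h2, mul_pow]
    calc τ (f z) * (J e f v₀ z ^ M * C.C (fd.P H a₀ (f z)) (v₀ z) / Q3) * (Q1 * Q2 * Q3 * Q4)
        = (τ (f z) * Q1) * J e f v₀ z ^ M * C.C (fd.P H a₀ (f z)) (v₀ z) * Q2 * Q4 := by
          (clear * - hne2; field_simp)
      _ = a' (f z) * Q2 * C.C (fd.P H a₀ (f z)) (v₀ z) * Q4 *
          (jac E' (chartAt E' (f z₀)) (f z) ^ M * J e f v₀ z ^ M) := by
          rw [hτz]; ring
      _ = a' (f z) * Q2 * C.C (fd.P H a₀ (f z)) (v₀ z) * Q4 * Hh z ^ M *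
          jac E (chartAt E z₀) z ^ M := by rw [hJM]; ring

end Cc

section Dd

variable {E E' : Type} [NormedAddCommGroup E] [NormedSpace ℂ E]
  [NormedAddCommGroup E'] [NormedSpace ℂ E']
variable {X Y : Type u} [TopologicalSpace X] [ChartedSpace E X] [IsManifold 𝓘(ℂ, E) ω X]
  [TopologicalSpace Y] [ChartedSpace E' Y] [IsManifold 𝓘(ℂ, E') ω Y]
variable {f : X → Y} {r : ℕ} {B : ProjectiveBundle E E' f r} {T : Set (Set X)}

theorem dense_cov [PreconnectedSpace X] [FiniteDimensional ℂ E] [FiniteDimensional ℂ E']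
    (fd : FormData B T) {H : Finset (Set X)} (hH : ∀ D ∈ H, D ∈ T)
    (e : (E × ℂ) ≃L[ℂ] (E' × (Fin (r + 1) → ℂ)))
    {𝒢 : Set (Matrix (Fin (r + 1)) (Fin (r + 1)) ℂ)} (hG : HasTrans B 𝒢)
    (hf : ∀ x, HolM E E' f x)
    {Θ : Coefs (fun i : H => fd.deg i) (r + 1) → (Fin (r + 1) → ℂ) → ℂ}
    (hΘ : ContDiff ℂ ω (fun q : Coefs (fun i : H => fd.deg i) (r + 1) × (Fin (r + 1) → ℂ) =>
      Θ q.1 q.2))
    (hinv : InvNe (fun i : H => fd.deg i) (r + 1) 𝒢 Θ)
    (hne : ∃ x a v, f x ∈ B.U a ∧ IsLift E f (B.π a) v x ∧ Θ (fd.P H a (f x)) (v x) ≠ 0) :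
    Dense {x | ∀ a v, f x ∈ B.U a → IsLift E f (B.π a) v x → Θ (fd.P H a (f x)) (v x) ≠ 0} := by
  have key : ∀ {x : X} {a b : B.ι} {v v' : X → (Fin (r + 1) → ℂ)}, f x ∈ B.U a → f x ∈ B.U b →
      IsLift E f (B.π a) v x → IsLift E f (B.π b) v' x →
      (Θ (fd.P H a (f x)) (v x) ≠ 0 ↔ Θ (fd.P H b (f x)) (v' x) ≠ 0) := by
    intro x a b v v' ha hb hv hv'
    obtain ⟨g, lam, hlam, hg, hgG, hgπ, hvx, hJ⟩ := lift_change B e hG hf ha hb hv hv'
    obtain ⟨c, hc0, hc⟩ := P_change fd hH ha hb hg hgπ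
    rw [hvx]
    exact hinv _ _ c g _ lam hgG hg hc0 hlam hc
  refine dense_of_local (E := E) ?_ ?_
  · obtain ⟨x, a, v, ha, hv, hx⟩ := hne
    exact ⟨x, fun b v' hb hv' => (key ha hb hv hv').1 hx⟩
  · intro x₀
    obtain ⟨a₀, ha₀⟩ := B.cover (f x₀)
    obtain ⟨v₀, hv₀⟩ := (B.triv a₀).lift x₀ ha₀
    refine ⟨fun z => Θ (fd.P H a₀ (f z)) (v₀ z), ?_, ?_⟩
    · have hpair : HolV E (fun z => (fd.P H a₀ (f z), v₀ z)) x₀ :=
        HolV.prodMk (HolV.comp (holV_P fd hH ha₀) (hf x₀)) hv₀.hol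
      exact HolV.comp_contDiff (hΘ.contDiffAt) hpair
    · have hfe : ∀ᶠ z in 𝓝 x₀, f z ∈ B.U a₀ :=
        (hf x₀).continuousAt.eventually ((B.triv a₀).isOpen.mem_nhds ha₀)
      filter_upwards [hfe, hv₀.eventually] with z h1 h2
      constructor
      · intro h; exact h a₀ v₀ h1 h2
      · intro h b v' hb hv'; exact (key h1 hb h2 hv').1 h

end Dd

section Ee

variable {E E' : Type} [NormedAddCommGroup E] [NormedSpace ℂ E]
  [NormedAddCommGroup E'] [NormedSpace ℂ E']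
variable {X Y : Type u} [TopologicalSpace X] [ChartedSpace E X] [IsManifold 𝓘(ℂ, E) ω X]
  [TopologicalSpace Y] [ChartedSpace E' Y] [IsManifold 𝓘(ℂ, E') ω Y]
variable {f : X → Y} {r : ℕ} {B : ProjectiveBundle E E' f r} {T : Set (Set X)}

theorem kodGE_lower [FiniteDimensional ℂ E] [FiniteDimensional ℂ E'] [ConnectedSpace X]
    [Nonempty Y]
    (hr : 0 < r) (e : (E × ℂ) ≃L[ℂ] (E' × (Fin (r + 1) → ℂ)))
    (hfc : ContMDiff 𝓘(ℂ, E) 𝓘(ℂ, E') ω f) (hopen : IsOpenMap f)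
    (hsub : ∀ x, Function.Surjective (dM E E' f x)) (hsurj : Function.Surjective f)
    {Δ : Set X → ℝ} (hfin : {D | Δ D ≠ 0}.Finite) (hprime : ∀ D, Δ D ≠ 0 → IsPrimeDivisor E D)
    (fd : FormData B {D | Δ D ≠ 0}) {H : Finset (Set X)}
    (hHT : ∀ D ∈ H, Δ D ≠ 0) (hHd : ∀ D ∈ H, 0 < fd.deg D)
    {𝒢 : Set (Matrix (Fin (r + 1)) (Fin (r + 1)) ℂ)} (hG : HasTrans B 𝒢)
    {M N r' : ℕ} {K : H → ℕ} (hM : 0 < M)
    (C : Fin (r' + 1) → Covariant (fun i : H => fd.deg i) (r + 1) 𝒢 K M N)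
    (hN : (r + 1) * M + N = ∑ i : H, fd.deg i * K i)
    (hint : ∀ D, ∃ k : ℕ, (k : ℝ) = M * Δ D) (hK : ∀ i : H, (K i : ℝ) = M * Δ i)
    {Θ : Coefs (fun i : H => fd.deg i) (r + 1) → (Fin (r + 1) → ℂ) → ℂ}
    (hΘ : ContDiff ℂ ω (fun q : Coefs (fun i : H => fd.deg i) (r + 1) × (Fin (r + 1) → ℂ) =>
      Θ q.1 q.2))
    (hinv : InvNe (fun i : H => fd.deg i) (r + 1) 𝒢 Θ)
    (hne : ∃ x a v, f x ∈ B.U a ∧ IsLift E f (B.π a) v x ∧ Θ (fd.P H a (f x)) (v x) ≠ 0)
    (hΘC : ∀ p v, Θ p v ≠ 0 → (C 0).C p v ≠ 0 ∧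
      LinearIndependent ℂ (fun c : Fin r' =>
        fderiv ℂ (fun w => (C c.succ).C p w / (C 0).C p w) v))
    {bY : Set Y → ℝ} (hb : ∀ G, bY G ≤ Δ (f ⁻¹' G)) (hbp : ∀ G, bY G ≠ 0 → IsPrimeDivisor E' G)
    {j : ℕ} (hY : KodGE E' (fun (D : Set Y) z g => IsLocalEq E' D g z) bY j) :
    KodGE E (fun (D : Set X) z g => IsLocalEq E D g z) Δ (r' + j) := by
  classical
  have hf : ∀ x, HolM E E' f x := fun x => hfc x
  obtain ⟨m₁, kY, t, y₁, hm₁, hkY, ht, hy₁, ht0, hind⟩ := hY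
  obtain ⟨y₂, hy₂⟩ := good_point ht hy₁ ht0 hind
  have hH' : ∀ D ∈ H, D ∈ {D | Δ D ≠ 0} := hHT
  choose kD hkD using hint
  -- the powers and products
  obtain ⟨q, rfl⟩ : ∃ q, m₁ = q + 1 := ⟨m₁ - 1, by omega⟩
  have hKi : ∀ i : H, K i = kD i := by
    intro i
    have := (hK i).trans (hkD i).symm
    exact_mod_cast this
  let C' : Fin (r' + 1) → Covariant (fun i : H => fd.deg i) (r + 1) 𝒢
      (fun i => (q + 1) * K i) ((q + 1) * M) ((q + 1) * N) := fun c =>
    ((C c).mul ((C 0).pow q)).cast (by funext i; ring) (by ring) (by ring)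
  have hC' : ∀ c p v, (C' c).C p v = (C c).C p v * (C 0).C p v ^ q := fun c p v => rfl
  have hN' : (r + 1) * ((q + 1) * M) + (q + 1) * N =
      ∑ i : H, fd.deg i * ((q + 1) * K i) := by
    have h1 : ∑ i : H, fd.deg i * ((q + 1) * K i) = (q + 1) * ∑ i : H, fd.deg i * K i := by
      rw [Finset.mul_sum]
      exact Finset.sum_congr rfl fun i _ => by ring
    rw [h1, ← hN]; ring
  set KX : Set X → ℕ := fun D => (q + 1) * kD D with hKX
  set τ : Fin (j + 1) → Y → ℂ := fun b y => t b y ^ M with hτ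
  set S : Fin (r' + 1) → Fin (j + 1) → X → ℂ := fun c b =>
    sec fd H (C' c).C (fun i => (q + 1) * K i) ((q + 1) * M) e (τ b) with hS
  -- the vertical components
  have hKY : ∀ G, kY G * M ≤ KX (f ⁻¹' G) := by
    intro G
    have h1 : ((kY G * M : ℕ) : ℝ) ≤ (KX (f ⁻¹' G) : ℕ) := by
      rw [hKX]
      push_cast
      rw [hkY G, hkD]
      have := hb G
      have hMr : (0 : ℝ) < M := by exact_mod_cast hM
      have h3 := mul_le_mul_of_nonneg_left this (show (0 : ℝ) ≤ ((q + 1 : ℕ) : ℝ) * M by (clear * - hM; positivity))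
      push_cast at h3 ⊢
      nlinarith only [h3]
    exact_mod_cast h1
  have hHv : ∀ D ∈ H, ∀ G, kY G * M ≠ 0 → f ⁻¹' G ≠ D := by
    intro D hD G hG' hGD
    have hkG : kY G ≠ 0 := left_ne_zero_of_mul hG'
    have hbG : bY G ≠ 0 := by
      intro h0
      have := hkY G
      rw [h0, mul_zero] at this
      exact hkG (by exact_mod_cast this)
    obtain ⟨y, -, hy⟩ := IsLocalEq.exists_notMem (hbp G hbG).2.1 isOpen_univ
      (univ_nonempty (α := Y))
    obtain ⟨a, ha⟩ := B.cover y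
    obtain ⟨w, hw0, hw⟩ := form_exists_zero (by omega : 2 ≤ r + 1) (hHd D hD)
      (fun J => fd.p a D J y)
    have h1 := (mem_iff_form B fd (hHT D hD) ha hw0).2 hw
    rw [← hGD, mem_preimage, (B.triv a).proj y ha w hw0] at h1
    exact hy h1
  have hsec : ∀ c b, IsSection E (fun (D : Set X) z g => IsLocalEq E D g z) ((q + 1) * M) KX
      (S c b) := by
    intro c b
    refine isSection_sec fd hfin hH' e hG hf hopen hsub hsurj (C' c) hN'
      (kY := fun G => kY G * M) (isSection_pow (ht b) M) ?_ hKY ?_ hHv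
    · intro D hD
      rw [hKX] at hD
      have hkd : kD D ≠ 0 := right_ne_zero_of_mul hD
      intro h0
      have h1 := hkD D
      rw [show Δ D = 0 from h0, mul_zero] at h1
      exact hkd (by exact_mod_cast h1)
    · intro i
      simp only [hKX, hKi i]
  -- choice of the point
  have hV : ∃ V : Set Y, IsOpen V ∧ V.Nonempty ∧ ∀ y ∈ V, t 0 y ≠ 0 ∧
      (∀ b : Fin j, t b.succ y ≠ 0) ∧
      (∀ b : Fin j, HolV E' (fun w => t b.succ w / t 0 w) y) ∧
      LinearIndependent ℂ (fun b : Fin j => dif E' (fun w => t b.succ w / t 0 w) y) := by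
    obtain ⟨V, hV1, hV2, hV3⟩ := eventually_nhds_iff.1 hy₂
    exact ⟨V, hV2, ⟨y₂, hV3⟩, hV1⟩
  obtain ⟨V, hVo, hVne, hV⟩ := hV
  have hcont : Continuous f := hfc.continuous
  have hdc := dense_compl_finite hfin (fun D hD => (hprime D hD).1) (fun D hD => by
    rw [dense_iff_inter_open]
    intro U hU hUne
    obtain ⟨x, hxU, hxD⟩ := IsLocalEq.exists_notMem (hprime D hD).2.1 hU hUne
    exact ⟨x, hxU, hxD⟩)
  have hfV : (f ⁻¹' V).Nonempty := by
    obtain ⟨y, hy⟩ := hVne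
    obtain ⟨x, rfl⟩ := hsurj y
    exact ⟨x, hy⟩
  have h3 : (f ⁻¹' V ∩ {x | ∀ D ∈ {D | Δ D ≠ 0}, x ∉ D}).Nonempty :=
    hdc.2.inter_open_nonempty _ (hVo.preimage hcont) hfV
  obtain ⟨x, ⟨hxV, hxD⟩, hxΘ⟩ := (dense_cov fd hH' e hG hf hΘ hinv hne).inter_open_nonempty _
    ((hVo.preimage hcont).inter hdc.1) h3
  obtain ⟨hx1, hx2, hx3, hx4⟩ := hV _ hxV
  obtain ⟨a, ha⟩ := B.cover (f x)
  obtain ⟨v, hv⟩ := (B.triv a).lift x ha
  obtain ⟨hC0, hCind⟩ := hΘC _ _ (hxΘ a v ha hv)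
  -- nonvanishing of the building blocks near `x`
  have hev : ∀ᶠ z in 𝓝 x, f z ∈ B.U a ∧ IsLift E f (B.π a) v z ∧ t 0 (f z) ≠ 0 ∧
      (C 0).C (fd.P H a (f z)) (v z) ≠ 0 ∧ (∀ D, Δ D ≠ 0 → z ∉ D) := by
    have e1 : ∀ᶠ z in 𝓝 x, f z ∈ B.U a :=
      hcont.continuousAt.eventually ((B.triv a).isOpen.mem_nhds ha)
    have e2 : ∀ᶠ z in 𝓝 x, f z ∈ V := hcont.continuousAt.eventually (hVo.mem_nhds hxV)
    have hpair : HolV E (fun z => (fd.P H a (f z), v z)) x :=
      HolV.prodMk (HolV.comp (holV_P fd hH' ha) (hf x)) hv.hol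
    have e3 : ∀ᶠ z in 𝓝 x, (C 0).C (fd.P H a (f z)) (v z) ≠ 0 := by
      have : HolV E (fun z => (C 0).C (fd.P H a (f z)) (v z)) x :=
        HolV.comp_contDiff ((C 0).hol.contDiffAt) hpair
      exact this.continuousAt.eventually_ne hC0
    filter_upwards [e1, e2, e3, hv.eventually, hdc.1.mem_nhds hxD] with z h1 h2 h3 h4 h5
    exact ⟨h1, h4, (hV _ h2).1, h3, h5⟩
  have hval : ∀ᶠ z in 𝓝 x, ∀ c b, S c b z = t b (f z) ^ M *
      (J e f v z ^ ((q + 1) * M) * ((C c).C (fd.P H a (f z)) (v z) *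
        (C 0).C (fd.P H a (f z)) (v z) ^ q) /
        ∏ i : H, form (fd.P H a (f z) i) (v z) ^ ((q + 1) * K i)) := by
    filter_upwards [hev] with z hz c b
    exact sec_eq fd hH' e hG hf (C' c) hN' (τ b) hz.1 hz.2.1
  have hblock : ∀ᶠ z in 𝓝 x, J e f v z ^ ((q + 1) * M) ≠ 0 ∧
      ∏ i : H, form (fd.P H a (f z) i) (v z) ^ ((q + 1) * K i) ≠ 0 := by
    filter_upwards [hev] with z hz
    refine ⟨pow_ne_zero _ (J_ne_zero e hfc (B.triv a) hz.1 hz.2.1).1, ?_⟩
    refine Finset.prod_ne_zero_iff.2 fun i _ => pow_ne_zero _ ?_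
    intro h0
    have h1 := (mem_iff_form B fd (hHT i i.2) hz.1 hz.2.1.ne_zero).2 h0
    rw [hz.2.1.eq] at h1
    exact hz.2.2.2.2 i (hHT i i.2) h1
  -- the ratios
  have hratC : ∀ c : Fin r', (fun z => S c.succ 0 z / S 0 0 z) =ᶠ[𝓝 x]
      fun z => (C c.succ).C (fd.P H a (f z)) (v z) / (C 0).C (fd.P H a (f z)) (v z) := by
    intro c
    filter_upwards [hev, hval, hblock] with z h1 h2 h3
    rw [h2, h2]
    have i1 := h1.2.2.1
    have i2 := h1.2.2.2.1
    have i3 := h3.1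
    have i4 := h3.2
    have i5 : t 0 (f z) ^ M ≠ 0 := pow_ne_zero _ i1
    field_simp
  have hratT : ∀ b : Fin j, (fun z => S 0 b.succ z / S 0 0 z) =ᶠ[𝓝 x]
      fun z => (t b.succ (f z) / t 0 (f z)) ^ M := by
    intro b
    filter_upwards [hev, hval, hblock] with z h1 h2 h3
    rw [h2, h2]
    have i1 := h1.2.2.1
    have i2 := h1.2.2.2.1
    have i3 := h3.1
    have i4 := h3.2
    have i5 : t 0 (f z) ^ M ≠ 0 := pow_ne_zero _ i1
    rw [div_pow]
    field_simp
  -- the family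
  set sX : Fin (r' + j + 1) → X → ℂ := Fin.cons (S 0 0) (fun p : Fin (r' + j) =>
    Sum.elim (fun c : Fin r' => S c.succ 0) (fun b : Fin j => S 0 b.succ)
      (finSumFinEquiv.symm p)) with hsX
  have hsX0 : sX 0 = S 0 0 := rfl
  have hsXs : ∀ p : Fin (r' + j), sX p.succ = Sum.elim (fun c : Fin r' => S c.succ 0)
      (fun b : Fin j => S 0 b.succ) (finSumFinEquiv.symm p) := fun p => by
    rw [hsX, Fin.cons_succ]
  refine ⟨(q + 1) * M, KX, sX, x, by (clear * - hM; positivity), ?_, ?_, ?_, ?_, ?_⟩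
  · intro D
    rw [hKX]
    push_cast
    rw [hkD D]; ring
  · intro p
    refine Fin.cases ?_ (fun p => ?_) p
    · rw [hsX0]; exact hsec 0 0
    · rw [hsXs]
      rcases finSumFinEquiv.symm p with c | b
      · exact hsec c.succ 0
      · exact hsec 0 b.succ
  · intro D hD
    have hΔ : Δ D ≠ 0 := by
      intro h0
      rw [hKX] at hD
      have hkd : kD D ≠ 0 := right_ne_zero_of_mul hD
      have h1 := hkD D
      rw [h0, mul_zero] at h1
      exact hkd (by exact_mod_cast h1)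
    obtain ⟨g, hg⟩ := (hprime D hΔ).2.1 x
    exact ⟨g, hg, fun h0 => hxD D hΔ (hg.mem_iff.2 h0)⟩
  · rw [hsX0, hval.self_of_nhds]
    have h1 := hblock.self_of_nhds
    refine mul_ne_zero (pow_ne_zero _ hx1) (div_ne_zero (mul_ne_zero h1.1
      (mul_ne_zero hC0 (pow_ne_zero _ hC0))) h1.2)
  · -- linear independence
    have hfun : (fun p : Fin (r' + j) => dif E (fun w => sX p.succ w / sX 0 w) x) =
        (fun s : Fin r' ⊕ Fin j => dif E (fun w => (Sum.elim (fun c : Fin r' => S c.succ 0)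
          (fun b : Fin j => S 0 b.succ) s) w / S 0 0 w) x) ∘ finSumFinEquiv.symm := by
      funext p
      simp only [Function.comp_apply, hsXs, hsX0]
    rw [hfun, linearIndependent_equiv finSumFinEquiv.symm, Fintype.linearIndependent_iff]
    intro γ hγ
    rw [Fintype.sum_sum_type] at hγ
    simp only [Sum.elim_inl, Sum.elim_inr] at hγ
    -- differentials
    have hΦ : ∀ c : Fin r', ContDiffAt ℂ ω
        (fun q : Coefs (fun i : H => fd.deg i) (r + 1) × (Fin (r + 1) → ℂ) =>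
        (fun p w => (C c.succ).C p w / (C 0).C p w) q.1 q.2) (fd.P H a (f x), v x) :=
      fun c => ((C c.succ).hol.contDiffAt).div ((C 0).hol.contDiffAt) hC0
    have hdC : ∀ (c : Fin r') (ξ : E), dM E E' f x ξ = 0 →
        dif E (fun w => S c.succ 0 w / S 0 0 w) x ξ =
        fderiv ℂ (fun w => (C c.succ).C (fd.P H a (f x)) w / (C 0).C (fd.P H a (f x)) w)
          (v x) (dV E v x ξ) := by
      intro c ξ hξ
      have h1 : dif E (fun w => S c.succ 0 w / S 0 0 w) x =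
          dif E (fun z => (fun p w => (C c.succ).C p w / (C 0).C p w)
            (fd.P H a (f z)) (v z)) x := dV_congr (hratC c)
      rw [h1]
      exact dif_fibre fd hH' hf ha hv
        (Φ := fun p w => (C c.succ).C p w / (C 0).C p w) (hΦ c) hξ
    have hdT : ∀ (b : Fin j), dif E (fun w => S 0 b.succ w / S 0 0 w) x =
        ((M : ℂ) * (t b.succ (f x) / t 0 (f x)) ^ (M - 1)) •
        (dif E' (fun w => t b.succ w / t 0 w) (f x)).comp (dM E E' f x) := by
      intro b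
      have h1 : dif E (fun w => S 0 b.succ w / S 0 0 w) x =
          dif E (fun z => (fun w => (t b.succ w / t 0 w) ^ M) (f z)) x := dV_congr (hratT b)
      rw [h1, dif_comp (HolV.pow (hx3 b) M) (hf x)]
      have h2 : dif E' (fun w => (t b.succ w / t 0 w) ^ M) (f x) =
          ((M : ℂ) * (t b.succ (f x) / t 0 (f x)) ^ (M - 1)) •
            dif E' (fun w => t b.succ w / t 0 w) (f x) := by
        have h3 := dV_comp_contDiff (G := fun s : ℂ => s ^ M)
          (v := fun w => t b.succ w / t 0 w) (x := f x) (contDiff_id.pow M).contDiffAt (hx3 b)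
        rw [dif_eq_dV, h3]
        refine ContinuousLinearMap.ext fun η => ?_
        simp only [ContinuousLinearMap.comp_apply, smul_apply]
        have h4 : HasDerivAt (fun s : ℂ => s ^ M)
          ((M : ℂ) * (t b.succ (f x) / t 0 (f x)) ^ (M - 1)) (t b.succ (f x) / t 0 (f x)) :=
          hasDerivAt_pow M _
        rw [h4.hasFDerivAt.fderiv, ContinuousLinearMap.toSpanSingleton_apply, smul_eq_mul,
          smul_eq_mul, mul_comm]
        rfl
      rw [h2]
      rfl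
    -- the fibre part
    have hLs := (J_ne_zero e hfc (B.triv a) ha hv).2.2
    have hγC : ∀ c, γ (Sum.inl c) = 0 := by
      rw [Fintype.linearIndependent_iff] at hCind
      refine hCind (fun c => γ (Sum.inl c)) ?_
      refine ContinuousLinearMap.ext fun w => ?_
      obtain ⟨⟨ξ, s⟩, hξ⟩ := hLs (0, w)
      rw [Lmap_apply] at hξ
      obtain ⟨hξ1, hξ2⟩ := Prod.mk.inj hξ
      have h1 := congrArg (fun A : E →L[ℂ] ℂ => A ξ) hγ
      simp only [add_apply, sum_apply, smul_apply, zero_apply] at h1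
      have h2 : ∀ b : Fin j, dif E (fun w => S 0 b.succ w / S 0 0 w) x ξ = 0 := by
        intro b
        rw [hdT b, smul_apply, ContinuousLinearMap.comp_apply, hξ1, map_zero, smul_zero]
      simp only [h2, smul_zero, Finset.sum_const_zero, add_zero] at h1
      rw [sum_apply, zero_apply, ← hξ2]
      have h3 : ∀ c : Fin r', fderiv ℂ (fun w => (C c.succ).C (fd.P H a (f x)) w /
          (C 0).C (fd.P H a (f x)) w) (v x) (v x) = 0 := by
        intro c
        have hd1 : DifferentiableAt ℂ (fun w => (C c.succ).C (fd.P H a (f x)) w /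
            (C 0).C (fd.P H a (f x)) w) (v x) := by
          have := ((hΦ c).comp (v x) (contDiffAt_const.prodMk contDiffAt_id) :
            ContDiffAt ℂ ω (fun w => (C c.succ).C (fd.P H a (f x)) w /
            (C 0).C (fd.P H a (f x)) w) (v x))
          exact this.differentiableAt (by simp)
        have hd2 : HasDerivAt (fun s : ℂ => (1 + s) • v x) (v x) 0 := by
          have h6 : HasDerivAt (fun s : ℂ => (1 + s) • v x) ((1 : ℂ) • v x) 0 := by
            refine HasDerivAt.smul_const ?_ _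
            simpa using (hasDerivAt_id (0 : ℂ)).const_add 1
          rwa [one_smul] at h6
        have hd3 : HasFDerivAt (fun w => (C c.succ).C (fd.P H a (f x)) w /
            (C 0).C (fd.P H a (f x)) w) (fderiv ℂ (fun w => (C c.succ).C (fd.P H a (f x)) w /
            (C 0).C (fd.P H a (f x)) w) (v x)) ((1 + (0 : ℂ)) • v x) := by
          rw [add_zero, one_smul]
          exact hd1.hasFDerivAt
        have hd4 := hd3.comp_hasDerivAt (0 : ℂ) hd2
        have hd5 : (fun s : ℂ => (C c.succ).C (fd.P H a (f x)) ((1 + s) • v x) /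
            (C 0).C (fd.P H a (f x)) ((1 + s) • v x)) =ᶠ[𝓝 0] fun _ =>
            (C c.succ).C (fd.P H a (f x)) (v x) / (C 0).C (fd.P H a (f x)) (v x) := by
          have hc1 : ContinuousAt (fun s : ℂ => 1 + s) 0 := by fun_prop
          filter_upwards [hc1.eventually_ne (by simp : (1 : ℂ) + 0 ≠ 0)] with s hs
          rw [(C c.succ).homog, (C 0).homog, mul_div_mul_left _ _ (pow_ne_zero _ hs)]
        have hd6 : HasDerivAt (fun s : ℂ => (C c.succ).C (fd.P H a (f x)) ((1 + s) • v x) /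
            (C 0).C (fd.P H a (f x)) ((1 + s) • v x)) 0 0 :=
          (hasDerivAt_const (0 : ℂ) _).congr_of_eventuallyEq hd5
        exact hd4.unique hd6
      have h4 : ∑ c : Fin r', γ (Sum.inl c) • dif E (fun w => S c.succ 0 w / S 0 0 w) x ξ = 0 :=
        h1
      calc ∑ c : Fin r', (γ (Sum.inl c) • fderiv ℂ (fun w => (C c.succ).C (fd.P H a (f x)) w /
            (C 0).C (fd.P H a (f x)) w) (v x)) (dV E v x ξ + s • v x)
          = ∑ c : Fin r', γ (Sum.inl c) • dif E (fun w => S c.succ 0 w / S 0 0 w) x ξ := by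
            refine Finset.sum_congr rfl fun c _ => ?_
            rw [hdC c ξ hξ1, smul_apply, map_add, map_smul, h3 c, smul_zero, add_zero]
        _ = 0 := h4
    have hγT : ∀ b, γ (Sum.inr b) = 0 := by
      have hTind := hx4
      rw [Fintype.linearIndependent_iff] at hTind
      have h1 := hTind (fun b => γ (Sum.inr b) *
        ((M : ℂ) * (t b.succ (f x) / t 0 (f x)) ^ (M - 1))) (by
          refine ContinuousLinearMap.ext fun η => ?_
          obtain ⟨ξ, rfl⟩ := hsub x η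
          have h2 := congrArg (fun A : E →L[ℂ] ℂ => A ξ) hγ
          simp only [hγC, add_apply, sum_apply, smul_apply, zero_smul, Finset.sum_const_zero,
            zero_add, zero_apply] at h2
          rw [sum_apply, zero_apply, ← h2]
          refine Finset.sum_congr rfl fun b _ => ?_
          rw [hdT b, smul_apply, smul_apply, ContinuousLinearMap.comp_apply, smul_smul])
      intro b
      have h2 := h1 b
      have h3 : ((M : ℂ) * (t b.succ (f x) / t 0 (f x)) ^ (M - 1)) ≠ 0 :=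
        mul_ne_zero (by exact_mod_cast hM.ne') (pow_ne_zero _ (div_ne_zero (hx2 b) hx1))
      exact (mul_eq_zero.1 h2).resolve_right h3
    intro s
    rcases s with c | b
    · exact hγC c
    · exact hγT b

end Ee

end Vale.Agent.P281.H76
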