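import Vale.Agent.P281.H76.FibKod
import Vale.Agent.P281.H76.Def

/-! P281 (helper76): Campana's inequality for crepant covers of projective bundles. -/

namespace Vale.Agent.P281.H76

open scoped Manifold ContDiff Topology ENNReal
open Set Filter Metric

set_option linter.all false

universe u

theorem crepant_core {E E' : Type} [NormedAddCommGroup E] [NormedSpace ℂ E]
    [NormedAddCommGroup E'] [NormedSpace ℂ E']
    [FiniteDimensional ℂ E] [FiniteDimensional ℂ E'] (O : OrbFib.{u} E E') {r : ℕ} (hr : 0 < r)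
    (hdim : Module.finrank ℂ E = Module.finrank ℂ E' + r)
    (B : ProjectiveBundle E E' O.f r)
    (fd : FormData B {D | O.Δ D ≠ 0}) {H : Finset (Set O.X)}
    (hH : ∀ D, D ∈ H ↔ O.Δ D ≠ 0 ∧ 0 < fd.deg D)
    {𝒢 : Set (Matrix (Fin (r + 1)) (Fin (r + 1)) ℂ)} (hG : HasTrans B 𝒢)
    (hcov0 : ∑ D ∈ H, (fd.deg D : ℝ) * O.Δ D = r + 1 → HasCov B O.Δ fd H 𝒢 0)
    (hcov1 : (r + 1 : ℝ) < ∑ D ∈ H, (fd.deg D : ℝ) * O.Δ D → HasCov B O.Δ fd H 𝒢 r)
    (y : O.Y) (E₀ : Type) [NormedAddCommGroup E₀] [NormedSpace ℂ E₀] [FiniteDimensional ℂ E₀]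
    (hdim0 : Module.finrank ℂ E₀ + Module.finrank ℂ E' = Module.finrank ℂ E)
    {X' F : Type u} [TopologicalSpace X'] [ChartedSpace E X'] [IsManifold 𝓘(ℂ, E) ω X']
    [ConnectedSpace X']
    [TopologicalSpace F] [ChartedSpace E₀ F] [IsManifold 𝓘(ℂ, E₀) ω F] [ConnectedSpace F]
    [CompactSpace F]
    (q : X' → O.X) (hq : ∀ x, HolM E E q x) (hqs : Function.Surjective q)
    (Δ' : Set X' → ℝ) (hΔ' : IsSNCBoundary E Δ')
    {m₀ : ℕ} {k₀' : Set X' → ℕ} {k₀ : Set O.X → ℕ} (hm₀ : 0 < m₀)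
    (hk₀' : ∀ D, (k₀' D : ℝ) = m₀ * Δ' D) (hk₀ : ∀ D, (k₀ D : ℝ) = m₀ * O.Δ D)
    (hcr : ∀ x', ∃ u : X' → ℂ, LogAt E q m₀ k₀' k₀ x' u ∧ (O.f (q x') = y → u x' ≠ 0))
    (i : F → X') (hi : ∀ p, HolM E₀ E i p) (hrange : range i = (fun x => O.f (q x)) ⁻¹' {y})
    (hsub : ∀ p, Function.Surjective ((dM E E' O.f (q (i p))).comp (dM E E q (i p))))
    (himm : ∀ p, Function.Injective (dM E₀ E i p))
    (hgen : ∃ p, (dM E E q (i p)).det ≠ 0) :
    kod E₀ (fun (D : Set X') (p : F) (g : F → ℂ) =>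
      ∃ e, IsLocalEq E D e (i p) ∧ ∀ᶠ q in 𝓝 p, g q = e (i q)) Δ' +
      kodaira E' (orbBase E E' O.f O.Δ) ≤ kodaira E Δ' := by
  classical
  have hfin : {D | O.Δ D ≠ 0}.Finite := O.snc.finite
  have hsm : Smooth E {D | O.Δ D ≠ 0} := smooth_of_snc O.snc
  have hcl : ∀ D, O.Δ D ≠ 0 → IsClosed D := fun D hD => (O.snc.prime D hD).1
  have hΔ0 : ∀ D, 0 ≤ O.Δ D ∧ O.Δ D ≤ 1 := by
    intro D
    obtain ⟨q, hq, h0, h1⟩ := O.snc.rational D
    rw [hq]
    exact ⟨by exact_mod_cast h0, by exact_mod_cast h1⟩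
  have hopen := isOpenMap_of_bundle B
  have hsub' := submersion_of_bundle O.hol hdim B
  have hsum : ∑ D ∈ hfin.toFinset, (fd.deg D : ℝ) * O.Δ D = ∑ D ∈ H, (fd.deg D : ℝ) * O.Δ D := by
    symm
    refine Finset.sum_subset (fun D hD => ?_) (fun D hD hDH => ?_)
    · rw [Set.Finite.mem_toFinset]; exact ((hH D).1 hD).1
    · rw [Set.Finite.mem_toFinset] at hD
      have : ¬ 0 < fd.deg D := fun h => hDH ((hH D).2 ⟨hD, h⟩)
      have h0 : fd.deg D = 0 := by omega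
      rw [h0]; simp
  have hfinr : Module.finrank ℂ (E × ℂ) = Module.finrank ℂ (E' × (Fin (r + 1) → ℂ)) := by
    simp only [Module.finrank_prod, hdim, Module.finrank_self, Module.finrank_fintype_fun_eq_card,
      Fintype.card_fin]; ring
  let e : (E × ℂ) ≃L[ℂ] (E' × (Fin (r + 1) → ℂ)) := ContinuousLinearEquiv.ofFinrankEq hfinr
  have hE₀ : Module.finrank ℂ E₀ = r := by omega
  have hfin0 : Module.finrank ℂ (E₀ × ℂ) = Module.finrank ℂ (Fin (r + 1) → ℂ) := by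
    simp [hE₀]
  let e₀ : (E₀ × ℂ) ≃L[ℂ] (Fin (r + 1) → ℂ) := ContinuousLinearEquiv.ofFinrankEq hfin0
  obtain ⟨a, ha⟩ := B.cover y
  have hfi : ∀ p, O.f (q (i p)) = y := by
    intro p
    have : i p ∈ (fun x => O.f (q x)) ⁻¹' {y} := by rw [← hrange]; exact mem_range_self p
    exact this
  have hrng : ∀ x, O.f (q x) = y → ∃ p, i p = x := by
    intro x hx
    have : x ∈ range i := by rw [hrange]; exact hx
    exact this
  have hne : ∃ x, (dM E E q x).det ≠ 0 := by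
    obtain ⟨p, hp⟩ := hgen
    exact ⟨i p, hp⟩
  -- pull back
  have hpull : kodaira E O.Δ ≤ kodaira E Δ' := by
    unfold kodaira kod
    refine iSup₂_le fun j hj => ?_
    have h1 := kodGE_pull (Δ' := Δ') (Δ := O.Δ) hq hqs hne hΔ' O.snc hm₀ hk₀' hk₀
      (fun x' => by
        obtain ⟨u, hu, -⟩ := hcr x'
        exact ⟨u, hu⟩) hj
    exact le_iSup₂_of_le j h1 le_rfl
  have hlogF : ∀ p, ∃ u : X' → ℂ, LogAt E q m₀ k₀' k₀ (i p) u ∧ u (i p) ≠ 0 := by
    intro p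
    obtain ⟨u, hu, hu'⟩ := hcr (i p)
    exact ⟨u, hu, hu' (hfi p)⟩
  have hFle := fun (j : ℕ) (hj : KodGE E₀ (eqnF E i) Δ' j)
      (hS : ∑ D ∈ hfin.toFinset, (fd.deg D : ℝ) * O.Δ D ≤ r + 1) =>
    kodF_le' hr e e₀ O.hol hq hqs hi ha hfi hrng hΔ' O.snc fd hm₀ hk₀' hk₀ hlogF hsub himm hgen
      hj hS
  -- the base
  set kF := kod E₀ (eqnF E i) Δ' with hkF
  show kF + kodaira E' (orbBase E E' O.f O.Δ) ≤ kodaira E Δ'
  refine le_trans ?_ hpull
  by_cases hYne : ∃ j, KodGE E' (fun (D : Set O.Y) z g => IsLocalEq E' D g z)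
      (orbBase E E' O.f O.Δ) j
  · -- the largest `j`
    obtain ⟨j₀, hj₀, hj₀max⟩ : ∃ j₀, KodGE E' (fun (D : Set O.Y) z g => IsLocalEq E' D g z)
        (orbBase E E' O.f O.Δ) j₀ ∧ ∀ j, KodGE E' (fun (D : Set O.Y) z g => IsLocalEq E' D g z)
        (orbBase E E' O.f O.Δ) j → j ≤ j₀ := by
      obtain ⟨j, hj⟩ := hYne
      refine ⟨Nat.findGreatest (fun j => KodGE E' (fun (D : Set O.Y) z g => IsLocalEq E' D g z)
        (orbBase E E' O.f O.Δ) j) (Module.finrank ℂ E'), ?_, ?_⟩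
      · exact Nat.findGreatest_spec (P := fun j => KodGE E' (fun (D : Set O.Y) z g =>
          IsLocalEq E' D g z) (orbBase E E' O.f O.Δ) j) (kodGE_le hj) hj
      · intro j' hj'
        exact Nat.le_findGreatest (kodGE_le hj') hj'
    have hYle : kodaira E' (orbBase E E' O.f O.Δ) ≤ ((j₀ : ℕ∞) : WithBot ℕ∞) := by
      unfold kodaira kod
      refine iSup₂_le fun j hj => ?_
      exact_mod_cast hj₀max j hj
    -- the lower bound from covariants
    have hlow : ∀ r', HasCov B O.Δ fd H 𝒢 r' →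
        (((r' + j₀ : ℕ) : ℕ∞) : WithBot ℕ∞) ≤ kodaira E O.Δ := by
      rintro r' ⟨M, N, K, C, Θ, hM, hN, hint, hK, hΘ, hinv, hne, hΘC⟩
      have hYnonempty : Nonempty O.Y := inferInstance
      have := kodGE_lower hr e O.hol hopen hsub' O.surj hfin O.snc.prime hsm fd
        (fun D hD => ((hH D).1 hD).1) (fun D hD => ((hH D).1 hD).2) hG hM C hN hint hK hΘ hinv
        hne hΘC (bY := orbBase E E' O.f O.Δ)
        (fun G => orbBase_le (fun x => O.hol x) hopen hsub' O.surj O.fib (hΔ0 _).1 (hΔ0 _).2)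
        (fun G hG' => by
          by_contra hnp
          apply hG'
          unfold orbBase
          rw [if_neg hnp]) hj₀
      unfold kodaira kod
      exact le_iSup₂_of_le (r' + j₀) this le_rfl
    rcases lt_trichotomy (∑ D ∈ H, (fd.deg D : ℝ) * O.Δ D) (r + 1 : ℝ) with hlt | heq | hgt
    · have hbot : kF = ⊥ := by
        rw [hkF]
        unfold kod
        rw [iSup₂_eq_bot]
        intro j hj
        exfalso
        have := (hFle j hj (by rw [hsum]; exact hlt.le)).2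
        rw [hsum] at this
        exact hlt.ne this
      rw [hbot, WithBot.bot_add]
      exact bot_le
    · have hle : kF ≤ (((0 : ℕ) : ℕ∞) : WithBot ℕ∞) := by
        rw [hkF]
        unfold kod
        refine iSup₂_le fun j hj => ?_
        have := (hFle j hj (by rw [hsum]; exact heq.le)).1
        rw [this]
      calc kF + kodaira E' (orbBase E E' O.f O.Δ) ≤
            (((0 : ℕ) : ℕ∞) : WithBot ℕ∞) + ((j₀ : ℕ∞) : WithBot ℕ∞) :=
            add_le_add hle hYle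
        _ = (((0 + j₀ : ℕ) : ℕ∞) : WithBot ℕ∞) := by push_cast; rfl
        _ ≤ kodaira E O.Δ := hlow 0 (hcov0 heq)
    · have hle : kF ≤ (((r : ℕ) : ℕ∞) : WithBot ℕ∞) := by
        rw [hkF]
        unfold kod
        refine iSup₂_le fun j hj => ?_
        have := kodGE_le hj
        rw [hE₀] at this
        exact_mod_cast this
      calc kF + kodaira E' (orbBase E E' O.f O.Δ) ≤
            (((r : ℕ) : ℕ∞) : WithBot ℕ∞) + ((j₀ : ℕ∞) : WithBot ℕ∞) :=
            add_le_add hle hYle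
        _ = (((r + j₀ : ℕ) : ℕ∞) : WithBot ℕ∞) := by push_cast; rfl
        _ ≤ kodaira E O.Δ := hlow r (hcov1 hgt)
  · have h1 : kodaira E' (orbBase E E' O.f O.Δ) = ⊥ := by
      unfold kodaira kod
      rw [iSup₂_eq_bot]
      intro j hj
      exact absurd ⟨j, hj⟩ hYne
    rw [h1, WithBot.add_bot]
    exact bot_le

open Vale.Agent.P281.JB in
theorem main {E E' E₀ W : Type} [NormedAddCommGroup E] [NormedSpace ℂ E] [FiniteDimensional ℂ E]
    [NormedAddCommGroup E'] [NormedSpace ℂ E'] [FiniteDimensional ℂ E']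
    [NormedAddCommGroup E₀] [NormedSpace ℂ E₀] [FiniteDimensional ℂ E₀]
    [NormedAddCommGroup W] [NormedSpace ℂ W] [FiniteDimensional ℂ W]
    {X Y X' F : Type u} [TopologicalSpace X] [ChartedSpace E X] [IsManifold 𝓘(ℂ, E) ω X]
    [CompactSpace X] [T2Space X] [ConnectedSpace X]
    [TopologicalSpace Y] [ChartedSpace E' Y] [IsManifold 𝓘(ℂ, E') ω Y] [T2Space Y]
    [TopologicalSpace X'] [ChartedSpace E X'] [IsManifold 𝓘(ℂ, E) ω X']
    [CompactSpace X'] [ConnectedSpace X']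
    [TopologicalSpace F] [ChartedSpace E₀ F] [IsManifold 𝓘(ℂ, E₀) ω F] [ConnectedSpace F]
    (hW : 1 < Module.finrank ℂ W)
    (hE : Module.finrank ℂ E + 1 = Module.finrank ℂ E' + Module.finrank ℂ W)
    (f : X → Y) (hf : ContMDiff 𝓘(ℂ, E) 𝓘(ℂ, E') ω f)
    {ι : Type u} (U : ι → Set Y) (π : ι → Y → W → X) (hB : J.IsBundle E E' f U π)
    (Δ : Set X → ℝ) (hsnc : J.IsSNC E Δ)
    (hΔ : ∀ D, Δ D ≠ 0 → ∃ d : ℕ, ∀ a, ∃ p : Y → W → ℂ,
      (∀ y ∈ U a, ContDiff ℂ ω (p y) ∧ ∀ (c : ℂ) w, p y (c • w) = c ^ d * p y w) ∧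
      ∀ x v, f x ∈ U a → J.IsLift E f (π a) v x → J.IsLocalEq E D (fun z => p (f z) (v z)) x)
    (htr : ∃ y, J.IsTransversal E E' f Δ y)
    (q : X' → X) (hq : ContMDiff 𝓘(ℂ, E) 𝓘(ℂ, E) ω q) (hqs : Function.Surjective q)
    (Δ' : Set X' → ℝ) (hsnc' : J.IsSNC E Δ') (y : Y)
    (hlog : IsLogMap E q Δ' Δ ((f ∘ q) ⁻¹' {y}))
    (i : F → X') (hi : ContMDiff 𝓘(ℂ, E₀) 𝓘(ℂ, E) ω i)
    (hi₁ : Topology.IsEmbedding i) (hi₂ : Set.range i = (f ∘ q) ⁻¹' {y})
    (hi₃ : ∀ p, Function.Injective (mfderiv 𝓘(ℂ, E₀) 𝓘(ℂ, E) i p))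
    (hd : Module.finrank ℂ E₀ + 1 = Module.finrank ℂ W)
    (hsub : ∀ p, Function.Surjective (mfderiv 𝓘(ℂ, E) 𝓘(ℂ, E') (f ∘ q) (i p)))
    (hgen : ∃ p, Function.Bijective (mfderiv 𝓘(ℂ, E) 𝓘(ℂ, E) q (i p))) :
    J.kod E₀ (fun (D : Set X') p g => ∃ e, J.IsLocalEq E D e (i p) ∧ ∀ᶠ q in 𝓝 p, g q = e (i q))
        Δ' +
      J.kod E' (fun (G : Set Y) z g => J.IsLocalEq E' G g z) (J.orbBase E E' f Δ) ≤
      J.kod E (fun (D : Set X') z g => J.IsLocalEq E D g z) Δ' := by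
  classical
  obtain ⟨r, hr⟩ := Nat.exists_eq_add_of_lt hW
  have hWr : Module.finrank ℂ W = (r + 1) + 1 := by omega
  have hfinW : Module.finrank ℂ W = Module.finrank ℂ (Fin ((r + 1) + 1) → ℂ) := by
    simp [hWr]
  let φ : W ≃L[ℂ] (Fin ((r + 1) + 1) → ℂ) := ContinuousLinearEquiv.ofFinrankEq hfinW
  let B : ProjectiveBundle E E' f (r + 1) := bundle φ hB
  have hfib : ∀ y, IsConnected (f ⁻¹' {y}) := isConnected_fibre B
  have hsurj : Function.Surjective f := fun y => (hfib y).nonempty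
  have : CompactSpace Y := hsurj.compactSpace hf.continuous
  have : ConnectedSpace Y := hsurj.connectedSpace hf.continuous
  let O : OrbFib.{u} E E' :=
    { X := X, Y := Y, f := f, hol := hf, surj := hsurj, fib := hfib, Δ := Δ, snc := snc hsnc }
  have hdim : Module.finrank ℂ E = Module.finrank ℂ E' + (r + 1) := by (clear * - hE hd hr; omega)
  have hΔ' : ∀ D, O.Δ D ≠ 0 → ∃ d, B.IsRelHypersurface D d := fun D hD =>
    relHyp φ hB hf.continuous (hΔ D hD)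
  obtain ⟨fd⟩ := exists_formData B {D | O.Δ D ≠ 0} hΔ'
  obtain ⟨y₁, hy₁⟩ := htr
  obtain ⟨a, ha⟩ := B.cover y₁
  have hfin : {D | O.Δ D ≠ 0}.Finite := O.snc.finite
  set H : Finset (Set O.X) := hfin.toFinset.filter fun D => 0 < fd.deg D with hH
  have hH' : ∀ D, D ∈ H ↔ O.Δ D ≠ 0 ∧ 0 < fd.deg D := by
    intro D
    rw [hH, Finset.mem_filter, Set.Finite.mem_toFinset]
    rfl
  have htrF : GIT.TrForm (fd.P H a y₁) :=
    trForm_of_transversal O.hol fd (fun D hD => ((hH' D).1 hD).1) (transversal hy₁) ha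
  -- compactness of the fibre
  have hclosed : IsClosed ((f ∘ q) ⁻¹' {y}) :=
    isClosed_singleton.preimage (hf.continuous.comp hq.continuous)
  have hcpt : CompactSpace F := by
    have hce : Topology.IsClosedEmbedding i := ⟨hi₁, by rw [hi₂]; exact hclosed⟩
    exact hce.compactSpace
  obtain ⟨m₀, k₀', k₀, hm₀, hk₀', hk₀, hcr⟩ := hlog
  have hdM : ∀ p, (dM E E' f (q (i p))).comp (dM E E q (i p)) =
      (mfderiv 𝓘(ℂ, E) 𝓘(ℂ, E') (f ∘ q) (i p) : E →L[ℂ] E') := by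
    intro p
    have := mfderiv_comp (i p) ((hf (q (i p))).mdifferentiableAt (by simp))
      ((hq (i p)).mdifferentiableAt (by simp))
    exact this.symm
  have key := crepant_core O (Nat.succ_pos r) hdim B fd hH' (hasTrans_univ B)
    (fun h => hasCov_zero O.hol.continuous O.snc ha htrF h)
    (fun h => hasCov_pos O.hol.continuous O.snc ha htrF (Nat.succ_pos r) h)
    y E₀ (by (clear * - hE hd; omega)) (X' := X') (F := F) q (fun x => hq x) hqs Δ' (snc hsnc')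
    (m₀ := m₀) (k₀' := k₀') (k₀ := k₀) hm₀ hk₀' hk₀
    (fun x' => by
      obtain ⟨T', g', T, g, b, u, h1, h2, h3, h4, h5, h6, h7, h8⟩ := hcr x'
      exact ⟨u, ⟨T', g', T, g, b, h1, h2, h3, h4, h5, h6, h8⟩, h7⟩)
    i (fun p => hi p) hi₂
    (fun p => by rw [hdM]; exact hsub p) hi₃
    (by
      obtain ⟨p, hp⟩ := hgen
      refine ⟨p, ?_⟩
      have := LinearEquiv.isUnit_det' (LinearEquiv.ofBijective
        ((dM E E q (i p) : E →L[ℂ] E) : E →ₗ[ℂ] E) hp)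
      exact this.ne_zero)
  rw [kod_eq, kod_eq, kod_eq]
  exact key

end Vale.Agent.P281.H76
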