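import Vale.Agent.P281.H76.Core2

/-! P281 (helper76): Campana's inequality for `f ∘ q` with the base `B(f ∘ q, Δ')`. -/

namespace Vale.Agent.P281.H76.S

open scoped Manifold ContDiff Topology ENNReal
open Set Filter Metric

set_option linter.all false

universe u

open Vale.Agent.P281.JB in
theorem main' {E E' E₀ W : Type} [NormedAddCommGroup E] [NormedSpace ℂ E] [FiniteDimensional ℂ E]
    [NormedAddCommGroup E'] [NormedSpace ℂ E'] [FiniteDimensional ℂ E']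
    [NormedAddCommGroup E₀] [NormedSpace ℂ E₀] [FiniteDimensional ℂ E₀]
    [NormedAddCommGroup W] [NormedSpace ℂ W] [FiniteDimensional ℂ W]
    {X Y X' F : Type u} [TopologicalSpace X] [ChartedSpace E X] [IsManifold 𝓘(ℂ, E) ω X]
    [CompactSpace X] [T2Space X] [ConnectedSpace X]
    [TopologicalSpace Y] [ChartedSpace E' Y] [IsManifold 𝓘(ℂ, E') ω Y] [T2Space Y]
    [TopologicalSpace X'] [ChartedSpace E X'] [IsManifold 𝓘(ℂ, E) ω X']
    [CompactSpace X'] [ConnectedSpace X']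
    [TopologicalSpace F] [ChartedSpace E₀ F] [IsManifold 𝓘(ℂ, E₀) ω F] [ConnectedSpace F]
    (hW : 1 < Module.finrank ℂ W)
    (hE : Module.finrank ℂ E + 1 = Module.finrank ℂ E' + Module.finrank ℂ W)
    (f : X → Y) (hf : ContMDiff 𝓘(ℂ, E) 𝓘(ℂ, E') ω f)
    {ι : Type u} (U : ι → Set Y) (π : ι → Y → W → X) (hB : J.IsBundle E E' f U π)
    (Δ : Set X → ℝ) (hbd : IsBoundary E Δ)
    (hΔ : ∀ D, Δ D ≠ 0 → ∃ d : ℕ, ∀ a, ∃ p : Y → W → ℂ,
      (∀ y ∈ U a, ContDiff ℂ ω (p y) ∧ ∀ (c : ℂ) w, p y (c • w) = c ^ d * p y w) ∧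
      ∀ x v, f x ∈ U a → J.IsLift E f (π a) v x → J.IsLocalEq E D (fun z => p (f z) (v z)) x)
    (q : X' → X) (hq : ContMDiff 𝓘(ℂ, E) 𝓘(ℂ, E) ω q) (hqs : Function.Surjective q)
    (Δ' : Set X' → ℝ) (hbd' : IsBoundary E Δ') (y : Y)
    (S : Set X') (hS : IsOpen S) (hyS : (f ∘ q) ⁻¹' {y} ⊆ S) (hlog : IsLogMap E q Δ' Δ S)
    (hex : ∀ G, J.IsPrime E' G → ∃ D', J.IsPrime E D' ∧ q '' D' = f ⁻¹' G ∧ (D' ∩ S).Nonempty)
    (htr : J.IsTransversal E E' (f ∘ q) Δ' y)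
    (i : F → X') (hi : ContMDiff 𝓘(ℂ, E₀) 𝓘(ℂ, E) ω i)
    (hi₁ : Topology.IsEmbedding i) (hi₂ : Set.range i = (f ∘ q) ⁻¹' {y})
    (hi₃ : ∀ p, Function.Injective (mfderiv 𝓘(ℂ, E₀) 𝓘(ℂ, E) i p))
    (hd : Module.finrank ℂ E₀ + 1 = Module.finrank ℂ W)
    (hsub : ∀ p, Function.Surjective (mfderiv 𝓘(ℂ, E) 𝓘(ℂ, E') (f ∘ q) (i p)))
    (hgen : ∃ p, Function.Bijective (mfderiv 𝓘(ℂ, E) 𝓘(ℂ, E) q (i p))) :
    J.kod E₀ (fun (D : Set X') p g => ∃ e, J.IsLocalEq E D e (i p) ∧ ∀ᶠ q in 𝓝 p, g q = e (i q))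
        Δ' +
      J.kod E' (fun (G : Set Y) z g => J.IsLocalEq E' G g z) (J.orbBase E E' (f ∘ q) Δ') ≤
      J.kod E (fun (D : Set X') z g => J.IsLocalEq E D g z) Δ' := by
  classical
  obtain ⟨r, hr⟩ := Nat.exists_eq_add_of_lt hW
  have hWr : Module.finrank ℂ W = (r + 1) + 1 := by omega
  have hfinW : Module.finrank ℂ W = Module.finrank ℂ (Fin ((r + 1) + 1) → ℂ) := by
    simp [hWr]
  let φ : W ≃L[ℂ] (Fin ((r + 1) + 1) → ℂ) := ContinuousLinearEquiv.ofFinrankEq hfinW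
  let B : ProjectiveBundle E E' f (r + 1) := bundle φ hB
  have hfib : ∀ y, IsConnected (f ⁻¹' {y}) := isConnected_fibre B
  have hsurj : Function.Surjective f := fun y => (hfib y).nonempty
  have : CompactSpace Y := hsurj.compactSpace hf.continuous
  have : ConnectedSpace Y := hsurj.connectedSpace hf.continuous
  have hbΔ : IsBdry E Δ := bdry hbd
  have hbΔ' : IsBdry E Δ' := bdry hbd'
  have hdim : Module.finrank ℂ E = Module.finrank ℂ E' + (r + 1) := by (clear * - hE hd hr; omega)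
  have hΔ' : ∀ D ∈ {D | Δ D ≠ 0}, ∃ d, B.IsRelHypersurface D d := fun D hD =>
    relHyp φ hB hf.continuous (hΔ D hD)
  obtain ⟨fd⟩ := exists_formData B {D | Δ D ≠ 0} hΔ'
  obtain ⟨a, ha⟩ := B.cover y
  have hfin : {D | Δ D ≠ 0}.Finite := hbΔ.finite
  set H : Finset (Set X) := hfin.toFinset.filter fun D => 0 < fd.deg D with hH
  have hH' : ∀ D, D ∈ H ↔ Δ D ≠ 0 ∧ 0 < fd.deg D := by
    intro D
    rw [hH, Finset.mem_filter, Set.Finite.mem_toFinset]
    rfl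
  -- compactness of the fibre
  have hclosed : IsClosed ((f ∘ q) ⁻¹' {y}) :=
    isClosed_singleton.preimage (hf.continuous.comp hq.continuous)
  have hcpt : CompactSpace F := by
    have hce : Topology.IsClosedEmbedding i := ⟨hi₁, by rw [hi₂]; exact hclosed⟩
    exact hce.compactSpace
  obtain ⟨m₀, k₀', k₀, hm₀, hk₀', hk₀, hcr⟩ := hlog
  have hdM : ∀ p, (dM E E' f (q (i p))).comp (dM E E q (i p)) =
      (mfderiv 𝓘(ℂ, E) 𝓘(ℂ, E') (f ∘ q) (i p) : E →L[ℂ] E') := by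
    intro p
    have := mfderiv_comp (i p) ((hf (q (i p))).mdifferentiableAt (by simp))
      ((hq (i p)).mdifferentiableAt (by simp))
    exact this.symm
  have hcr' : ∀ x', ∃ u : X' → ℂ, LogAt E q m₀ k₀' k₀ x' u ∧ (f (q x') = y → u x' ≠ 0) := by
    intro x'
    obtain ⟨T', g', T, g, b, u, h1, h2, h3, h4, h5, h6, h7, h8⟩ := hcr x'
    exact ⟨u, ⟨T', g', T, g, b, h1, h2, h3, h4, h5, h6, h8⟩, fun h => h7 (hyS h)⟩
  have hlogS : ∀ x ∈ S, ∃ u : X' → ℂ, LogAt E q m₀ k₀' k₀ x u ∧ u x ≠ 0 := by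
    intro x' hx'
    obtain ⟨T', g', T, g, b, u, h1, h2, h3, h4, h5, h6, h7, h8⟩ := hcr x'
    exact ⟨u, ⟨T', g', T, g, b, h1, h2, h3, h4, h5, h6, h8⟩, h7 hx'⟩
  have hsub' : ∀ p, Function.Surjective ((dM E E' f (q (i p))).comp (dM E E q (i p))) :=
    fun p => by rw [hdM]; exact hsub p
  have hfi : ∀ p, f (q (i p)) = y := by
    intro p
    have : i p ∈ (f ∘ q) ⁻¹' {y} := by rw [← hi₂]; exact mem_range_self p
    exact this
  have hrng : ∀ x, f (q x) = y → ∃ p, i p = x := by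
    intro x hx
    have : x ∈ range i := by rw [hi₂]; exact hx
    exact this
  have hdim0 : Module.finrank ℂ E₀ + Module.finrank ℂ E' = Module.finrank ℂ E := by
    (clear * - hE hd; omega)
  have hfinr : Module.finrank ℂ (E × ℂ) = Module.finrank ℂ (E' × (Fin ((r + 1) + 1) → ℂ)) := by
    simp only [Module.finrank_prod, hdim, Module.finrank_self, Module.finrank_fintype_fun_eq_card,
      Fintype.card_fin]; ring
  let e : (E × ℂ) ≃L[ℂ] (E' × (Fin ((r + 1) + 1) → ℂ)) := ContinuousLinearEquiv.ofFinrankEq hfinr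
  have hE₀ : Module.finrank ℂ E₀ = r + 1 := by omega
  have hfin0 : Module.finrank ℂ (E₀ × ℂ) = Module.finrank ℂ (Fin ((r + 1) + 1) → ℂ) := by
    simp [hE₀]
  let e₀ : (E₀ × ℂ) ≃L[ℂ] (Fin ((r + 1) + 1) → ℂ) := ContinuousLinearEquiv.ofFinrankEq hfin0
  have hlc : GIT.L.LcForm (fun i : H => Δ i) (fd.P H a y) :=
    lcForm_of_fibre hf hbΔ hbΔ' fd (fun D hD => ((hH' D).1 hD).1) hm₀ hk₀' hk₀ e e₀
      (fun x => hq x) hqs (fun p => hi p) ha hfi hrng
      (fun p => by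
        obtain ⟨u, hu, -⟩ := hcr' (i p)
        exact ⟨u, hu⟩) hsub' hi₃
      (fun p => trAt_of_transversal (fun x => hf x) (fun x => hq x) (fun p => hi p) hfi hdim0 htr p
        (hsub' p) (hi₃ p))
  have key := crepant_core' hf hsurj hfib hbΔ (Nat.succ_pos r) hdim B fd hH' (hasTrans_univ B)
    (fun h => hasCov_zero_lc hf.continuous hbΔ ha hlc h)
    (fun h => hasCov_pos_lc hf.continuous hbΔ ha hlc (Nat.succ_pos r) h)
    y E₀ hdim0 (X' := X') (F := F) q (fun x => hq x) hqs Δ' hbΔ'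
    (m₀ := m₀) (k₀' := k₀') (k₀ := k₀) hm₀ hk₀' hk₀ hcr'
    i (fun p => hi p) hi₂ hsub' hi₃
    (by
      obtain ⟨p, hp⟩ := hgen
      refine ⟨p, ?_⟩
      have := LinearEquiv.isUnit_det' (LinearEquiv.ofBijective
        ((dM E E q (i p) : E →L[ℂ] E) : E →ₗ[ℂ] E) hp)
      exact this.ne_zero)
    (bY := orbBase E E' (f ∘ q) Δ')
    (fun G => orbBase_comp_le (fun x => hf x) (isOpenMap_of_bundle B)
      (submersion_of_bundle hf hdim B) hsurj hfib (fun x => hq x) hqs hbΔ' hbΔ hm₀ hk₀' hk₀ hS hlogS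
      (hex G))
    (fun G hG' => by
      by_contra hnp
      apply hG'
      unfold orbBase
      rw [if_neg hnp])
  rw [kod_eq, kod_eq, kod_eq]
  exact key

end Vale.Agent.P281.H76.S

namespace Vale.Agent.P281.H76

open scoped Manifold ContDiff Topology

universe u

theorem isLogMap_mono {E : Type} [NormedAddCommGroup E] [NormedSpace ℂ E] {X X' : Type u}
    [TopologicalSpace X] [ChartedSpace E X] [TopologicalSpace X'] [ChartedSpace E X'] {q : X' → X}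
    {Δ' : Set X' → ℝ} {Δ : Set X → ℝ} {S S' : Set X'} (h : IsLogMap E q Δ' Δ S) (hS : S' ⊆ S) :
    IsLogMap E q Δ' Δ S' := by
  obtain ⟨m, k', k, hm, h1, h2, h3⟩ := h
  refine ⟨m, k', k, hm, h1, h2, fun x' => ?_⟩
  obtain ⟨T', g', T, g, b, u, h4, h5, h6, h7, h8, h9, h10, h11⟩ := h3 x'
  exact ⟨T', g', T, g, b, u, h4, h5, h6, h7, h8, h9, fun h => h10 (hS h), h11⟩

end Vale.Agent.P281.H76
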