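import Vale.Agent.P281.H76.Sing

/-! P281 (helper76): orders along prime divisors, identity theorem on the smooth locus. -/

namespace Vale.Agent.P281.H76.S

open scoped Manifold ContDiff Topology ENNReal
open Set Filter Metric

set_option linter.all false

universe u

variable {E : Type} [NormedAddCommGroup E] [NormedSpace ℂ E] [FiniteDimensional ℂ E]
variable {X : Type u} [TopologicalSpace X] [ChartedSpace E X] [IsManifold 𝓘(ℂ, E) ω X]

/-- division by a reduced local equation. -/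
theorem divides' {D : Set X} {g g' : X → ℂ} {x : X} (h : IsLocalEq E D g x)
    (h' : HolV E g' x) (h0' : ∀ᶠ z in 𝓝 x, z ∈ D → g' z = 0) :
    ∃ F : X → ℂ, HolV E F x ∧ ∀ᶠ z in 𝓝 x, g' z = F z * g z := by
  set φ := chartAt E x with hφ
  have hx : x ∈ φ.source := mem_chart_source E x
  have hcs : Tendsto φ.symm (𝓝 (φ x)) (𝓝 x) := by
    have := (φ.continuousAt_symm (φ.map_source hx)).tendsto
    rwa [φ.left_inv hx] at this
  have hc : Tendsto φ (𝓝 x) (𝓝 (φ x)) := (φ.continuousAt hx).tendsto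
  have htg : ∀ᶠ w in 𝓝 (φ x), w ∈ φ.target := φ.open_target.mem_nhds (φ.map_source hx)
  have hzero : ∀ᶠ z in 𝓝 x, g z = 0 → g' z = 0 := by
    filter_upwards [h.eventually, h0'] with z h1 h2
    rw [← h1.mem_iff]; exact h2
  obtain ⟨F, hF, hFe⟩ := div_flat (g := g ∘ φ.symm) (g' := g' ∘ φ.symm) (x := φ x)
    (by
      filter_upwards [hcs.eventually h.holAt.eventually, htg] with w hw hwt
      have hws : φ.symm w ∈ φ.source := φ.map_target hwt
      have := (hw.rep hws).differentiableAt (by simp)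
      rwa [← hφ, φ.right_inv hwt] at this)
    (by
      filter_upwards [hcs.eventually h'.eventually, htg] with w hw hwt
      have hws : φ.symm w ∈ φ.source := φ.map_target hwt
      have := (hw.rep hws).differentiableAt (by simp)
      rwa [← hφ, φ.right_inv hwt] at this)
    (hcs.eventually hzero)
    (by
      filter_upwards [hcs.eventually (red_freq h), hcs.eventually h.holAt.eventually.eventually_nhds,
        htg] with w hw hwh hwt hw0
      have hws : φ.symm w ∈ φ.source := φ.map_target hwt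
      have h1 := hw hw0
      have hsrc : ∀ᶠ z in 𝓝 (φ.symm w), z ∈ φ.source := φ.open_source.mem_nhds hws
      have h2 := h1.and_eventually (hsrc.and hwh)
      have hTw : Tendsto φ (𝓝 (φ.symm w)) (𝓝 w) := by
        have := (φ.continuousAt hws).tendsto
        rwa [φ.right_inv hwt] at this
      refine hTw.frequently (p := fun w => (g ∘ φ.symm) w = 0 ∧ fderiv ℂ (g ∘ φ.symm) w ≠ 0)
        (h2.mono fun z hz => ?_)
      obtain ⟨⟨hz0, hzd⟩, hzs, hzh⟩ := hz
      refine ⟨by simpa only [Function.comp_apply, φ.left_inv hzs] using hz0, fun h0 => hzd ?_⟩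
      rw [dif_eq_dV, dV_eq_chart (x₀ := x) hzs hzh, ← hφ, h0]
      ext; simp only [ContinuousLinearMap.zero_comp, zero_apply])
    (by
      have : ∃ᶠ z in 𝓝 x, g (φ.symm (φ z)) ≠ 0 := by
        refine ((frequently_ne h).and_eventually (φ.open_source.mem_nhds hx)).mono fun z hz => ?_
        rw [φ.left_inv hz.2]; exact hz.1
      exact hc.frequently (p := fun w => g (φ.symm w) ≠ 0) this)
  refine ⟨fun z => F (φ z), ?_, ?_⟩
  · exact HolV.comp_contDiff hF (HolV.chart hx)
  · filter_upwards [hc.eventually hFe, φ.open_source.mem_nhds hx] with z hz hzs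
    simpa only [Function.comp_apply, φ.left_inv hzs] using hz

/-- a power bounding the divisibility by `g` of a function `h`, not identically zero. -/
theorem order_bound {g h : X → ℂ} {x : X} (hg : HolV E g x) (hgx : g x = 0) (hh : HolV E h x)
    (hne : ∃ᶠ z in 𝓝 x, h z ≠ 0) :
    ∃ N : ℕ, ∀ k (w : X → ℂ), HolV E w x → (∀ᶠ z in 𝓝 x, h z = g z ^ k * w z) → k ≤ N := by
  set φ := chartAt E x with hφ
  have hx : x ∈ φ.source := mem_chart_source E x
  have hcs : Tendsto φ.symm (𝓝 (φ x)) (𝓝 x) := by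
    have := (φ.continuousAt_symm (φ.map_source hx)).tendsto
    rwa [φ.left_inv hx] at this
  have hc : Tendsto φ (𝓝 x) (𝓝 (φ x)) := (φ.continuousAt hx).tendsto
  have han : AnalyticAt ℂ (h ∘ φ.symm) (φ x) := (hh.rep hx).analyticAt
  obtain ⟨ρ, hρ, hball⟩ := Metric.mem_nhds_iff.1 han.eventually_analyticAt
  have hne' : ∃ᶠ w in 𝓝 (φ x), h (φ.symm w) ≠ 0 := by
    have : ∃ᶠ z in 𝓝 x, h (φ.symm (φ z)) ≠ 0 := by
      refine (hne.and_eventually (φ.open_source.mem_nhds hx)).mono fun z hz => ?_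
      rw [φ.left_inv hz.2]; exact hz.1
    exact hc.frequently (p := fun w => h (φ.symm w) ≠ 0) this
  obtain ⟨z₀, hz₀, hz₀b⟩ := (hne'.and_eventually (ball_mem_nhds (φ x) hρ)).exists
  -- the line
  obtain ⟨d, hd⟩ : ∃ d, d = z₀ - φ x := ⟨_, rfl⟩
  set L : ℂ → E := fun t => φ x + t • d with hL
  have hLan : ∀ t, AnalyticAt ℂ L t := by
    intro t
    have : ContDiff ℂ ω L := by rw [hL]; fun_prop
    exact this.contDiffAt.analyticAt
  have hL0 : L 0 = φ x := by rw [hL]; simp
  have hL1 : L 1 = z₀ := by rw [hL]; simp [hd]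
  have hconv : Convex ℝ (L ⁻¹' ball (φ x) ρ) := by
    intro a ha b hb s t hs ht hst
    have h1 : L (s • a + t • b) = s • L a + t • L b := by
      simp only [hL]
      have h2 : (φ x) = s • φ x + t • φ x := by rw [← add_smul, hst, one_smul]
      rw [add_smul, smul_add, smul_add, smul_assoc, smul_assoc]
      nth_rewrite 1 [h2]
      abel
    rw [mem_preimage, h1]
    exact convex_ball (φ x) ρ ha hb hs ht hst
  have hLanN : AnalyticOnNhd ℂ (fun t => h (φ.symm (L t))) (L ⁻¹' ball (φ x) ρ) := by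
    intro t ht
    exact AnalyticAt.comp (g := h ∘ φ.symm) (hball ht) (hLan t)
  have h0mem : (0 : ℂ) ∈ L ⁻¹' ball (φ x) ρ := by
    rw [mem_preimage, hL0]; exact mem_ball_self hρ
  have hnz : ¬ ∀ᶠ t in 𝓝 (0 : ℂ), h (φ.symm (L t)) = 0 := by
    intro hz
    have := hLanN.eqOn_zero_of_preconnected_of_eventuallyEq_zero hconv.isPreconnected h0mem hz
    have h1 := this (show (1 : ℂ) ∈ L ⁻¹' ball (φ x) ρ by rw [mem_preimage, hL1]; exact hz₀b)
    simp only [hL1] at h1
    exact hz₀ h1
  have hfin : analyticOrderAt (fun t => h (φ.symm (L t))) 0 ≠ ⊤ := by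
    rw [Ne, analyticOrderAt_eq_top]
    exact hnz
  obtain ⟨N, hN⟩ := ENat.ne_top_iff_exists.1 hfin
  refine ⟨N, fun k w hw hwe => ?_⟩
  have hLc : Tendsto L (𝓝 0) (𝓝 (φ x)) := by
    have := (hLan 0).continuousAt.tendsto
    rwa [hL0] at this
  have hcomp : ∀ {G : X → ℂ}, HolV E G x → AnalyticAt ℂ (fun t => G (φ.symm (L t))) 0 := by
    intro G hG
    refine AnalyticAt.comp (g := G ∘ φ.symm) ?_ (hLan 0)
    rw [hL0]
    exact (hG.rep hx).analyticAt
  have hgA := hcomp hg
  have hwA := hcomp hw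
  have hev : (fun t => h (φ.symm (L t))) =ᶠ[𝓝 0]
      (fun t => g (φ.symm (L t))) ^ k * (fun t => w (φ.symm (L t))) :=
    (hcs.comp hLc).eventually hwe
  have hord := analyticOrderAt_congr hev
  rw [analyticOrderAt_mul (hgA.pow k) hwA, analyticOrderAt_pow hgA, ← hN] at hord
  have h1 : 1 ≤ analyticOrderAt (fun t => g (φ.symm (L t))) 0 := by
    rw [ENat.one_le_iff_ne_zero, Ne, hgA.analyticOrderAt_eq_zero, not_not]
    simp only [hL0, φ.left_inv hx, hgx]
  have h2 : (k : ℕ∞) ≤ N := by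
    rw [hord]
    calc (k : ℕ∞) = k • (1 : ℕ∞) := by simp
      _ ≤ k • analyticOrderAt (fun t => g (φ.symm (L t))) 0 := nsmul_le_nsmul_right h1 k
      _ ≤ _ := le_self_add
  exact_mod_cast h2

/-- the order of `h` along `D`, near `x`. -/
theorem exists_order {D : Set X} {g h : X → ℂ} {x : X} (hg : IsLocalEq E D g x) (hx : x ∈ D)
    (hh : HolV E h x) (hne : ∃ᶠ z in 𝓝 x, h z ≠ 0) :
    ∃ (k : ℕ) (w : X → ℂ), HolV E w x ∧ (∀ᶠ z in 𝓝 x, h z = g z ^ k * w z) ∧
      ∃ᶠ z in 𝓝 x, z ∈ D ∧ w z ≠ 0 := by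
  obtain ⟨N, hN⟩ := order_bound hg.holAt (hg.mem_iff.1 hx) hh hne
  by_contra hcon
  have hall : ∀ k : ℕ, ∃ w : X → ℂ, HolV E w x ∧ ∀ᶠ z in 𝓝 x, h z = g z ^ k * w z := by
    intro k
    induction k with
    | zero => exact ⟨h, hh, Eventually.of_forall fun z => by simp⟩
    | succ k ih =>
      obtain ⟨w, hw, hwe⟩ := ih
      have hz : ∀ᶠ z in 𝓝 x, z ∈ D → w z = 0 := by
        by_contra h1
        apply hcon
        refine ⟨k, w, hw, hwe, ?_⟩
        rw [Filter.not_eventually] at h1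
        exact h1.mono fun z hz => by
          rw [Classical.not_imp] at hz; exact hz
      obtain ⟨F, hF, hFe⟩ := divides' hg hw hz
      refine ⟨F, hF, ?_⟩
      filter_upwards [hwe, hFe] with z h1 h2
      rw [h1, h2]; ring
  obtain ⟨w, hw, hwe⟩ := hall (N + 1)
  have := hN _ w hw hwe
  omega

end Vale.Agent.P281.H76.S
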