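import Vale.Agent.P281.H76.Ident

/-! P281 (helper76): the orbifold base of a log map, part 1. -/

namespace Vale.Agent.P281.H76.S

open scoped Manifold ContDiff Topology ENNReal Matrix
open Set Filter Metric

set_option linter.all false

universe u

section One

variable {E : Type} [NormedAddCommGroup E] [NormedSpace ℂ E] [FiniteDimensional ℂ E]
variable {X : Type u} [TopologicalSpace X] [ChartedSpace E X] [IsManifold 𝓘(ℂ, E) ω X]

theorem smooth_near {D : Set X} (hD : ∀ x, ∃ g, IsLocalEq E D g x) {x : X} (hx : x ∈ D)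
    {N : Set X} (hN : N ∈ 𝓝 x) : ∃ z ∈ N, z ∈ D ∧ ∃ g, IsLocalEq E D g z ∧ dif E g z ≠ 0 := by
  obtain ⟨g, W, hW, hxW, h1, h2, h3⟩ := hD x
  have hcl := h3 ⟨hx, hxW⟩
  rw [mem_closure_iff_nhds] at hcl
  obtain ⟨w, ⟨hwN, hwW⟩, hwD, hwd⟩ := hcl (N ∩ W) (inter_mem hN (hW.mem_nhds hxW))
  exact ⟨w, hwN, hwD, g, ⟨W, hW, hwW, h1, h2, h3⟩, hwd⟩

/-- a prime divisor contained in another one is equal to it. -/
theorem prime_subset {D D₂ : Set X} (hD : IsPrimeDivisor E D) (hD₂ : IsPrimeDivisor E D₂)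
    (h : D ⊆ D₂) : D₂ ⊆ D := by
  obtain ⟨y, hyD, g, hg, hdg⟩ := hD.2.2.1
  obtain ⟨g₂, hg₂⟩ := hD₂.2.1 y
  obtain ⟨k, w, hw, hwe, hfreq⟩ := exists_order hg hyD hg₂.holAt (frequently_ne hg₂)
  obtain ⟨y₁, ⟨hy₁D, hwy₁⟩, h1, h2, h3, h4⟩ := (hfreq.and_eventually
    (hg.eventually.and (hg₂.eventually.and (hw.eventually.and
      (eventually_eventually_nhds.2 hwe))))).exists
  have hsub : ∀ᶠ z in 𝓝 y₁, z ∈ D₂ → z ∈ D := by
    filter_upwards [h1.eventually, h2.eventually, h4, h3.continuousAt.eventually_ne hwy₁] with z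
      hz1 hz2 hz3 hz4 hz
    rw [hz2.mem_iff, hz3] at hz
    rw [hz1.mem_iff]
    rcases mul_eq_zero.1 hz with h5 | h5
    · exact eq_zero_of_pow_eq_zero h5
    · exact absurd h5 hz4
  obtain ⟨N, hN, hNo, hyN⟩ := eventually_nhds_iff.1 hsub
  obtain ⟨z₂, hz₂N, hz₂D, hz₂g⟩ := smooth_near hD₂.2.1 (h hy₁D) (hNo.mem_nhds hyN)
  by_contra hcon
  obtain ⟨z₀, hz₀, hz₀D⟩ := Set.not_subset.1 hcon
  obtain ⟨z, hzN, hzD, hzg⟩ := smooth_near hD₂.2.1 hz₀ (hD.1.isOpen_compl.mem_nhds hz₀D)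
  have := ident (V := ℂ) (D := D₂) hD₂.2.2 (P := fun z => z ∈ D) (by
    intro x _ _
    obtain ⟨e, he⟩ := hD.2.1 x
    refine ⟨e, he.holAt, ?_⟩
    filter_upwards [he.eventually] with z hz _
    exact hz.mem_iff) ⟨z, hzD, hzg, hzN⟩ hz₂D hz₂g
  obtain ⟨w', ⟨hw'1, hw'2⟩, hw'3⟩ := (this.and_eventually (hNo.mem_nhds hz₂N)).exists
  exact hw'2 (hN w' hw'3 hw'1)

theorem dif_ne_of_ne {D : Set X} {g g' : X → ℂ} {x : X} (hg : IsLocalEq E D g x)
    (hg' : IsLocalEq E D g' x) (hx : x ∈ D) (hd : dif E g x ≠ 0) : dif E g' x ≠ 0 := by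
  obtain ⟨v, hv, hv0, hve⟩ := unit_ratio_red hg hg'
  intro h0
  apply hd
  have h1 : dif E g x = dV E (fun z => v z • g' z) x := dV_congr (by
    filter_upwards [hve] with z hz
    rw [hz, smul_eq_mul])
  rw [h1, dV_smul hv hg'.holAt, hg'.mem_iff.1 hx]
  have h2 : dV E g' x = 0 := h0
  rw [h2]
  ext; simp

theorem dif_zero_iff {g : X → ℂ} {x₀ x : X} (hx : x ∈ (chartAt E x₀).source) (hg : HolV E g x) :
    dif E g x = 0 ↔ fderiv ℂ (g ∘ (chartAt E x₀).symm) (chartAt E x₀ x) = 0 := by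
  rw [dif_eq_dV, dV_eq_chart hx hg]
  constructor
  · intro h0
    have hdet : (dV E (chartAt E x₀ : X → E) x).det ≠ 0 := jac_chart_ne_zero hx
    have hsurj : Function.Surjective (dV E (chartAt E x₀ : X → E) x) := by
      intro w
      refine ⟨(LinearMap.equivOfDetNeZero
        ((dV E (chartAt E x₀ : X → E) x : E →L[ℂ] E) : E →ₗ[ℂ] E) hdet).symm w, ?_⟩
      exact (LinearMap.equivOfDetNeZero
        ((dV E (chartAt E x₀ : X → E) x : E →L[ℂ] E) : E →ₗ[ℂ] E) hdet).apply_symm_apply w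
    refine ContinuousLinearMap.ext fun w => ?_
    obtain ⟨ξ, rfl⟩ := hsurj w
    exact congrArg (fun A : E →L[ℂ] ℂ => A ξ) h0
  · intro h0
    rw [h0]
    ext; simp

/-- determinant of a map whose composition with a covector is small. -/
theorem det_small {P : Type*} [TopologicalSpace P] {p : P} {A : P → E →L[ℂ] E}
    {lam β : P → E →L[ℂ] ℂ} {c : P → ℂ} (hA : ContinuousAt A p) (hlam : ContinuousAt lam p)
    (hβ : ContinuousAt β p) (h0 : lam p ≠ 0)
    (h : ∀ᶠ y in 𝓝 p, (lam y).comp (A y) = c y • β y) :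
    ∃ ν : P → ℂ, ContinuousAt ν p ∧ ∀ᶠ y in 𝓝 p, (A y).det = c y * ν y := by
  classical
  let b := Module.finBasis ℂ E
  obtain ⟨i, hi⟩ : ∃ i, lam p (b i) ≠ 0 := by
    by_contra hcon
    push Not at hcon
    apply h0
    have : ((lam p : E →L[ℂ] ℂ) : E →ₗ[ℂ] ℂ) = 0 := b.ext hcon
    exact ContinuousLinearMap.ext fun v => congrArg (fun L : E →ₗ[ℂ] ℂ => L v) this
  set M : P → Matrix (Fin (Module.finrank ℂ E)) (Fin (Module.finrank ℂ E)) ℂ := fun y =>
    LinearMap.toMatrix b b (A y : E →ₗ[ℂ] E) with hM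
  have hMc : ContinuousAt M p := by
    refine continuousAt_pi.2 fun i => continuousAt_pi.2 fun j => ?_
    have h1 : (fun y => M y i j) = fun y => (b.coord i).toContinuousLinearMap (A y (b j)) := by
      funext y
      simp [hM, LinearMap.toMatrix_apply]
    rw [h1]
    exact (ContinuousLinearMap.continuous _).continuousAt.comp (hA.clm_apply continuousAt_const)
  have hadj : ContinuousAt (fun y => (M y).adjugate) p := by
    have h1 : Continuous (fun N : Matrix (Fin (Module.finrank ℂ E)) (Fin (Module.finrank ℂ E)) ℂ =>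
      N.adjugate) := continuous_id.matrix_adjugate
    exact h1.continuousAt.comp hMc
  have hlamc : ∀ j, ContinuousAt (fun y => lam y (b j)) p := fun j =>
    hlam.clm_apply continuousAt_const
  have hβc : ∀ j, ContinuousAt (fun y => β y (b j)) p := fun j =>
    hβ.clm_apply continuousAt_const
  refine ⟨fun y => (∑ j, β y (b j) * (M y).adjugate j i) / lam y (b i), ?_, ?_⟩
  · refine ContinuousAt.div ?_ (hlamc i) hi
    refine tendsto_finset_sum _ fun j _ => ?_
    exact (hβc j).mul ((continuousAt_pi.1 (continuousAt_pi.1 hadj j)) i)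
  · filter_upwards [h, (hlamc i).eventually_ne hi] with y hy hyi
    have h1 : (fun i => lam y (b i)) ᵥ* (M y) = c y • fun j => β y (b j) := by
      funext j
      have h2 := congrArg (fun L : E →L[ℂ] ℂ => L (b j)) hy
      simp only [ContinuousLinearMap.comp_apply, smul_apply, smul_eq_mul] at h2
      rw [Pi.smul_apply, smul_eq_mul, ← h2]
      have h3 : A y (b j) = ∑ i, M y i j • b i := by
        have := b.sum_repr (A y (b j))
        rw [← this]
        refine Finset.sum_congr rfl fun i _ => ?_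
        simp [hM, LinearMap.toMatrix_apply]
      rw [h3, map_sum, Matrix.vecMul, dotProduct]
      refine Finset.sum_congr rfl fun i _ => ?_
      rw [map_smul, smul_eq_mul, mul_comm]
    have h4 : ((fun i => lam y (b i)) ᵥ* (M y)) ᵥ* (M y).adjugate =
        (M y).det • fun i => lam y (b i) := by
      rw [Matrix.vecMul_vecMul, Matrix.mul_adjugate, Matrix.vecMul_smul, Matrix.vecMul_one]
    have h5 := congrFun h4 i
    rw [h1, Matrix.smul_vecMul, Pi.smul_apply, Pi.smul_apply, smul_eq_mul, smul_eq_mul] at h5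
    have h6 : (A y).det = (M y).det := by
      rw [ContinuousLinearMap.det, hM, LinearMap.det_toMatrix]
    rw [h6, ← mul_div_assoc, eq_div_iff hyi, ← h5]
    rfl

end One

end Vale.Agent.P281.H76.S
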