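import Vale.Agent.P281.H76.Ord2

/-! P281 (helper76): the orbifold base of a log map, part 2. -/

namespace Vale.Agent.P281.H76.S

open scoped Manifold ContDiff Topology ENNReal
open Set Filter Metric

set_option linter.all false

universe u

section One

variable {E : Type} [NormedAddCommGroup E] [NormedSpace ℂ E] [FiniteDimensional ℂ E]
variable {X : Type u} [TopologicalSpace X] [ChartedSpace E X] [IsManifold 𝓘(ℂ, E) ω X]

theorem prod_split {k : Set X → ℕ} {x : X} {T : Finset (Set X)} {gT : Set X → X → ℂ}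
    (hT : ∀ D, k D ≠ 0 → D ∈ T) (hgT : ∀ D ∈ T, IsLocalEq E D (gT D) x) {D₀ : Set X} {g : X → ℂ}
    (hg : IsLocalEq E D₀ g x) :
    ∃ B : X → ℂ, HolV E B x ∧ ((∀ D, k D ≠ 0 → D ≠ D₀ → x ∉ D) → B x ≠ 0) ∧
      ∀ᶠ z in 𝓝 x, ∏ D ∈ T, gT D z ^ k D = g z ^ k D₀ * B z := by
  classical
  by_cases hk : k D₀ = 0
  · refine ⟨fun z => ∏ D ∈ T, gT D z ^ k D, HolV.prod fun D hD => (hgT D hD).holAt.pow _,
      fun h => ?_, Eventually.of_forall fun z => by rw [hk]; simp⟩
    refine Finset.prod_ne_zero_iff.2 fun D hD => ?_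
    by_cases hkD : k D = 0
    · simp [hkD]
    · refine pow_ne_zero _ fun h0 => h D hkD ?_ ((hgT D hD).mem_iff.2 h0)
      rintro rfl
      exact hkD hk
  · obtain ⟨v, hv, hv0, hve⟩ := unit_ratio_red (hgT D₀ (hT D₀ hk)) hg
    refine ⟨fun z => v z ^ k D₀ * ∏ D ∈ T.erase D₀, gT D z ^ k D,
      (hv.pow _).mul (HolV.prod fun D hD => (hgT D (Finset.mem_of_mem_erase hD)).holAt.pow _),
      fun h => ?_, ?_⟩
    · refine mul_ne_zero (pow_ne_zero _ hv0) (Finset.prod_ne_zero_iff.2 fun D hD => ?_)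
      by_cases hkD : k D = 0
      · simp [hkD]
      · exact pow_ne_zero _ fun h0 => h D hkD (Finset.ne_of_mem_erase hD)
          ((hgT D (Finset.mem_of_mem_erase hD)).mem_iff.2 h0)
    · filter_upwards [hve] with z hz
      rw [← Finset.mul_prod_erase T _ (hT D₀ hk), hz, mul_pow]
      ring

variable {X' : Type u} [TopologicalSpace X'] [ChartedSpace E X'] [IsManifold 𝓘(ℂ, E) ω X']

/-- comparison of the coefficients along `D'` and `D`. -/
theorem exponents {q : X' → X} {x : X'} (hq : HolM E E q x) {m : ℕ} {k' : Set X' → ℕ}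
    {k : Set X → ℕ} {u : X' → ℂ} (hlog : LogAt E q m k' k x u) (hu : u x ≠ 0) {D' : Set X'}
    {e : X' → ℂ} (he : IsLocalEq E D' e x) (hx : x ∈ D') {D : Set X} {g : X → ℂ}
    (hg : IsLocalEq E D g (q x)) (hdg : dif E g (q x) ≠ 0)
    (hD : ∀ D₂, k D₂ ≠ 0 → D₂ ≠ D → q x ∉ D₂) {n : ℕ} {w : X' → ℂ} (hw : HolV E w x)
    (hw0 : w x ≠ 0) (hfac : ∀ᶠ z in 𝓝 x, g (q z) = e z ^ (n + 1) * w z) :
    m * n + k' D' ≤ (n + 1) * k D := by
  obtain ⟨T', g', T, gT, b, hT', hg', hT, hgT, hb, huh, hmain⟩ := hlog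
  obtain ⟨B, hB, -, hBe⟩ := prod_split hT' hg' he
  obtain ⟨B₂, hB₂, hB₂0, hB₂e⟩ := prod_split hT hgT hg
  replace hB₂0 := hB₂0 hD
  set φ := chartAt E x with hφ
  set ψ := chartAt E (q x) with hψ
  have hxs : x ∈ φ.source := mem_chart_source E x
  have hqxs : q x ∈ ψ.source := mem_chart_source E (q x)
  have hψq : HolV E (fun z => ψ (q z)) x := HolV.comp (h := (ψ : X → E)) (HolV.chart hqxs) hq
  have hφc : ContinuousAt φ x := φ.continuousAt hxs
  have hψqc : ContinuousAt (fun z => ψ (q z)) x := hψq.continuousAt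
  set A : X' → E →L[ℂ] E := fun z => fderiv ℂ ((fun z => ψ (q z)) ∘ φ.symm) (φ z) with hA
  set lam : X' → E →L[ℂ] ℂ := fun z => fderiv ℂ (g ∘ ψ.symm) (ψ (q z)) with hlam
  set β : X' → E →L[ℂ] ℂ := fun z => (((n + 1 : ℕ) : ℂ) * w z) • fderiv ℂ (e ∘ φ.symm) (φ z) +
    e z • fderiv ℂ (w ∘ φ.symm) (φ z) with hβ
  have hAc : ContinuousAt A x := by
    have h1 := ((hψq.rep hxs).fderiv_right (m := ω) (by simp)).continuousAt
    exact ContinuousAt.comp (g := fderiv ℂ ((fun z => ψ (q z)) ∘ φ.symm)) h1 hφc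
  have hlamc : ContinuousAt lam x := by
    have h1 := ((hg.holAt.rep hqxs).fderiv_right (m := ω) (by simp)).continuousAt
    exact ContinuousAt.comp (g := fderiv ℂ (g ∘ ψ.symm)) h1 hψqc
  have hec : ContinuousAt (fun z => fderiv ℂ (e ∘ φ.symm) (φ z)) x := by
    have h1 := ((he.holAt.rep hxs).fderiv_right (m := ω) (by simp)).continuousAt
    exact ContinuousAt.comp (g := fderiv ℂ (e ∘ φ.symm)) h1 hφc
  have hwc : ContinuousAt (fun z => fderiv ℂ (w ∘ φ.symm) (φ z)) x := by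
    have h1 := ((hw.rep hxs).fderiv_right (m := ω) (by simp)).continuousAt
    exact ContinuousAt.comp (g := fderiv ℂ (w ∘ φ.symm)) h1 hφc
  have hβc : ContinuousAt β x :=
    ((continuousAt_const.mul hw.continuousAt).smul hec).add (he.holAt.continuousAt.smul hwc)
  have hlam0 : lam x ≠ 0 := fun h0 => hdg ((dif_zero_iff hqxs hg.holAt).2 h0)
  have hrel : ∀ᶠ z in 𝓝 x, (lam z).comp (A z) = (e z ^ n) • β z := by
    filter_upwards [eventually_eventually_nhds.2 hfac, he.eventually, hw.eventually, hψq.eventually,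
      φ.open_source.mem_nhds hxs, hq.continuousAt.eventually (ψ.open_source.mem_nhds hqxs),
      hq.continuousAt.eventually hg.eventually, hq.eventually] with z h1 h2 h3 h4 h5 h6 h7 h8
    have hsz : Tendsto φ.symm (𝓝 (φ z)) (𝓝 z) := by
      have := (φ.continuousAt_symm (φ.map_source h5)).tendsto
      rwa [φ.left_inv h5] at this
    have hD1 : HasFDerivAt ((fun z => ψ (q z)) ∘ φ.symm) (A z) (φ z) :=
      ((h4.rep h5).differentiableAt (by simp)).hasFDerivAt
    have hval : ((fun z => ψ (q z)) ∘ φ.symm) (φ z) = ψ (q z) := by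
      simp only [Function.comp_apply, φ.left_inv h5]
    have hD2 : HasFDerivAt (g ∘ ψ.symm) (lam z) (((fun z => ψ (q z)) ∘ φ.symm) (φ z)) := by
      rw [hval]
      exact ((h7.holAt.rep h6).differentiableAt (by simp)).hasFDerivAt
    have hD3 := hD2.comp (φ z) hD1
    have hE1 : HasFDerivAt (e ∘ φ.symm) (fderiv ℂ (e ∘ φ.symm) (φ z)) (φ z) :=
      ((h2.holAt.rep h5).differentiableAt (by simp)).hasFDerivAt
    have hE2 : HasFDerivAt (w ∘ φ.symm) (fderiv ℂ (w ∘ φ.symm) (φ z)) (φ z) :=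
      ((h3.rep h5).differentiableAt (by simp)).hasFDerivAt
    have hE3 := (hE1.pow (n + 1)).mul hE2
    have heq : (g ∘ ψ.symm) ∘ ((fun z => ψ (q z)) ∘ φ.symm) =ᶠ[𝓝 (φ z)]
        fun y => (e ∘ φ.symm) y ^ (n + 1) * (w ∘ φ.symm) y := by
      have h9 : ∀ᶠ y in 𝓝 z, q y ∈ ψ.source :=
        h8.continuousAt.eventually (ψ.open_source.mem_nhds h6)
      filter_upwards [hsz.eventually h1, hsz.eventually h9] with y hy1 hy2
      simp only [Function.comp_apply, ψ.left_inv hy2]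
      exact hy1
    have h10 := hD3.unique (hE3.congr_of_eventuallyEq heq)
    rw [h10]
    ext ξ
    simp only [hβ, Function.comp_apply, φ.left_inv h5, add_apply,
      smul_apply, smul_eq_mul, nsmul_eq_mul, Nat.add_sub_cancel, Nat.cast_add, Nat.cast_one]
    ring
  obtain ⟨ν, hν, hνe⟩ := det_small hAc hlamc hβc hlam0 hrel
  have hbe : ∀ᶠ z in 𝓝 x, b z = e z ^ n * ν z := by
    filter_upwards [hνe, hmain, hψq.eventually, φ.open_source.mem_nhds hxs] with z h1 h2 h3 h4
    have h5 : jac E (fun w => ψ (q w)) z = (A z).det * jac E (φ : X' → E) z := by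
      have h6 : jac E (fun w => ψ (q w)) z = (dV E (fun w => ψ (q w)) z).det := rfl
      rw [h6, dV_eq_chart (x₀ := x) h4 h3, clm_det_comp]
      rfl
    have h7 := h2.1
    rw [h5, h1] at h7
    exact (mul_right_cancel₀ (jac_chart_ne_zero h4) h7).symm
  -- the equation
  have hfin : ∀ᶠ z in 𝓝 x, e z ^ (m * n + k' D') * (ν z ^ m * B z) =
      e z ^ ((n + 1) * k D) * (u z * w z ^ k D * B₂ (q z)) := by
    filter_upwards [hbe, hmain, hBe, hq.continuousAt.eventually hB₂e, hfac] with z h1 h2 h3 h4 h5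
    have h6 := h2.2
    rw [h1, h3, h4, h5, mul_pow, mul_pow, ← pow_mul, ← pow_mul] at h6
    rw [pow_add, mul_comm m n]
    linear_combination h6
  by_contra hcon
  push Not at hcon
  obtain ⟨d, hd⟩ := Nat.exists_eq_add_of_lt hcon
  have hΨc : ContinuousAt (fun z => e z ^ (d + 1) * (ν z ^ m * B z) -
      u z * w z ^ k D * B₂ (q z)) x := by
    refine ContinuousAt.sub ((he.holAt.continuousAt.pow _).mul ((hν.pow _).mul hB.continuousAt))
      ((huh.continuousAt.mul (hw.continuousAt.pow _)).mul ?_)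
    exact ContinuousAt.comp (g := B₂) hB₂.continuousAt hq.continuousAt
  have hne : ∀ᶠ z in 𝓝 x, e z ^ (d + 1) * (ν z ^ m * B z) -
      u z * w z ^ k D * B₂ (q z) ≠ 0 := hΨc.eventually_ne (by
    have h0 := he.mem_iff.1 hx
    simp only [h0, zero_pow (Nat.succ_ne_zero d), zero_mul, zero_sub]
    exact neg_ne_zero.2 (mul_ne_zero (mul_ne_zero hu (pow_ne_zero _ hw0)) hB₂0))
  obtain ⟨z, hz1, hz2, hz3⟩ := ((frequently_ne he).and_eventually (hfin.and hne)).exists
  apply hz3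
  rw [hd] at hz2
  have h7 : e z ^ ((n + 1) * k D) * (e z ^ (d + 1) * (ν z ^ m * B z) -
      u z * w z ^ k D * B₂ (q z)) = 0 := by
    rw [show (n + 1) * k D + d + 1 = (n + 1) * k D + (d + 1) by ring, pow_add] at hz2
    linear_combination hz2
  rcases mul_eq_zero.1 h7 with h8 | h8
  · exact absurd h8 (pow_ne_zero _ hz1)
  · exact h8

end One

end Vale.Agent.P281.H76.S
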