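import Vale.Agent.P281.H76.Ord3

/-! P281 (helper76): the orbifold base of a log map, part 3. -/

namespace Vale.Agent.P281.H76.S

open scoped Manifold ContDiff Topology ENNReal
open Set Filter Metric

set_option linter.all false

universe u

section One

variable {E : Type} [NormedAddCommGroup E] [NormedSpace ℂ E] [FiniteDimensional ℂ E]
variable {X X' : Type u} [TopologicalSpace X] [ChartedSpace E X] [IsManifold 𝓘(ℂ, E) ω X]
  [TopologicalSpace X'] [ChartedSpace E X'] [IsManifold 𝓘(ℂ, E) ω X']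

theorem smooth_ev {D : Set X} {e : X → ℂ} {x : X} (he : IsLocalEq E D e x) (hd : dif E e x ≠ 0) :
    ∀ᶠ z in 𝓝 x, dif E e z ≠ 0 := by
  have hx : x ∈ (chartAt E x).source := mem_chart_source E x
  have h1 : ContinuousAt (fun z => fderiv ℂ (e ∘ (chartAt E x).symm) (chartAt E x z)) x := by
    have : ContinuousAt (fderiv ℂ (e ∘ (chartAt E x).symm)) (chartAt E x x) :=
      ((he.holAt.rep hx).fderiv_right (m := ω) (by simp)).continuousAt
    exact ContinuousAt.comp this ((chartAt E x).continuousAt hx)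
  have h2 : fderiv ℂ (e ∘ (chartAt E x).symm) (chartAt E x x) ≠ 0 := fun h0 =>
    hd ((dif_zero_iff hx he.holAt).2 h0)
  filter_upwards [h1.eventually_ne h2, he.eventually,
    (chartAt E x).open_source.mem_nhds hx] with z hz1 hz2 hz3
  exact fun h0 => hz1 ((dif_zero_iff hz3 hz2.holAt).1 h0)

/-- a general point of `D'`. -/
theorem exists_general {q : X' → X} (hq : ∀ x, HolM E E q x) {D' : Set X'} {D : Set X}
    (hD' : IsPrimeDivisor E D') (hD : IsPrimeDivisor E D) (him : q '' D' = D) {S : Set X'}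
    (hS : IsOpen S) (hDS : (D' ∩ S).Nonempty) {T : Set (Set X)} (hT : T.Finite)
    (hTp : ∀ D₂ ∈ T, IsPrimeDivisor E D₂) :
    ∃ x ∈ D', x ∈ S ∧ (∃ e, IsLocalEq E D' e x ∧ dif E e x ≠ 0) ∧
      (∃ g, IsLocalEq E D g (q x) ∧ dif E g (q x) ≠ 0) ∧ ∀ D₂ ∈ T, D₂ ≠ D → q x ∉ D₂ := by
  have hqc : Continuous q := continuous_iff_continuousAt.2 fun x => (hq x).continuousAt
  have hqD : ∀ z ∈ D', q z ∈ D := fun z hz => by rw [← him]; exact mem_image_of_mem q hz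
  obtain ⟨x₀, hx₀D, hx₀S⟩ := hDS
  obtain ⟨x₁, hx₁S, hx₁D, hx₁g⟩ := smooth_near hD'.2.1 hx₀D (hS.mem_nhds hx₀S)
  -- smooth points of `D`
  have hsm := ident (V := E →L[ℂ] ℂ) (D := D') hD'.2.2
    (P := fun z => ¬ ∃ g, IsLocalEq E D g (q z) ∧ dif E g (q z) ≠ 0) (by
      intro x hx _
      obtain ⟨g, hg⟩ := hD.2.1 (q x)
      have hqs : q x ∈ (chartAt E (q x)).source := mem_chart_source E (q x)
      refine ⟨fun z => fderiv ℂ (g ∘ (chartAt E (q x)).symm) (chartAt E (q x) (q z)), ?_, ?_⟩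
      · have h1 := (hg.holAt.rep hqs).fderiv_right (m := ω) (by simp)
        have h2 : HolV E (fun z => chartAt E (q x) (q z)) x :=
          HolV.comp (h := (chartAt E (q x) : X → E)) (HolV.chart hqs) (hq x)
        exact HolV.comp_contDiff (G := fderiv ℂ (g ∘ (chartAt E (q x)).symm)) h1 h2
      · filter_upwards [(hq x).continuousAt.eventually hg.eventually,
          (hq x).continuousAt.eventually ((chartAt E (q x)).open_source.mem_nhds hqs)] with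
          z hz1 hz2 hzD
        rw [← dif_zero_iff hz2 hz1.holAt]
        constructor
        · intro h
          by_contra h0
          exact h ⟨g, hz1, h0⟩
        · rintro h0 ⟨g₁, hg₁, hd₁⟩
          exact dif_ne_of_ne hg₁ hz1 (hqD z hzD) hd₁ h0) (by
      obtain ⟨y, hyD, g, hg, hdg⟩ := hD.2.2.1
      rw [← him] at hyD
      obtain ⟨z₀, hz₀, rfl⟩ := hyD
      obtain ⟨z, hzN, hzD, hzg⟩ := smooth_near hD'.2.1 hz₀
        ((hq z₀).continuousAt.eventually (hg.eventually.and (smooth_ev hg hdg)))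
      exact ⟨z, hzD, hzg, not_not.2 ⟨g, hzN.1, hzN.2⟩⟩) hx₁D hx₁g
  obtain ⟨e₁, he₁, hde₁⟩ := hx₁g
  obtain ⟨x₂, ⟨hx₂D, hx₂q⟩, hx₂S, hx₂e, hx₂d⟩ := (hsm.and_eventually ((hS.eventually_mem hx₁S).and
    (he₁.eventually.and (smooth_ev he₁ hde₁)))).exists
  rw [not_not] at hx₂q
  obtain ⟨g, hg, hdg⟩ := hx₂q
  -- the other components
  have hfr : ∀ F : Finset (Set X), (∀ D₂ ∈ F, D₂ ∈ T ∧ D₂ ≠ D) →
      ∃ᶠ z in 𝓝 x₂, z ∈ D' ∧ ∀ D₂ ∈ F, q z ∉ D₂ := by
    classical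
    intro F
    induction F using Finset.induction_on with
    | empty =>
      intro _
      have : ∃ᶠ z in 𝓝 x₂, z ∈ D' := mem_closure_iff_frequently.1 (subset_closure hx₂D)
      exact this.mono fun z hz => ⟨hz, fun D₂ h => absurd h (Finset.notMem_empty _)⟩
    | insert D₂ F hDF ih =>
      intro hF
      have ih' := ih fun D₃ h => hF D₃ (Finset.mem_insert_of_mem h)
      obtain ⟨hD₂T, hD₂D⟩ := hF D₂ (Finset.mem_insert_self _ _)
      intro hcon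
      have hcon' := eventually_eventually_nhds.2 hcon
      obtain ⟨z₁, ⟨hz₁D, hz₁F⟩, hz₁c, hz₁e, hz₁d⟩ := (ih'.and_eventually (hcon'.and
        (hx₂e.eventually.and (smooth_ev hx₂e hx₂d)))).exists
      have hopen : ∀ᶠ z in 𝓝 z₁, ∀ D₃ ∈ F, q z ∉ D₃ := by
        rw [Finset.eventually_all]
        intro D₃ hD₃
        exact (hq z₁).continuousAt.eventually ((hTp D₃ (hF D₃
          (Finset.mem_insert_of_mem hD₃)).1).1.isOpen_compl.mem_nhds (hz₁F D₃ hD₃))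
      have hid := ident (V := ℂ) (D := D') hD'.2.2 (P := fun z => q z ∈ D₂) (by
        intro x _ _
        obtain ⟨g₂, hg₂⟩ := (hTp D₂ hD₂T).2.1 (q x)
        refine ⟨fun z => g₂ (q z), HolV.comp hg₂.holAt (hq x), ?_⟩
        filter_upwards [(hq x).continuousAt.eventually hg₂.eventually] with z hz _
        exact hz.mem_iff) (by
        have hnot : ¬ D ⊆ D₂ := fun hsub =>
          hD₂D (Subset.antisymm (prime_subset hD (hTp D₂ hD₂T) hsub) hsub)
        obtain ⟨y, hyD, hyD₂⟩ := Set.not_subset.1 hnot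
        rw [← him] at hyD
        obtain ⟨z₀, hz₀, rfl⟩ := hyD
        obtain ⟨z, hzN, hzD, hzg⟩ := smooth_near hD'.2.1 hz₀
          ((hq z₀).continuousAt.eventually ((hTp D₂ hD₂T).1.isOpen_compl.mem_nhds hyD₂))
        exact ⟨z, hzD, hzg, hzN⟩) hz₁D ⟨e₁, hz₁e, hz₁d⟩
      obtain ⟨z₂, ⟨hz₂D, hz₂q⟩, hz₂o, hz₂c⟩ := (hid.and_eventually (hopen.and hz₁c)).exists
      apply hz₂c
      refine ⟨hz₂D, fun D₃ hD₃ => ?_⟩
      rcases Finset.mem_insert.1 hD₃ with rfl | h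
      · exact hz₂q
      · exact hz₂o D₃ h
  have hfin : {D₂ | D₂ ∈ T ∧ D₂ ≠ D}.Finite := hT.subset fun D₂ h => h.1
  obtain ⟨x, ⟨hxD, hxT⟩, hxS, hxe, hxd, hxg⟩ := ((hfr hfin.toFinset fun D₂ h => by
      rw [Set.Finite.mem_toFinset] at h
      exact h).and_eventually ((hS.eventually_mem hx₂S).and (hx₂e.eventually.and
        ((smooth_ev hx₂e hx₂d).and ((hq x₂).continuousAt.eventually
          (hg.eventually.and (smooth_ev hg hdg))))))).exists
  refine ⟨x, hxD, hxS, ⟨e₁, hxe, hxd⟩, ⟨g, hxg.1, hxg.2⟩, fun D₂ h1 h2 => hxT D₂ ?_⟩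
  rw [Set.Finite.mem_toFinset]
  exact ⟨h1, h2⟩

end One

section Two

variable {E E' : Type} [NormedAddCommGroup E] [NormedSpace ℂ E] [FiniteDimensional ℂ E]
  [NormedAddCommGroup E'] [NormedSpace ℂ E']
variable {X X' Y : Type u} [TopologicalSpace X] [ChartedSpace E X] [IsManifold 𝓘(ℂ, E) ω X]
  [TopologicalSpace X'] [ChartedSpace E X'] [IsManifold 𝓘(ℂ, E) ω X']
  [TopologicalSpace Y] [ChartedSpace E' Y] [IsManifold 𝓘(ℂ, E') ω Y]

/-- the orbifold base of `(f ∘ q, Δ')` is at most that of `(f, Δ)`. -/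
theorem orbBase_comp_le [ConnectedSpace X'] {f : X → Y} {q : X' → X} (hf : ∀ x, HolM E E' f x)
    (hopen : IsOpenMap f) (hsub : ∀ x, Function.Surjective (dM E E' f x))
    (hsurj : Function.Surjective f) (hfib : ∀ y, IsConnected (f ⁻¹' {y}))
    (hq : ∀ x, HolM E E q x) (hqs : Function.Surjective q) {Δ' : Set X' → ℝ} {Δ : Set X → ℝ}
    (hΔ' : IsBdry E Δ') (hΔ : IsBdry E Δ) {m : ℕ} (hm : 0 < m) {k' : Set X' → ℕ} {k : Set X → ℕ}
    (hk' : ∀ D, (k' D : ℝ) = m * Δ' D) (hk : ∀ D, (k D : ℝ) = m * Δ D) {S : Set X'}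
    (hS : IsOpen S) (hlog : ∀ x ∈ S, ∃ u, LogAt E q m k' k x u ∧ u x ≠ 0) {G : Set Y}
    (hex : IsPrimeDivisor E' G →
      ∃ D', IsPrimeDivisor E D' ∧ q '' D' = f ⁻¹' G ∧ (D' ∩ S).Nonempty) :
    orbBase E E' (f ∘ q) Δ' G ≤ Δ (f ⁻¹' G) := by
  have hΔ0 : ∀ D, 0 ≤ Δ D ∧ Δ D ≤ 1 := by
    intro D
    obtain ⟨q, hq, h0, h1⟩ := hΔ.rational D
    rw [hq]
    exact ⟨by exact_mod_cast h0, by exact_mod_cast h1⟩
  have hΔ0' : ∀ D, 0 ≤ Δ' D ∧ Δ' D ≤ 1 := by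
    intro D
    obtain ⟨q, hq, h0, h1⟩ := hΔ'.rational D
    rw [hq]
    exact ⟨by exact_mod_cast h0, by exact_mod_cast h1⟩
  unfold orbBase
  by_cases hG : IsPrimeDivisor E' G
  swap
  · rw [if_neg hG]; exact (hΔ0 _).1
  rw [if_pos hG]
  obtain ⟨D', hD', him, hDS⟩ := hex hG
  set D : Set X := f ⁻¹' G with hDdef
  have hD : IsPrimeDivisor E D := isPrimeDivisor_preimage hf hopen hsub hsurj hfib hG
  have hsupp : ∀ D, k D ≠ 0 → Δ D ≠ 0 := by
    intro D hD h0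
    have := hk D
    rw [h0, mul_zero] at this
    exact hD (by exact_mod_cast this)
  obtain ⟨x, hxD, hxS, ⟨e, he, hde⟩, ⟨g₁, hg₁, hdg₁⟩, hxT⟩ := exists_general hq hD' hD him hS hDS
    hΔ.finite (fun D₂ h => hΔ.prime D₂ h)
  have hqD : ∀ z ∈ D', q z ∈ D := fun z hz => by rw [← him]; exact mem_image_of_mem q hz
  obtain ⟨gY, hgY⟩ := hG.2.1 (f (q x))
  have hg : IsLocalEq E D (fun z => gY (f z)) (q x) := isLocalEq_comp hf hopen hsub hgY
  have hdg : dif E (fun z => gY (f z)) (q x) ≠ 0 := dif_ne_of_ne hg₁ hg (hqD x hxD) hdg₁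
  -- the order
  have hneX : Nonempty X := ⟨q x⟩
  obtain ⟨-, hdense⟩ := dense_pre_fin (T := {D}) hq hqs (Set.finite_singleton D)
    (fun D₂ h => by rw [Set.mem_singleton_iff] at h; rw [h]; exact hD.1)
    (fun D₂ h => by rw [Set.mem_singleton_iff] at h; rw [h]; exact hD.2.1)
  have hne : ∃ᶠ z in 𝓝 x, gY (f (q z)) ≠ 0 := by
    have h1 : ∃ᶠ z in 𝓝 x, z ∈ {z | ∀ D₂ ∈ ({D} : Set (Set X)), q z ∉ D₂} :=
      mem_closure_iff_frequently.1 (hdense x)
    refine (h1.and_eventually ((hq x).continuousAt.eventually hg.eventually)).mono ?_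
    rintro z ⟨hz1, hz2⟩ h0
    exact hz1 D (Set.mem_singleton D) (hz2.mem_iff.2 h0)
  have hhol : HolV E (fun z => gY (f (q z))) x :=
    HolV.comp (h := fun z => gY (f z)) hg.holAt (hq x)
  obtain ⟨n, w, hw, hwe, hfreq⟩ := exists_order he hxD hhol hne
  obtain ⟨x₁, ⟨hx₁D, hx₁w⟩, hx₁S, hx₁e, hx₁h, hx₁fac, hx₁g, hx₁d, hx₁T⟩ :=
    (hfreq.and_eventually ((hS.eventually_mem hxS).and (he.eventually.and (hw.eventually.and
      ((eventually_eventually_nhds.2 hwe).and (((hq x).continuousAt.eventually hg.eventually).and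
        (((hq x).continuousAt.eventually (smooth_ev hg hdg)).and
          ((Filter.eventually_all_finite hΔ.finite).2 fun D₂ h₂ =>
            show ∀ᶠ z in 𝓝 x, D₂ ≠ D → q z ∉ D₂ by
              by_cases h : D₂ = D
              · exact Eventually.of_forall fun z hz => absurd h hz
              · filter_upwards [(hq x).continuousAt.eventually
                  ((hΔ.prime D₂ h₂).1.isOpen_compl.mem_nhds (hxT D₂ h₂ h))] with z hz _
                exact hz)))))))).exists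
  -- the exponent is positive
  have hn : n ≠ 0 := by
    rintro rfl
    have h1 := hx₁fac.self_of_nhds
    rw [pow_zero, one_mul] at h1
    exact hx₁w (by rw [← h1]; exact hx₁g.mem_iff.1 (hqD x₁ hx₁D))
  obtain ⟨n, rfl⟩ : ∃ l, n = l + 1 := ⟨n - 1, by omega⟩
  obtain ⟨u, hu, hu0⟩ := hlog x₁ hx₁S
  have key := exponents (hq x₁) hu hu0 hx₁e hx₁D (D := D) hx₁g hx₁d
    (fun D₂ h1 h2 => hx₁T D₂ (hsupp D₂ h1) h2) hx₁h hx₁w hx₁fac
  -- real inequality
  have hreal : ((n + 1 : ℕ) : ℝ) * (1 - Δ D) ≤ 1 - Δ' D' := by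
    have h1 : ((m * n + k' D' : ℕ) : ℝ) ≤ (((n + 1) * k D : ℕ) : ℝ) := by exact_mod_cast key
    push_cast at h1 ⊢
    rw [hk, hk'] at h1
    have hm' : (0 : ℝ) < m := by exact_mod_cast hm
    have h2 : (m : ℝ) * (((n : ℝ) + 1) * (1 - Δ D)) ≤ m * (1 - Δ' D') := by nlinarith only [h1]
    exact le_of_mul_le_mul_left h2 hm'
  -- the order along `D'`
  have hord : ordAlong E E' (f ∘ q) G D' ≤ n + 1 := by
    refine Nat.sInf_le ?_
    obtain ⟨g₃, hg₃⟩ := hG.2.1 (f (q x₁))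
    have hg₃' : IsLocalEq E D (fun z => g₃ (f z)) (q x₁) := isLocalEq_comp hf hopen hsub hg₃
    obtain ⟨v, hv, hv0, hve⟩ := unit_ratio_red hg₃' hx₁g
    refine ⟨x₁, hx₁D, e, g₃, fun z => v (q z) * w z, hx₁e, hg₃,
      (HolV.comp hv (hq x₁)).mul hx₁h, mul_ne_zero hv0 hx₁w, ?_⟩
    filter_upwards [hx₁fac, (hq x₁).continuousAt.eventually hve] with z h1 h2
    show g₃ (f (q z)) = _
    rw [h2, h1]; ring
  have hle : orbMult E E' (f ∘ q) Δ' G ≤ mult Δ D := by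
    have h1 : orbMult E E' (f ∘ q) Δ' G ≤ ((n + 1 : ℕ) : ℝ≥0∞) * mult Δ' D' := by
      unfold orbMult
      have hmem : IsPrimeDivisor E D' ∧ (f ∘ q) '' D' = G :=
        ⟨hD', by rw [image_comp, him]; exact image_preimage_eq G hsurj⟩
      refine (iInf_le _ D').trans ((iInf_le _ hmem).trans ?_)
      gcongr
    refine h1.trans ?_
    unfold mult
    have h2 : ((n + 1 : ℕ) : ℝ≥0∞) * (1 - ENNReal.ofReal (Δ D)) ≤ 1 - ENNReal.ofReal (Δ' D') := by
      have h3 : ∀ t : ℝ, 0 ≤ t → 1 - ENNReal.ofReal t = ENNReal.ofReal (1 - t) := fun t ht => by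
        rw [ENNReal.ofReal_sub _ ht, ENNReal.ofReal_one]
      rw [h3 _ (hΔ0 D).1, h3 _ (hΔ0' D').1]
      have h4 : ((n + 1 : ℕ) : ℝ≥0∞) = ENNReal.ofReal ((n + 1 : ℕ) : ℝ) :=
        (ENNReal.ofReal_natCast _).symm
      rw [h4, ← ENNReal.ofReal_mul (Nat.cast_nonneg _)]
      exact ENNReal.ofReal_le_ofReal hreal
    have h5 : (1 - ENNReal.ofReal (Δ' D'))⁻¹ ≤
        (((n + 1 : ℕ) : ℝ≥0∞) * (1 - ENNReal.ofReal (Δ D)))⁻¹ := ENNReal.inv_le_inv.2 h2
    have hn0 : ((n + 1 : ℕ) : ℝ≥0∞) ≠ 0 := by simp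
    have hnt : ((n + 1 : ℕ) : ℝ≥0∞) ≠ ⊤ := ENNReal.natCast_ne_top _
    rw [ENNReal.mul_inv (Or.inl hn0) (Or.inl hnt)] at h5
    calc ((n + 1 : ℕ) : ℝ≥0∞) * (1 - ENNReal.ofReal (Δ' D'))⁻¹
        ≤ ((n + 1 : ℕ) : ℝ≥0∞) * (((n + 1 : ℕ) : ℝ≥0∞)⁻¹ * (1 - ENNReal.ofReal (Δ D))⁻¹) := by
          gcongr
      _ = (1 - ENNReal.ofReal (Δ D))⁻¹ := by
          rw [← mul_assoc, ENNReal.mul_inv_cancel hn0 hnt, one_mul]
  have hinv : (mult Δ D)⁻¹ ≤ (orbMult E E' (f ∘ q) Δ' G)⁻¹ := ENNReal.inv_le_inv.2 hle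
  have h2 : (1 - (orbMult E E' (f ∘ q) Δ' G)⁻¹) ≤ ENNReal.ofReal (Δ D) := by
    calc (1 - (orbMult E E' (f ∘ q) Δ' G)⁻¹) ≤ 1 - (mult Δ D)⁻¹ := tsub_le_tsub_left hinv 1
      _ = 1 - (1 - ENNReal.ofReal (Δ D)) := by unfold mult; rw [inv_inv]
      _ ≤ ENNReal.ofReal (Δ D) := by
        rw [tsub_le_iff_right]
        exact le_add_tsub
  calc (1 - (orbMult E E' (f ∘ q) Δ' G)⁻¹).toReal ≤ (ENNReal.ofReal (Δ D)).toReal :=
        ENNReal.toReal_mono ENNReal.ofReal_ne_top h2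
    _ = Δ D := ENNReal.toReal_ofReal (hΔ0 D).1

end Two

end Vale.Agent.P281.H76.S
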