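import Vale.Agent.P281.H76.Ext

/-! P281 (helper76): pull back of sections by log maps. -/

namespace Vale.Agent.P281.H76

open scoped Manifold ContDiff Topology ENNReal
open Set Filter Metric

set_option linter.all false

universe u

section Jac

variable {E : Type} [NormedAddCommGroup E] [NormedSpace ℂ E] [FiniteDimensional ℂ E]
variable {X : Type u} [TopologicalSpace X] [ChartedSpace E X] [IsManifold 𝓘(ℂ, E) ω X]

/-- the Jacobian of a holomorphic map to the model space, in a chart. -/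
theorem jac_local {φ : X → E} {z : X} (hφ : HolV E φ z) :
    ∃ R : X → ℂ, HolV E R z ∧ ∀ᶠ w in 𝓝 z, jac E φ w = R w * jac E (chartAt E z) w := by
  have hz : z ∈ (chartAt E z).source := mem_chart_source E z
  refine ⟨fun w => (fderiv ℂ (φ ∘ (chartAt E z).symm) (chartAt E z w)).det, ?_, ?_⟩
  · have h1 : ContDiffAt ℂ ω (fderiv ℂ (φ ∘ (chartAt E z).symm)) (chartAt E z z) :=
      (hφ.rep hz).fderiv_right (by simp)
    have h2 : ContDiffAt ℂ ω (fun w => (fderiv ℂ (φ ∘ (chartAt E z).symm) w).det)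
        (chartAt E z z) := (contDiff_det.contDiffAt).comp _ h1
    exact HolV.comp_contDiff (G := fun w => (fderiv ℂ (φ ∘ (chartAt E z).symm) w).det) h2
      (HolV.chart hz)
  · filter_upwards [hφ.eventually, (chartAt E z).open_source.mem_nhds hz] with w hw hws
    have h1 : jac E φ w = (dV E φ w).det := rfl
    have h2 : jac E (chartAt E z) w = (dV E (chartAt E z : X → E) w).det := rfl
    rw [h1, h2, dV_eq_chart hws hw, clm_det_comp]

theorem jac_chart_ev (z : X) : ∀ᶠ w in 𝓝 z, jac E (chartAt E z) w ≠ 0 := by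
  filter_upwards [(chartAt E z).open_source.mem_nhds (mem_chart_source E z)] with w hw
  exact jac_chart_ne_zero hw

/-- gluing of local sections given on a dense set. -/
theorem glue_section {m : ℕ} {k : Set X → ℕ} {G : Set X} (hG : Dense G) {s₀ : X → ℂ}
    (h : ∀ x, ∃ (T : Finset (Set X)) (g : Set X → X → ℂ) (a : X → ℂ), (∀ i, k i ≠ 0 → i ∈ T) ∧
      (∀ i ∈ T, IsLocalEq E i (g i) x) ∧ HolV E a x ∧
      ∀ᶠ z in 𝓝 x, z ∈ G → s₀ z * ∏ i ∈ T, g i z ^ k i = a z * jac E (chartAt E x) z ^ m) :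
    ∃ s : X → ℂ, IsSection E (fun (D : Set X) z g => IsLocalEq E D g z) m k s ∧
      ∀ z ∈ G, (∀ D, k D ≠ 0 → z ∉ D) → s z = s₀ z := by
  classical
  choose T g a hT hg ha hev using h
  -- nonvanishing of the products
  have hQne : ∀ z, (∀ D, k D ≠ 0 → z ∉ D) → ∏ i ∈ T z, g z i z ^ k i ≠ 0 := by
    intro z hz
    refine Finset.prod_ne_zero_iff.2 fun i hi => ?_
    by_cases hk : k i = 0
    · simp [hk]
    · exact pow_ne_zero _ fun h0 => hz i hk ((hg z i hi).mem_iff.2 h0)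
  refine ⟨fun p => a p p * jac E (chartAt E p) p ^ m / ∏ i ∈ T p, g p i p ^ k i, ?_, ?_⟩
  · intro x
    refine ⟨T x, g x, a x, hT x, hg x, ha x, ?_⟩
    have e1 := eventually_eventually_nhds.2 (hev x)
    have e2 : ∀ᶠ z in 𝓝 x, HolV E (a x) z := (ha x).eventually
    have e3 : ∀ᶠ z in 𝓝 x, z ∈ (chartAt E x).source :=
      (chartAt E x).open_source.mem_nhds (mem_chart_source E x)
    have e4 : ∀ᶠ z in 𝓝 x, ∀ i ∈ T x, IsLocalEq E i (g x i) z := by
      rw [Finset.eventually_all]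
      exact fun i hi => (hg x i hi).eventually
    filter_upwards [e1, e2, e3, e4] with z h1 h2 h3 h4 hne
    have h3' : HolV E (chartAt E x : X → E) z := HolV.chart h3
    obtain ⟨R, hR, hRev⟩ := jac_local (E := E) h3'
    have hzD : ∀ D, k D ≠ 0 → z ∉ D := by
      intro D hD hzD
      have hDT := hT x D hD
      have h0 : g x D z = 0 := (h4 D hDT).mem_iff.1 hzD
      exact (Finset.prod_ne_zero_iff.1 hne D hDT) (by rw [h0, zero_pow hD])
    have hQ0 := hQne z hzD
    -- the identity on `G` near `z`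
    have hid : ∀ᶠ w in 𝓝 z, w ∈ G →
        a z w * ∏ i ∈ T x, g x i w ^ k i = a x w * R w ^ m * ∏ i ∈ T z, g z i w ^ k i := by
      filter_upwards [h1, hev z, hRev, jac_chart_ev (E := E) z] with w w1 w2 w3 w4 hw
      have w1' := w1 hw
      have w2' := w2 hw
      rw [w3] at w1'
      have hJ : jac E (chartAt E z) w ^ m ≠ 0 := pow_ne_zero _ w4
      refine mul_right_cancel₀ hJ ?_
      calc a z w * (∏ i ∈ T x, g x i w ^ k i) * jac E (chartAt E z) w ^ m
          = (a z w * jac E (chartAt E z) w ^ m) * (∏ i ∈ T x, g x i w ^ k i) := by ring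
        _ = (s₀ w * ∏ i ∈ T x, g x i w ^ k i) * (∏ i ∈ T z, g z i w ^ k i) := by
            rw [← w2']; ring
        _ = a x w * R w ^ m * (∏ i ∈ T z, g z i w ^ k i) * jac E (chartAt E z) w ^ m := by
            rw [w1']; ring
    have hpt : a z z * ∏ i ∈ T x, g x i z ^ k i = a x z * R z ^ m * ∏ i ∈ T z, g z i z ^ k i := by
      have hc1 : ContinuousAt (fun w => a z w * ∏ i ∈ T x, g x i w ^ k i) z :=
        (HolV.mul (ha z) (HolV.prod fun i hi => (h4 i hi).holAt.pow _)).continuousAt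
      have hc2 : ContinuousAt (fun w => a x w * R w ^ m * ∏ i ∈ T z, g z i w ^ k i) z :=
        (HolV.mul (HolV.mul h2 (hR.pow m))
          (HolV.prod fun i hi => (hg z i hi).holAt.pow _)).continuousAt
      by_contra hne'
      have h5 := (hc1.ne_iff_eventually_ne hc2).1 hne'
      obtain ⟨V, hV, hVo, hzV⟩ := eventually_nhds_iff.1 (h5.and hid)
      obtain ⟨w, hwV, hwG⟩ := hG.inter_open_nonempty V hVo ⟨z, hzV⟩
      exact (hV w hwV).1 ((hV w hwV).2 hwG)
    have hJz : jac E (chartAt E x) z = R z * jac E (chartAt E z) z := hRev.self_of_nhds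
    show a z z * jac E (chartAt E z) z ^ m / (∏ i ∈ T z, g z i z ^ k i) *
      ∏ i ∈ T x, g x i z ^ k i = a x z * jac E (chartAt E x) z ^ m
    rw [hJz, div_mul_eq_mul_div, div_eq_iff hQ0]
    linear_combination jac E (chartAt E z) z ^ m * hpt
  · intro z hzG hzD
    have h1 := (hev z).self_of_nhds hzG
    show a z z * jac E (chartAt E z) z ^ m / (∏ i ∈ T z, g z i z ^ k i) = s₀ z
    rw [← h1, mul_div_assoc, div_self (hQne z hzD), mul_one]

end Jac

section Pull

variable {E : Type} [NormedAddCommGroup E] [NormedSpace ℂ E] [FiniteDimensional ℂ E]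
variable {X X' : Type u} [TopologicalSpace X] [ChartedSpace E X] [IsManifold 𝓘(ℂ, E) ω X]
  [TopologicalSpace X'] [ChartedSpace E X'] [IsManifold 𝓘(ℂ, E) ω X']

/-- The data of a log map at a point `x'`: `m (K_{X'} + Δ') - q^* m (K_X + Δ)` is the effective
divisor of `u` near `x'`; here `k' = m Δ'` and `k = m Δ`. -/
def LogAt (E : Type) [NormedAddCommGroup E] [NormedSpace ℂ E] {X X' : Type u} [TopologicalSpace X]
    [ChartedSpace E X] [TopologicalSpace X'] [ChartedSpace E X'] (q : X' → X) (m : ℕ)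
    (k' : Set X' → ℕ) (k : Set X → ℕ) (x' : X') (u : X' → ℂ) : Prop :=
  ∃ (T' : Finset (Set X')) (g' : Set X' → X' → ℂ) (T : Finset (Set X)) (g : Set X → X → ℂ)
    (b : X' → ℂ), (∀ D, k' D ≠ 0 → D ∈ T') ∧ (∀ D ∈ T', IsLocalEq E D (g' D) x') ∧
    (∀ D, k D ≠ 0 → D ∈ T) ∧ (∀ D ∈ T, IsLocalEq E D (g D) (q x')) ∧ HolV E b x' ∧ HolV E u x' ∧
    ∀ᶠ z in 𝓝 x', jac E (fun w => chartAt E (q x') (q w)) z = b z * jac E (chartAt E x') z ∧
      b z ^ m * ∏ D ∈ T', g' D z ^ k' D = u z * ∏ D ∈ T, g D (q z) ^ k D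

theorem jac_comp {q : X' → X} {x' : X'} (hq : HolM E E q x') :
    ∀ᶠ z in 𝓝 x', jac E (fun w => chartAt E (q x') (q w)) z =
      jac E (chartAt E (q x')) (q z) * (dM E E q z).det := by
  filter_upwards [hq.eventually, hq.continuousAt.eventually
    ((chartAt E (q x')).open_source.mem_nhds (mem_chart_source E (q x')))] with z hz hzs
  have h1 : jac E (fun w => chartAt E (q x') (q w)) z =
      (dV E (fun w => chartAt E (q x') (q w)) z).det := rfl
  rw [h1, dV_comp (h := (chartAt E (q x') : X → E)) (HolV.chart hzs) hz, clm_det_comp]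
  rfl

/-- products of local equations with exponents `k` -/
theorem prod_unit {k : Set X → ℕ} {x : X} {T T' : Finset (Set X)} {g g' : Set X → X → ℂ}
    (hsm : Smooth E {D | k D ≠ 0}) (hT : ∀ D, k D ≠ 0 → D ∈ T) (hT' : ∀ D, k D ≠ 0 → D ∈ T')
    (hg : ∀ D ∈ T, IsLocalEq E D (g D) x) (hg' : ∀ D ∈ T', IsLocalEq E D (g' D) x) :
    ∃ w : X → ℂ, HolV E w x ∧ w x ≠ 0 ∧
      ∀ᶠ z in 𝓝 x, ∏ D ∈ T, g D z ^ k D = w z * ∏ D ∈ T', g' D z ^ k D := by
  classical
  have hex : ∀ D : Set X, ∃ w : X → ℂ, HolV E w x ∧ w x ≠ 0 ∧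
      (k D ≠ 0 → ∀ᶠ z in 𝓝 x, g D z = w z * g' D z) := by
    intro D
    by_cases hD : k D = 0
    · exact ⟨fun _ => 1, HolV.const _ _, one_ne_zero, fun h => absurd hD h⟩
    · obtain ⟨w, h1, h2, h3⟩ := unit_ratio (hg D (hT D hD)) (hg' D (hT' D hD))
        (fun hx => hsm D hD x hx _ (hg D (hT D hD))) (fun hx => hsm D hD x hx _ (hg' D (hT' D hD)))
      exact ⟨w, h1, h2, fun _ => h3⟩
  choose w hw hw0 hwe using hex
  set T1 : Finset (Set X) := T.filter (fun D => k D ≠ 0) with hT1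
  have hT1' : T1 = T'.filter (fun D => k D ≠ 0) := by
    ext D
    simp only [hT1, Finset.mem_filter]
    constructor
    · rintro ⟨_, h2⟩; exact ⟨hT' D h2, h2⟩
    · rintro ⟨_, h2⟩; exact ⟨hT D h2, h2⟩
  have hprod1 : ∀ z, ∏ D ∈ T, g D z ^ k D = ∏ D ∈ T1, g D z ^ k D := by
    intro z
    rw [hT1, Finset.prod_filter]
    refine Finset.prod_congr rfl fun D _ => ?_
    by_cases hkD : k D = 0 <;> simp [hkD]
  have hprod2 : ∀ z, ∏ D ∈ T', g' D z ^ k D = ∏ D ∈ T1, g' D z ^ k D := by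
    intro z
    rw [hT1', Finset.prod_filter]
    refine Finset.prod_congr rfl fun D _ => ?_
    by_cases hkD : k D = 0 <;> simp [hkD]
  refine ⟨fun z => ∏ D ∈ T1, w D z ^ k D, HolV.prod fun D _ => (hw D).pow _,
    Finset.prod_ne_zero_iff.2 fun D _ => pow_ne_zero _ (hw0 D), ?_⟩
  have hall : ∀ᶠ z in 𝓝 x, ∀ D ∈ T1, g D z = w D z * g' D z := by
    rw [Finset.eventually_all]
    intro D hD
    rw [hT1, Finset.mem_filter] at hD
    exact hwe D hD.2
  filter_upwards [hall] with z hz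
  rw [hprod1, hprod2, ← Finset.prod_mul_distrib]
  refine Finset.prod_congr rfl fun D hD => ?_
  rw [hz D hD, mul_pow]

theorem pull_section {q : X' → X} (hq : ∀ x, HolM E E q x) {m₀ : ℕ} {k₀' : Set X' → ℕ}
    {k₀ : Set X → ℕ} (hcr : ∀ x', ∃ u, LogAt E q m₀ k₀' k₀ x' u)
    (hsm : Smooth E {D | k₀ D ≠ 0}) (hG : Dense {z | ∀ D, k₀ D ≠ 0 → q z ∉ D})
    {m₁ : ℕ} (hm₁ : 0 < m₁) {s : X → ℂ}
    (hs : IsSection E (fun (D : Set X) z g => IsLocalEq E D g z) (m₀ * m₁)
      (fun D => k₀ D * m₁) s) :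
    ∃ s' : X' → ℂ, IsSection E (fun (D : Set X') z g => IsLocalEq E D g z) (m₀ * m₁)
      (fun D => k₀' D * m₁) s' ∧
      ∀ z, (∀ D, k₀ D ≠ 0 → q z ∉ D) → (∀ D, k₀' D ≠ 0 → z ∉ D) →
        s' z = s (q z) * (dM E E q z).det ^ (m₀ * m₁) := by
  classical
  obtain ⟨s', hs', hs'e⟩ := glue_section (X := X') (E := E) (m := m₀ * m₁)
    (k := fun D => k₀' D * m₁) hG (s₀ := fun z => s (q z) * (dM E E q z).det ^ (m₀ * m₁)) (by
      intro x'
      obtain ⟨u, T', g', T, g, b, hT', hg', hT, hg, hb, hu, hev⟩ := hcr x'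
      obtain ⟨TS, gS, aS, hTS, hgS, haS, hevS⟩ := hs (q x')
      obtain ⟨w, hw, hw0, hwe⟩ := prod_unit (k := fun D => k₀ D) (x := q x') hsm hT
        (fun D hD => hTS D (Nat.mul_ne_zero hD hm₁.ne')) hg hgS
      refine ⟨T', g', fun z => aS (q z) * u z ^ m₁ * w (q z) ^ m₁,
        fun D hD => hT' D (left_ne_zero_of_mul hD), hg', ?_, ?_⟩
      · exact HolV.mul (HolV.mul (HolV.comp (h := aS) haS (hq x')) (hu.pow m₁))
          ((HolV.comp hw (hq x')).pow m₁)
      · have hqc := (hq x').continuousAt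
        have e5 : ∀ᶠ z in 𝓝 x', ∀ D ∈ TS, IsLocalEq E D (gS D) (q z) := by
          apply hqc.eventually (p := fun y => ∀ D ∈ TS, IsLocalEq E D (gS D) y)
          rw [Finset.eventually_all]
          exact fun i hi => (hgS i hi).eventually
        filter_upwards [hev, hqc.eventually hevS, hqc.eventually hwe, jac_comp (hq x'), e5]
          with z h1 h2 h3 h4 h5 hzG
        have hQS : ∏ D ∈ TS, gS D (q z) ^ k₀ D ≠ 0 := by
          refine Finset.prod_ne_zero_iff.2 fun D hD => ?_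
          by_cases hk : k₀ D = 0
          · simp [hk]
          · exact pow_ne_zero _ fun h0 => hzG D hk ((h5 D hD).mem_iff.2 h0)
        have hQS1 : ∏ D ∈ TS, gS D (q z) ^ (k₀ D * m₁) = (∏ D ∈ TS, gS D (q z) ^ k₀ D) ^ m₁ := by
          rw [← Finset.prod_pow]
          exact Finset.prod_congr rfl fun i _ => by rw [pow_mul]
        have hP1 : ∏ D ∈ T', g' D z ^ (k₀' D * m₁) = (∏ D ∈ T', g' D z ^ k₀' D) ^ m₁ := by
          rw [← Finset.prod_pow]
          exact Finset.prod_congr rfl fun i _ => by rw [pow_mul]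
        have h2' := h2 (by rw [hQS1]; exact pow_ne_zero _ hQS)
        rw [hQS1] at h2'
        obtain ⟨h1a, h1b⟩ := h1
        rw [h3] at h1b
        rw [h1a] at h4
        show s (q z) * (dM E E q z).det ^ (m₀ * m₁) * ∏ D ∈ T', g' D z ^ (k₀' D * m₁) =
          aS (q z) * u z ^ m₁ * w (q z) ^ m₁ * jac E (chartAt E x') z ^ (m₀ * m₁)
        rw [hP1]
        set P := ∏ D ∈ T', g' D z ^ k₀' D with hP
        set Q := ∏ D ∈ TS, gS D (q z) ^ k₀ D with hQ
        set dq := (dM E E q z).det with hdq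
        set J := jac E (chartAt E x') z with hJ
        set J' := jac E (chartAt E (q x')) (q z) with hJ'
        have hQ0 : Q ^ m₁ ≠ 0 := pow_ne_zero _ hQS
        refine mul_right_cancel₀ hQ0 ?_
        calc s (q z) * dq ^ (m₀ * m₁) * P ^ m₁ * Q ^ m₁
            = (s (q z) * Q ^ m₁) * dq ^ (m₀ * m₁) * P ^ m₁ := by ring
          _ = aS (q z) * (J' * dq) ^ (m₀ * m₁) * P ^ m₁ := by
              rw [h2', mul_pow]; ring
          _ = aS (q z) * (b z * J) ^ (m₀ * m₁) * P ^ m₁ := by rw [← h4]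
          _ = aS (q z) * J ^ (m₀ * m₁) * (b z ^ m₀ * P) ^ m₁ := by
              rw [mul_pow, mul_pow, pow_mul (b z)]; ring
          _ = aS (q z) * J ^ (m₀ * m₁) * (u z * (w (q z) * Q)) ^ m₁ := by rw [h1b]
          _ = aS (q z) * u z ^ m₁ * w (q z) ^ m₁ * J ^ (m₀ * m₁) * Q ^ m₁ := by
              rw [mul_pow, mul_pow]; ring)
  refine ⟨s', hs', fun z hz hz' => ?_⟩
  exact hs'e z hz (fun D hD => hz' D (left_ne_zero_of_mul hD))

end Pull

end Vale.Agent.P281.H76
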