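import Vale.Agent.P281.H76.Ext

/-! P281 (helper76): a holomorphic function vanishing on a reduced (possibly singular) hypersurface
is divisible by its reduced equation. -/

namespace Vale.Agent.P281.H76

open scoped Manifold ContDiff Topology ENNReal
open Set Filter Metric MeasureTheory

set_option linter.all false

/-- Cauchy formula for a quotient whose denominator has simple zeros. -/
theorem ratio_cauchy {G G' : ℂ → ℂ} {s s' : ℝ} (hs : 0 < s) (hss' : s < s')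
    (hG : DifferentiableOn ℂ G (ball 0 s')) (hG' : DifferentiableOn ℂ G' (ball 0 s'))
    (hz : ∀ t ∈ ball (0 : ℂ) s', G t = 0 → G' t = 0)
    (hsph : ∀ t ∈ sphere (0 : ℂ) s, G t ≠ 0)
    (hsim : ∀ t ∈ ball (0 : ℂ) s, G t = 0 → deriv G t ≠ 0) :
    G' 0 = ((2 * Real.pi * Complex.I : ℂ)⁻¹ • (∮ t in C(0, s), t⁻¹ * (G' t / G t))) * G 0 := by
  classical
  let φ : ℂ → ℂ := fun t => if G t = 0 then deriv G' t / deriv G t else G' t / G t
  have hφd : DifferentiableOn ℂ φ (closedBall 0 s) := by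
    intro t₀ ht₀
    have ht₀' : t₀ ∈ ball (0 : ℂ) s' := closedBall_subset_ball hss' ht₀
    have hnhd : ball (0 : ℂ) s' ∈ 𝓝 t₀ := isOpen_ball.mem_nhds ht₀'
    have hGt : DifferentiableAt ℂ G t₀ := hG.differentiableAt hnhd
    have hGt' : DifferentiableAt ℂ G' t₀ := hG'.differentiableAt hnhd
    refine DifferentiableAt.differentiableWithinAt ?_
    by_cases h0 : G t₀ = 0
    · have htb : t₀ ∈ ball (0 : ℂ) s := by
        rcases (mem_closedBall.1 ht₀).lt_or_eq with h | h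
        · exact h
        · exact absurd h0 (hsph t₀ h)
      have hd0 := hsim t₀ htb h0
      have h0' : G' t₀ = 0 := hz t₀ ht₀' h0
      have hds : DifferentiableAt ℂ (dslope G t₀) t₀ :=
        ((Complex.differentiableOn_dslope hnhd).2 hG).differentiableAt hnhd
      have hds' : DifferentiableAt ℂ (dslope G' t₀) t₀ :=
        ((Complex.differentiableOn_dslope hnhd).2 hG').differentiableAt hnhd
      have hne : dslope G t₀ t₀ ≠ 0 := by rw [dslope_same]; exact hd0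
      refine (hds'.div hds hne).congr_of_eventuallyEq ?_
      filter_upwards [hds.continuousAt.eventually_ne hne] with t ht
      by_cases htt : t = t₀
      · subst htt
        show φ t = _
        simp only [φ, h0, if_true, Pi.div_apply, dslope_same]
      · have h1 := sub_smul_dslope G t₀ t
        have h2 := sub_smul_dslope G' t₀ t
        rw [h0, sub_zero, smul_eq_mul] at h1
        rw [h0', sub_zero, smul_eq_mul] at h2
        have h3 : t - t₀ ≠ 0 := sub_ne_zero.2 htt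
        have h4 : G t ≠ 0 := by rw [← h1]; exact mul_ne_zero h3 ht
        show φ t = dslope G' t₀ t / dslope G t₀ t
        simp only [φ, h4, if_false]
        rw [← h1, ← h2, mul_div_mul_left _ _ h3]
    · refine (hGt'.div hGt h0).congr_of_eventuallyEq ?_
      filter_upwards [hGt.continuousAt.eventually_ne h0] with t ht
      show φ t = _
      simp only [φ, ht, if_false, Pi.div_apply]
  have hcauchy := hφd.circleIntegral_sub_inv_smul (w := 0) (mem_ball_self hs)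
  have hcirc : ∮ t in C(0, s), t⁻¹ * (G' t / G t) = ∮ t in C(0, s), (t - 0)⁻¹ • φ t := by
    apply circleIntegral.integral_congr hs.le
    intro t ht
    have h1 : G t ≠ 0 := hsph t ht
    simp only [sub_zero, smul_eq_mul, φ, h1, if_false]
  rw [hcirc, hcauchy, smul_smul, inv_mul_cancel₀ Complex.two_pi_I_ne_zero, one_smul]
  by_cases h0 : G 0 = 0
  · rw [h0, mul_zero]
    exact hz 0 (mem_ball_self (hs.trans hss')) h0
  · simp only [φ, h0, if_false]
    rw [div_mul_cancel₀ _ h0]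

section several

variable {n : ℕ}

/-- zeros persist. -/
theorem persist {g : (Fin n → ℂ) → ℂ} {p v z₀ : Fin n → ℂ} {r ρ s s' : ℝ} {t₀ : ℂ}
    (hs : 0 < s) (hss' : s < s')
    (hg : DifferentiableOn ℂ g (ball p r)) (hz₀ : z₀ ∈ ball p ρ)
    (hmem : ∀ z ∈ ball p ρ, ∀ t ∈ ball (0 : ℂ) s', z + t • v ∈ ball p r)
    (hsph : ∀ z ∈ ball p ρ, ∀ t ∈ sphere (0 : ℂ) s, g (z + t • v) ≠ 0)
    (ht₀ : t₀ ∈ ball (0 : ℂ) s') (h0 : g (z₀ + t₀ • v) = 0) {ε : ℝ} (hε : 0 < ε) :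
    ∀ᶠ z in 𝓝 z₀, ∃ t ∈ ball t₀ ε, g (z + t • v) = 0 := by
  have hG : ∀ z ∈ ball p ρ, DifferentiableOn ℂ (fun t : ℂ => g (z + t • v)) (ball 0 s') :=
    fun z hz => hg.comp (by fun_prop) (fun t ht => hmem z hz t ht)
  have hcont : ContinuousOn g (ball p r) := hg.continuousOn
  have hcont2 : ∀ z ∈ ball p ρ, ∀ t ∈ ball (0 : ℂ) s',
      ContinuousAt (fun q : (Fin n → ℂ) × ℂ => g (q.1 + q.2 • v)) (z, t) := by
    intro z hz t ht
    have h1 : ContinuousAt g ((z, t).1 + (z, t).2 • v) :=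
      hcont.continuousAt (isOpen_ball.mem_nhds (hmem z hz t ht))
    exact ContinuousAt.comp (f := fun q : (Fin n → ℂ) × ℂ => q.1 + q.2 • v) h1 (by fun_prop)
  -- isolated zero
  have hiso : ∀ᶠ t in 𝓝[≠] t₀, g (z₀ + t • v) ≠ 0 := by
    have han : AnalyticOnNhd ℂ (fun t : ℂ => g (z₀ + t • v)) (ball 0 s') :=
      (hG z₀ hz₀).analyticOnNhd isOpen_ball
    rcases (han t₀ ht₀).eventually_eq_zero_or_eventually_ne_zero with h2 | h2
    · exfalso
      have h3 : (s : ℂ) ∈ sphere (0 : ℂ) s := by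
        rw [mem_sphere_zero_iff_norm, Complex.norm_real, Real.norm_eq_abs, abs_of_pos hs]
      exact hsph z₀ hz₀ s h3 (han.eqOn_zero_of_preconnected_of_eventuallyEq_zero
        (convex_ball (0 : ℂ) s').isPreconnected ht₀ h2
        (closedBall_subset_ball hss' (sphere_subset_closedBall h3)))
    · exact h2
  rw [eventually_nhdsWithin_iff, Metric.eventually_nhds_iff_ball] at hiso
  obtain ⟨δ, hδ, hiso⟩ := hiso
  obtain ⟨δ', hδ', hball⟩ := Metric.isOpen_iff.1 isOpen_ball t₀ ht₀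
  set e : ℝ := min (min (δ / 2) (δ' / 2)) (ε / 2) with he
  have hepos : 0 < e := by positivity
  have he1 : e < δ := by
    have : e ≤ δ / 2 := (min_le_left _ _).trans (min_le_left _ _)
    linarith
  have he2 : e < δ' := by
    have : e ≤ δ' / 2 := (min_le_left _ _).trans (min_le_right _ _)
    linarith
  have he3 : e < ε := by
    have : e ≤ ε / 2 := min_le_right _ _
    linarith
  have hcb : closedBall t₀ e ⊆ ball (0 : ℂ) s' := (closedBall_subset_ball he2).trans hball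
  have hne : ∀ t ∈ sphere t₀ e, g (z₀ + t • v) ≠ 0 := by
    intro t ht
    refine hiso t ?_ ?_
    · rw [mem_ball, mem_sphere.1 ht]; exact he1
    · intro h
      rw [mem_singleton_iff] at h
      rw [h, mem_sphere, dist_self] at ht
      exact hepos.ne ht
  -- lower bound on the circle
  obtain ⟨t₁, ht₁, hmin⟩ := (isCompact_sphere t₀ e).exists_isMinOn
    ((NormedSpace.sphere_nonempty).2 hepos.le)
    (f := fun t => ‖g (z₀ + t • v)‖) (by
      have h5 : ContinuousOn (fun t : ℂ => g (z₀ + t • v)) (ball 0 s') := (hG z₀ hz₀).continuousOn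
      exact (h5.mono (sphere_subset_closedBall.trans hcb)).norm)
  set m : ℝ := ‖g (z₀ + t₁ • v)‖ with hm
  have hmpos : 0 < m := norm_pos_iff.2 (hne t₁ ht₁)
  have hev1 : ∀ᶠ z in 𝓝 z₀, ∀ t ∈ sphere t₀ e, m / 2 < ‖g (z + t • v)‖ := by
    refine (isCompact_sphere t₀ e).eventually_forall_of_forall_eventually
      (P := fun z t => m / 2 < ‖g (z + t • v)‖) fun t ht => ?_
    have h6 : m / 2 < ‖g ((z₀, t).1 + (z₀, t).2 • v)‖ := by
      have : m ≤ ‖g (z₀ + t • v)‖ := hmin ht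
      show m / 2 < ‖g (z₀ + t • v)‖
      linarith
    exact (hcont2 z₀ hz₀ t (hcb (sphere_subset_closedBall ht))).norm.eventually_const_lt h6
  have hev2 : ∀ᶠ z in 𝓝 z₀, ‖g (z + t₀ • v)‖ < m / 2 := by
    have h7 : ContinuousAt (fun z => ‖g (z + t₀ • v)‖) z₀ := by
      have h1 : ContinuousAt g (z₀ + t₀ • v) :=
        hcont.continuousAt (isOpen_ball.mem_nhds (hmem z₀ hz₀ t₀ ht₀))
      exact (ContinuousAt.comp (f := fun z => z + t₀ • v) h1 (by fun_prop)).norm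
    refine h7.eventually_lt_const ?_
    show ‖g (z₀ + t₀ • v)‖ < m / 2
    rw [h0, norm_zero]; positivity
  filter_upwards [hev1, hev2, isOpen_ball.mem_nhds hz₀] with z h1 h2 hzρ
  by_contra hcon
  push Not at hcon
  have hnz : ∀ t ∈ closedBall t₀ e, g (z + t • v) ≠ 0 := fun t ht =>
    hcon t (closedBall_subset_ball he3 ht)
  have hd : DifferentiableOn ℂ (fun t : ℂ => (g (z + t • v))⁻¹) (closedBall t₀ e) := by
    intro t ht
    have h3 : DifferentiableAt ℂ (fun t : ℂ => g (z + t • v)) t :=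
      (hG z hzρ).differentiableAt (isOpen_ball.mem_nhds (hcb ht))
    exact (h3.inv (hnz t ht)).differentiableWithinAt
  have hdc : DiffContOnCl ℂ (fun t : ℂ => (g (z + t • v))⁻¹) (ball t₀ e) :=
    hd.diffContOnCl_ball subset_rfl
  have hbd := Complex.norm_le_of_forall_mem_frontier_norm_le isBounded_ball hdc (C := (m / 2)⁻¹)
    (by
      intro t ht
      rw [frontier_ball _ hepos.ne'] at ht
      rw [norm_inv]
      have := h1 t ht
      gcongr)
    (z := t₀) (subset_closure (mem_ball_self hepos))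
  rw [norm_inv] at hbd
  have h4 : 0 < ‖g (z + t₀ • v)‖ := norm_pos_iff.2 (hnz t₀ (mem_closedBall_self hepos.le))
  have h5 := (inv_le_inv₀ h4 (by positivity)).1 hbd
  linarith

/-- zeros are isolated. -/
theorem iso_zero {g : (Fin n → ℂ) → ℂ} {p v z₀ : Fin n → ℂ} {r ρ s s' : ℝ} {t₀ : ℂ}
    (hs : 0 < s) (hss' : s < s')
    (hg : DifferentiableOn ℂ g (ball p r)) (hz₀ : z₀ ∈ ball p ρ)
    (hmem : ∀ z ∈ ball p ρ, ∀ t ∈ ball (0 : ℂ) s', z + t • v ∈ ball p r)
    (hsph : ∀ z ∈ ball p ρ, ∀ t ∈ sphere (0 : ℂ) s, g (z + t • v) ≠ 0)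
    (ht₀ : t₀ ∈ ball (0 : ℂ) s') : ∀ᶠ t in 𝓝[≠] t₀, g (z₀ + t • v) ≠ 0 := by
  have hG : DifferentiableOn ℂ (fun t : ℂ => g (z₀ + t • v)) (ball 0 s') :=
    hg.comp (by fun_prop) (fun t ht => hmem z₀ hz₀ t ht)
  have han : AnalyticOnNhd ℂ (fun t : ℂ => g (z₀ + t • v)) (ball 0 s') :=
    hG.analyticOnNhd isOpen_ball
  rcases (han t₀ ht₀).eventually_eq_zero_or_eventually_ne_zero with h2 | h2
  · exfalso
    have h3 : (s : ℂ) ∈ sphere (0 : ℂ) s := by
      rw [mem_sphere_zero_iff_norm, Complex.norm_real, Real.norm_eq_abs, abs_of_pos hs]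
    exact hsph z₀ hz₀ s h3 (han.eqOn_zero_of_preconnected_of_eventuallyEq_zero
      (convex_ball (0 : ℂ) s').isPreconnected ht₀ h2
      (closedBall_subset_ball hss' (sphere_subset_closedBall h3)))
  · exact h2

/-- generic lines meet a reduced hypersurface simply. -/
theorem dense_simple {g : (Fin n → ℂ) → ℂ} {p v : Fin n → ℂ} {r ρ s s' : ℝ}
    (hs : 0 < s) (hss' : s < s') (hg : DifferentiableOn ℂ g (ball p r))
    (hmem : ∀ z ∈ ball p ρ, ∀ t ∈ ball (0 : ℂ) s', z + t • v ∈ ball p r)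
    (hsph : ∀ z ∈ ball p ρ, ∀ t ∈ sphere (0 : ℂ) s, g (z + t • v) ≠ 0)
    (hred : ∀ z ∈ ball p r, g z = 0 → ∀ N ∈ 𝓝 z, ∃ w ∈ N, w ∈ ball p r ∧ g w = 0 ∧
      fderiv ℂ g w ≠ 0)
    {U : Set (Fin n → ℂ)} (hU : IsOpen U) (hUρ : U ⊆ ball p ρ) (hUne : U.Nonempty) :
    ∃ z ∈ U, ∀ t ∈ ball (0 : ℂ) s, g (z + t • v) = 0 → fderiv ℂ g (z + t • v) v ≠ 0 := by
  classical
  by_contra hcon
  push Not at hcon
  have hsub : ball (0 : ℂ) s ⊆ ball 0 s' := ball_subset_ball hss'.le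
  have han : ∀ w ∈ ball p r, ContDiffAt ℂ ω g w := fun w hw =>
    (Vale.Agent.P268.analyticAt_of_differentiableOn isOpen_ball hg hw).contDiffAt
  have hder : ∀ w ∈ ball p r, ContDiffAt ℂ ω (fun z => fderiv ℂ g z v) w := fun w hw => by
    have h1 : ContDiffAt ℂ ω (fderiv ℂ g) w := (han w hw).fderiv_right (by simp)
    exact h1.clm_apply contDiffAt_const
  let c : ℕ × ℕ → ℂ := fun k => TopologicalSpace.denseSeq ℂ k.1
  let δ : ℕ × ℕ → ℝ := fun k => 1 / ((k.2 : ℝ) + 1)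
  let A : ℕ × ℕ → Set (Fin n → ℂ) := fun k => {z | z ∈ U ∧ closedBall (c k) (δ k) ⊆ ball 0 s ∧
    (∀ t ∈ sphere (c k) (δ k), g (z + t • v) ≠ 0) ∧ ∃ t ∈ ball (c k) (δ k), g (z + t • v) = 0 ∧
      fderiv ℂ g (z + t • v) v = 0 ∧ ∀ t' ∈ ball (c k) (δ k), g (z + t' • v) = 0 → t' = t}
  have hcov : ∀ z ∈ U, ∃ k, z ∈ A k := by
    intro z hz
    obtain ⟨t₀, ht₀, h1, h2⟩ := hcon z hz
    have hiso := iso_zero hs hss' hg (hUρ hz) hmem hsph (hsub ht₀)
    rw [eventually_nhdsWithin_iff, Metric.eventually_nhds_iff_ball] at hiso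
    obtain ⟨d, hd, hiso⟩ := hiso
    obtain ⟨d', hd', hball⟩ := Metric.isOpen_iff.1 isOpen_ball t₀ ht₀
    obtain ⟨j, hj⟩ := exists_nat_one_div_lt (show (0 : ℝ) < min d d' / 2 by positivity)
    have hjpos : (0 : ℝ) < 1 / ((j : ℝ) + 1) := by positivity
    obtain ⟨i, hi⟩ : ∃ i, dist t₀ (TopologicalSpace.denseSeq ℂ i) < 1 / ((j : ℝ) + 1) := by
      have := (TopologicalSpace.denseRange_denseSeq ℂ).exists_dist_lt t₀ hjpos
      exact this
    have hcb : closedBall (TopologicalSpace.denseSeq ℂ i) (1 / ((j : ℝ) + 1)) ⊆ ball t₀ (min d d') := by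
      intro t ht
      rw [mem_ball]
      rw [mem_closedBall] at ht
      calc dist t t₀ ≤ dist t (TopologicalSpace.denseSeq ℂ i) + dist (TopologicalSpace.denseSeq ℂ i) t₀ := dist_triangle _ _ _
        _ < min d d' / 2 + min d d' / 2 := by
            rw [dist_comm (TopologicalSpace.denseSeq ℂ i) t₀]
            linarith
        _ = min d d' := by ring
    have hmemb : t₀ ∈ ball (TopologicalSpace.denseSeq ℂ i) (1 / ((j : ℝ) + 1)) := hi
    refine ⟨(i, j), hz, ?_, ?_, t₀, hmemb, h1, h2, ?_⟩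
    · exact hcb.trans ((ball_subset_ball (min_le_right _ _)).trans hball)
    · intro t ht
      refine hiso t (ball_subset_ball (min_le_left _ _) (hcb (sphere_subset_closedBall ht))) ?_
      intro h
      rw [mem_singleton_iff] at h
      have h3 : dist t₀ (TopologicalSpace.denseSeq ℂ i) = 1 / ((j : ℝ) + 1) := by
        rw [← h]; exact mem_sphere.1 ht
      exact hi.ne h3
    · intro t' ht' h3
      by_contra hne
      exact hiso t' (ball_subset_ball (min_le_left _ _) (hcb (ball_subset_closedBall ht'))) hne h3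
  -- Baire
  have hdense := dense_iUnion_interior_of_closed (f := fun k => closure (A k) ∪ Uᶜ)
    (fun k => isClosed_closure.union hU.isClosed_compl) (by
      rw [eq_univ_iff_forall]
      intro z
      rw [mem_iUnion]
      by_cases hz : z ∈ U
      · obtain ⟨k, hk⟩ := hcov z hz
        exact ⟨k, Or.inl (subset_closure hk)⟩
      · exact ⟨(0, 0), Or.inr hz⟩)
  obtain ⟨z₁, hz₁U, hz₁⟩ := hdense.inter_open_nonempty U hU hUne
  rw [mem_iUnion] at hz₁
  obtain ⟨k, hz₁k⟩ := hz₁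
  set U₁ : Set (Fin n → ℂ) := U ∩ interior (closure (A k) ∪ Uᶜ) with hU₁
  have hU₁o : IsOpen U₁ := hU.inter isOpen_interior
  have hU₁A : ∀ z ∈ U₁, z ∈ closure (A k) := by
    rintro z ⟨hzU, hzi⟩
    rcases interior_subset hzi with h | h
    · exact h
    · exact absurd hzU h
  have hz₁1 : z₁ ∈ U₁ := ⟨hz₁U, hz₁k⟩
  obtain ⟨z₂, hz₂U₁, hz₂A⟩ := mem_closure_iff.1 (hU₁A z₁ hz₁1) U₁ hU₁o hz₁1
  obtain ⟨hz₂U, hcb, hz₂s, t₂, ht₂, hg₂, -, -⟩ := hz₂A
  have hbs : ball (c k) (δ k) ⊆ ball (0 : ℂ) s' :=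
    (ball_subset_closedBall.trans hcb).trans hsub
  -- a neighbourhood of `z₂`
  obtain ⟨ε, hε, hεb⟩ := Metric.isOpen_iff.1 isOpen_ball t₂ ht₂
  have hev : ∀ᶠ z in 𝓝 z₂, z ∈ U₁ ∧ ∃ t ∈ ball (c k) (δ k), g (z + t • v) = 0 := by
    filter_upwards [hU₁o.mem_nhds hz₂U₁,
      persist hs hss' hg (hUρ hz₂U) hmem hsph (hbs ht₂) hg₂ hε] with z h1 h2
    obtain ⟨t, ht, h3⟩ := h2
    exact ⟨h1, t, hεb ht, h3⟩
  obtain ⟨V, hV, hVo, hz₂V⟩ := _root_.eventually_nhds_iff.1 hev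
  -- uniqueness
  have huniq : ∀ z ∈ V, ∀ t ∈ ball (c k) (δ k), ∀ t' ∈ ball (c k) (δ k), g (z + t • v) = 0 →
      g (z + t' • v) = 0 → t = t' := by
    intro z hz t ht t' ht' h1 h2
    by_contra hne
    have hd : 0 < dist t t' := dist_pos.2 hne
    obtain ⟨ε₁, hε₁, hb₁⟩ := Metric.isOpen_iff.1 isOpen_ball t ht
    obtain ⟨ε₂, hε₂, hb₂⟩ := Metric.isOpen_iff.1 isOpen_ball t' ht'
    have hzU : z ∈ U := (hV z hz).1.1
    have e1 := persist hs hss' hg (hUρ hzU) hmem hsph (hbs ht) h1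
      (show 0 < min ε₁ (dist t t' / 2) by positivity)
    have e2 := persist hs hss' hg (hUρ hzU) hmem hsph (hbs ht') h2
      (show 0 < min ε₂ (dist t t' / 2) by positivity)
    obtain ⟨N, hN, hNo, hzN⟩ := _root_.eventually_nhds_iff.1 (e1.and e2)
    obtain ⟨z', hz'N, hz'A⟩ := mem_closure_iff.1 (hU₁A z (hV z hz).1) N hNo hzN
    obtain ⟨⟨a, ha, hga⟩, ⟨b, hb, hgb⟩⟩ := hN z' hz'N
    obtain ⟨-, -, -, t₃, -, -, -, hun⟩ := hz'A
    have ha' := hun a (hb₁ (ball_subset_ball (min_le_left _ _) ha)) hga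
    have hb' := hun b (hb₂ (ball_subset_ball (min_le_left _ _) hb)) hgb
    have hab : a = b := ha'.trans hb'.symm
    have h3 : dist a t < dist t t' / 2 := (mem_ball.1 ha).trans_le (min_le_right _ _)
    have h4 : dist b t' < dist t t' / 2 := (mem_ball.1 hb).trans_le (min_le_right _ _)
    have h5 : dist t t' ≤ dist t a + dist a t' := dist_triangle _ _ _
    rw [dist_comm t a] at h5
    rw [← hab] at h4
    linarith
  -- multiplicity
  have hmult : ∀ z ∈ V, ∀ t ∈ ball (c k) (δ k), g (z + t • v) = 0 →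
      fderiv ℂ g (z + t • v) v = 0 := by
    intro z hz t ht h1
    by_contra hne
    have hzU : z ∈ U := (hV z hz).1.1
    have hzm : z + t • v ∈ ball p r := hmem z (hUρ hzU) t (hbs ht)
    have hcont : ContinuousAt (fun q : (Fin n → ℂ) × ℂ => fderiv ℂ g (q.1 + q.2 • v) v) (z, t) := by
      have h2 : ContinuousAt (fun w => fderiv ℂ g w v) ((z, t).1 + (z, t).2 • v) :=
        (hder _ hzm).continuousAt
      exact ContinuousAt.comp (g := fun w => fderiv ℂ g w v)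
        (f := fun q : (Fin n → ℂ) × ℂ => q.1 + q.2 • v) h2 (by fun_prop)
    have hev2 : ∀ᶠ q in 𝓝 (z, t), fderiv ℂ g (q.1 + q.2 • v) v ≠ 0 := hcont.eventually_ne hne
    rw [nhds_prod_eq, Filter.eventually_prod_iff] at hev2
    obtain ⟨pa, hpa, pb, hpb, hab⟩ := hev2
    obtain ⟨ε₁, hε₁, hb₁⟩ := Metric.isOpen_iff.1 isOpen_ball t ht
    obtain ⟨ε₂, hε₂, hb₂⟩ := Metric.eventually_nhds_iff_ball.1 hpb
    have e1 := persist hs hss' hg (hUρ hzU) hmem hsph (hbs ht) h1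
      (show 0 < min ε₁ ε₂ by positivity)
    obtain ⟨N, hN, hNo, hzN⟩ := _root_.eventually_nhds_iff.1 (e1.and hpa)
    obtain ⟨z', hz'N, hz'A⟩ := mem_closure_iff.1 (hU₁A z (hV z hz).1) N hNo hzN
    obtain ⟨⟨a, ha, hga⟩, hpz'⟩ := hN z' hz'N
    obtain ⟨-, -, -, t₃, -, -, hm₃, hun⟩ := hz'A
    have ha' := hun a (hb₁ (ball_subset_ball (min_le_left _ _) ha)) hga
    rw [← ha'] at hm₃
    exact hab hpz' (hb₂ a (ball_subset_ball (min_le_right _ _) ha)) hm₃
  -- a smooth point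
  have hP : z₂ + t₂ • v ∈ ball p r := hmem z₂ (hUρ hz₂U) t₂ (hbs ht₂)
  have hshift : Continuous (fun w : Fin n → ℂ => w - t₂ • v) := by fun_prop
  obtain ⟨w, hwN, hwr, hgw, hdw⟩ := hred _ hP hg₂ ((fun w : Fin n → ℂ => w - t₂ • v) ⁻¹' V)
    ((hVo.preimage hshift).mem_nhds (by
      show z₂ + t₂ • v - t₂ • v ∈ V
      rw [add_sub_cancel_right]; exact hz₂V))
  have hvan : ∀ᶠ w' in 𝓝 w, g w' = 0 → fderiv ℂ g w' v = 0 := by
    filter_upwards [(hVo.preimage hshift).mem_nhds hwN] with w' hw' h0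
    have h1 := hmult (w' - t₂ • v) hw' t₂ ht₂ (by rw [sub_add_cancel]; exact h0)
    rwa [sub_add_cancel] at h1
  have hC : ∃ C : ℝ, ∀ᶠ z in 𝓝 w, ‖fderiv ℂ g z v‖ ≤ C * ‖g z‖ :=
    flat_bound (g := g) (g' := fun z => fderiv ℂ g z v) ((han w hwr).of_le (by simp))
      ((hder w hwr).of_le (by simp)) hdw hgw hvan
  obtain ⟨C, hC⟩ := hC
  -- the real line through `w`
  have hline : ContinuousAt (fun τ : ℝ => w + (τ : ℂ) • v) 0 := by fun_prop
  have hl0 : w + ((0 : ℝ) : ℂ) • v = w := by simp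
  have hball : ball p r ∈ 𝓝 w := isOpen_ball.mem_nhds hwr
  have e3 : ∀ᶠ τ : ℝ in 𝓝 0, (‖fderiv ℂ g (w + (τ : ℂ) • v) v‖ ≤ C * ‖g (w + (τ : ℂ) • v)‖ ∧
      w + (τ : ℂ) • v ∈ ball p r) := by
    have h1 : Tendsto (fun τ : ℝ => w + (τ : ℂ) • v) (𝓝 0) (𝓝 w) := by
      have := hline.tendsto
      rwa [hl0] at this
    exact h1.eventually (hC.and hball)
  have e4 : ∀ᶠ τ : ℝ in 𝓝 0, t₂ + (τ : ℂ) ∈ ball (c k) (δ k) := by
    have h1 : ContinuousAt (fun τ : ℝ => t₂ + (τ : ℂ)) 0 := by fun_prop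
    refine h1.eventually (isOpen_ball.mem_nhds ?_)
    simpa using ht₂
  obtain ⟨ε₀, hε₀, hb₀⟩ := Metric.eventually_nhds_iff_ball.1 (e3.and e4)
  set a : ℝ := ε₀ / 2 with ha
  have hapos : 0 < a := by positivity
  have hin : ∀ τ ∈ Icc (0 : ℝ) a, τ ∈ ball (0 : ℝ) ε₀ := by
    intro τ hτ
    rw [mem_ball, Real.dist_eq, sub_zero, abs_of_nonneg hτ.1]
    have := hτ.2
    rw [ha] at this
    linarith
  have hdline : ∀ τ ∈ Icc (0 : ℝ) a,
      HasDerivAt (fun τ : ℝ => g (w + (τ : ℂ) • v)) (fderiv ℂ g (w + (τ : ℂ) • v) v) τ := by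
    intro τ hτ
    have h1 := (hb₀ τ (hin τ hτ)).1.2
    have h2 : HasFDerivAt g (fderiv ℂ g (w + (τ : ℂ) • v)) (w + (τ : ℂ) • v) :=
      (hg.differentiableAt (isOpen_ball.mem_nhds h1)).hasFDerivAt
    have h3 : HasDerivAt (fun t : ℂ => w + t • v) v (τ : ℂ) := by
      simpa using ((hasDerivAt_id (τ : ℂ)).smul_const v).const_add w
    exact (h2.comp_hasDerivAt (τ : ℂ) h3).comp_ofReal
  have hzero := eq_zero_of_abs_deriv_le_mul_abs_self_of_eq_zero_right
    (f := fun τ : ℝ => g (w + (τ : ℂ) • v)) (f' := fun τ : ℝ => fderiv ℂ g (w + (τ : ℂ) • v) v)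
    (K := C) (a := 0) (b := a)
    (fun τ hτ => (hdline τ hτ).continuousAt.continuousWithinAt)
    (fun τ hτ => (hdline τ ⟨hτ.1, hτ.2.le⟩).hasDerivWithinAt)
    (by show g (w + ((0 : ℝ) : ℂ) • v) = 0; rw [hl0]; exact hgw)
    (fun τ hτ => (hb₀ τ (hin τ ⟨hτ.1, hτ.2.le⟩)).1.1) a ⟨hapos.le, le_rfl⟩
  have hza : g ((w - t₂ • v) + (t₂ + (a : ℂ)) • v) = 0 := by
    have : (w - t₂ • v) + (t₂ + (a : ℂ)) • v = w + (a : ℂ) • v := by
      rw [add_smul]; abel
    rw [this]; exact hzero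
  have hz0 : g ((w - t₂ • v) + t₂ • v) = 0 := by rw [sub_add_cancel]; exact hgw
  have := huniq (w - t₂ • v) hwN t₂ ht₂ (t₂ + (a : ℂ))
    (hb₀ a (hin a ⟨hapos.le, le_rfl⟩)).2 hz0 hza
  have h9 : (a : ℂ) = 0 := by
    have h10 : t₂ + (a : ℂ) = t₂ + 0 := by rw [add_zero]; exact this.symm
    exact add_left_cancel h10
  exact hapos.ne' (by exact_mod_cast h9)

/-- division by a reduced equation. -/
theorem division {g g' : (Fin n → ℂ) → ℂ} {p : Fin n → ℂ} {r : ℝ} (hr : 0 < r)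
    (hg : DifferentiableOn ℂ g (ball p r)) (hg' : DifferentiableOn ℂ g' (ball p r))
    (hz : ∀ z ∈ ball p r, g z = 0 → g' z = 0)
    (hred : ∀ z ∈ ball p r, g z = 0 → ∀ N ∈ 𝓝 z, ∃ w ∈ N, w ∈ ball p r ∧ g w = 0 ∧
      fderiv ℂ g w ≠ 0)
    {y : Fin n → ℂ} (hy : y ∈ ball p r) (hne : g y ≠ 0) :
    ∃ ρ > 0, ∃ F : (Fin n → ℂ) → ℂ, DifferentiableOn ℂ F (ball p ρ) ∧
      ∀ z ∈ ball p ρ, g' z = F z * g z := by
  have hOo : IsOpen (ball p r ∩ {z | g z ≠ 0}) := by
    have : ball p r ∩ {z | g z ≠ 0} = ball p r ∩ g ⁻¹' {0}ᶜ := by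
      ext z; simp
    rw [this]
    exact hg.continuousOn.isOpen_inter_preimage isOpen_ball isOpen_compl_singleton
  obtain ⟨v, s, s', ρ, T, hs, hss', hρ0, hρr, hT, hsT, hATO, hin⟩ :=
    Vale.Agent.P271.H408.ext_geom hr hg hy hne hOo
  have hsph : ∀ z ∈ ball p ρ, ∀ t ∈ sphere (0 : ℂ) s, g (z + t • v) ≠ 0 := fun z hz t ht =>
    (hATO z hz t (hsT ht)).2
  have hT' : IsOpen (T \ {0}) := hT.sdiff isClosed_singleton
  have hsT' : sphere (0 : ℂ) s ⊆ T \ {0} := by
    intro t ht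
    refine ⟨hsT ht, ?_⟩
    rw [Set.mem_singleton_iff]
    intro h0
    rw [mem_sphere_zero_iff_norm, h0, norm_zero] at ht
    exact hs.ne ht
  set F : (Fin n → ℂ) → ℂ := fun z => (2 * Real.pi * Complex.I : ℂ)⁻¹ •
      ∮ t in C(0, s), t⁻¹ * (g' (z + t • v) / g (z + t • v)) with hF
  have hFd : DifferentiableOn ℂ F (ball p ρ) := by
    refine (Vale.Agent.P268.differentiableOn_circleIntegral
      (G := fun q : (Fin n → ℂ) × ℂ => q.2⁻¹ * (g' (q.1 + q.2 • v) / g (q.1 + q.2 • v)))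
      hs.le isOpen_ball hT' hsT' ?_).const_smul (2 * Real.pi * Complex.I : ℂ)⁻¹
    apply DifferentiableOn.mul
    · apply DifferentiableOn.inv (by fun_prop)
      intro q hq
      exact hq.2.2
    · have k1 : DifferentiableOn ℂ (fun q : (Fin n → ℂ) × ℂ => g' (q.1 + q.2 • v))
          (ball p ρ ×ˢ (T \ {0})) := by
        refine hg'.comp (by fun_prop) ?_
        rintro ⟨z, t⟩ ⟨hz, ht⟩
        exact (hATO z hz t ht.1).1
      have k2 : DifferentiableOn ℂ (fun q : (Fin n → ℂ) × ℂ => g (q.1 + q.2 • v))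
          (ball p ρ ×ˢ (T \ {0})) := by
        refine hg.comp (by fun_prop) ?_
        rintro ⟨z, t⟩ ⟨hz, ht⟩
        exact (hATO z hz t ht.1).1
      have k3 : DifferentiableOn ℂ (fun q : (Fin n → ℂ) × ℂ => (g (q.1 + q.2 • v))⁻¹)
          (ball p ρ ×ˢ (T \ {0})) := by
        refine DifferentiableOn.inv k2 ?_
        rintro ⟨z, t⟩ ⟨hz, ht⟩
        exact (hATO z hz t ht.1).2
      simp only [div_eq_mul_inv]
      exact DifferentiableOn.mul k1 k3
  refine ⟨ρ, hρ0, F, hFd, ?_⟩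
  intro z hzρ
  by_contra hne'
  have hc1 : ContinuousAt g' z := hg'.continuousOn.continuousAt
    (isOpen_ball.mem_nhds (ball_subset_ball hρr hzρ))
  have hc2 : ContinuousAt (fun z => F z * g z) z :=
    (hFd.continuousOn.continuousAt (isOpen_ball.mem_nhds hzρ)).mul
      (hg.continuousOn.continuousAt (isOpen_ball.mem_nhds (ball_subset_ball hρr hzρ)))
  have h5 := (hc1.ne_iff_eventually_ne hc2).1 hne'
  obtain ⟨V, hV, hVo, hzV⟩ := _root_.eventually_nhds_iff.1 h5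
  obtain ⟨z', hz'V, hz's⟩ := dense_simple hs hss' hg hin hsph hred (hVo.inter isOpen_ball)
    inter_subset_right ⟨z, hzV, hzρ⟩
  apply hV z' hz'V.1
  have hGd : ∀ (h : (Fin n → ℂ) → ℂ), DifferentiableOn ℂ h (ball p r) →
      DifferentiableOn ℂ (fun t : ℂ => h (z' + t • v)) (ball 0 s') := fun h hh =>
    hh.comp (by fun_prop) (fun t ht => hin z' hz'V.2 t ht)
  have key := ratio_cauchy (G := fun t => g (z' + t • v)) (G' := fun t => g' (z' + t • v)) hs hss'
    (hGd g hg) (hGd g' hg') (fun t ht h0 => hz _ (hin z' hz'V.2 t ht) h0)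
    (hsph z' hz'V.2) (fun t ht h0 => by
      have h6 := hz's t ht h0
      have h7 : HasFDerivAt g (fderiv ℂ g (z' + t • v)) (z' + t • v) :=
        (hg.differentiableAt (isOpen_ball.mem_nhds (hin z' hz'V.2 t
          (ball_subset_ball hss'.le ht)))).hasFDerivAt
      have h8 : HasDerivAt (fun t : ℂ => z' + t • v) v t := by
        simpa using ((hasDerivAt_id t).smul_const v).const_add z'
      have h9 : HasDerivAt (fun t : ℂ => g (z' + t • v)) (fderiv ℂ g (z' + t • v) v) t :=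
        h7.comp_hasDerivAt t h8
      rw [h9.deriv]
      exact h6)
  simp only [zero_smul, add_zero] at key
  exact key

end several

end Vale.Agent.P281.H76
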