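import Vale.Agent.P281.H76.Red

/-! P281 (helper76): division by reduced local equations, on manifolds. -/

namespace Vale.Agent.P281.H76

open scoped Manifold ContDiff Topology ENNReal
open Set Filter Metric MeasureTheory

set_option linter.all false

universe u

/-- division by a reduced equation in a finite dimensional space. -/
theorem div_flat {E : Type} [NormedAddCommGroup E] [NormedSpace ℂ E] [FiniteDimensional ℂ E]
    {g g' : E → ℂ} {x : E} (hg : ∀ᶠ z in 𝓝 x, DifferentiableAt ℂ g z)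
    (hg' : ∀ᶠ z in 𝓝 x, DifferentiableAt ℂ g' z)
    (hz : ∀ᶠ z in 𝓝 x, g z = 0 → g' z = 0)
    (hred : ∀ᶠ z in 𝓝 x, g z = 0 → ∃ᶠ w in 𝓝 z, g w = 0 ∧ fderiv ℂ g w ≠ 0)
    (hne : ∃ᶠ z in 𝓝 x, g z ≠ 0) :
    ∃ F : E → ℂ, ContDiffAt ℂ ω F x ∧ ∀ᶠ z in 𝓝 x, g' z = F z * g z := by
  let L : E ≃L[ℂ] (Fin (Module.finrank ℂ E) → ℂ) := ContinuousLinearEquiv.ofFinrankEq (by simp)
  have hLc : ContinuousAt L.symm (L x) := L.symm.continuous.continuousAt
  have hT : Tendsto L.symm (𝓝 (L x)) (𝓝 x) := by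
    have := hLc.tendsto
    rwa [L.symm_apply_apply] at this
  have hT' : Tendsto L (𝓝 x) (𝓝 (L x)) := L.continuous.continuousAt.tendsto
  have hall := hT.eventually ((hg.and hg').and (hz.and hred))
  obtain ⟨r, hr, hball⟩ := Metric.eventually_nhds_iff_ball.1 hall
  have hne' : ∃ᶠ z in 𝓝 (L x), g (L.symm z) ≠ 0 := by
    have := hT'.frequently (p := fun z => g (L.symm z) ≠ 0) (by simpa using hne)
    exact this
  obtain ⟨y, hy0, hyb⟩ := (hne'.and_eventually (ball_mem_nhds (L x) hr)).exists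
  have h1 : DifferentiableOn ℂ (fun z => g (L.symm z)) (ball (L x) r) := by
    intro z hz
    exact (((hball z hz).1.1).comp z L.symm.differentiableAt).differentiableWithinAt
  have h2 : DifferentiableOn ℂ (fun z => g' (L.symm z)) (ball (L x) r) := by
    intro z hz
    exact (((hball z hz).1.2).comp z L.symm.differentiableAt).differentiableWithinAt
  obtain ⟨ρ, hρ, F, hF, hFe⟩ := division hr h1 h2 (fun z hz h0 => (hball z hz).2.1 h0) (by
      intro z hzb h0 N hN
      have h3 := (hball z hzb).2.2 h0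
      have hTz : Tendsto L (𝓝 (L.symm z)) (𝓝 z) := by
        have := (L.continuous.continuousAt (x := L.symm z)).tendsto
        rwa [L.apply_symm_apply] at this
      have hN' : ∀ᶠ w in 𝓝 (L.symm z), L w ∈ N ∩ ball (L x) r :=
        hTz.eventually (inter_mem hN (isOpen_ball.mem_nhds hzb))
      obtain ⟨w, ⟨hw1, hw2⟩, hw3⟩ := (h3.and_eventually hN').exists
      refine ⟨L w, hw3.1, hw3.2, by simpa using hw1, ?_⟩
      intro h4
      apply hw2
      have h5 : HasFDerivAt g (fderiv ℂ g (L.symm (L w))) (L.symm (L w)) :=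
        ((hball (L w) hw3.2).1.1).hasFDerivAt
      have h6 : fderiv ℂ (fun z => g (L.symm z)) (L w) =
          (fderiv ℂ g (L.symm (L w))).comp (L.symm : (Fin (Module.finrank ℂ E) → ℂ) →L[ℂ] E) :=
        (h5.comp (L w) L.symm.hasFDerivAt).fderiv
      rw [h6, L.symm_apply_apply] at h4
      refine ContinuousLinearMap.ext fun ξ => ?_
      have := congrArg (fun A : (Fin (Module.finrank ℂ E) → ℂ) →L[ℂ] ℂ => A (L ξ)) h4
      simpa using this) hyb hy0
  refine ⟨fun z => F (L z), ?_, ?_⟩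
  · have h1 : ContDiffAt ℂ ω F (L x) :=
      (Vale.Agent.P268.analyticAt_of_differentiableOn isOpen_ball hF
        (mem_ball_self hρ)).contDiffAt
    exact h1.comp x L.contDiff.contDiffAt
  · filter_upwards [hT'.eventually (ball_mem_nhds (L x) hρ)] with z hz
    have := hFe (L z) hz
    simpa using this

variable {E : Type} [NormedAddCommGroup E] [NormedSpace ℂ E] [FiniteDimensional ℂ E]
variable {X : Type u} [TopologicalSpace X] [ChartedSpace E X] [IsManifold 𝓘(ℂ, E) ω X]

omit [FiniteDimensional ℂ E] [IsManifold 𝓘(ℂ, E) ω X] in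
/-- the zero set of a local equation is reduced near each of its points. -/
theorem red_freq {D : Set X} {g : X → ℂ} {x : X} (h : IsLocalEq E D g x) :
    ∀ᶠ z in 𝓝 x, g z = 0 → ∃ᶠ w in 𝓝 z, g w = 0 ∧ dif E g w ≠ 0 := by
  obtain ⟨W, hW, hxW, h1, h2, h3⟩ := h
  filter_upwards [hW.mem_nhds hxW] with z hz h0
  have hcl := h3 ⟨(h2 z hz).2 h0, hz⟩
  rw [mem_closure_iff_frequently] at hcl
  refine (hcl.and_eventually (hW.mem_nhds hz)).mono fun w hw => ?_
  exact ⟨(h2 w hw.2).1 hw.1.1, hw.1.2⟩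

/-- division on a manifold. -/
theorem divides {D : Set X} {g g' : X → ℂ} {x : X} (h : IsLocalEq E D g x)
    (h' : IsLocalEq E D g' x) : ∃ F : X → ℂ, HolV E F x ∧ ∀ᶠ z in 𝓝 x, g' z = F z * g z := by
  set φ := chartAt E x with hφ
  have hx : x ∈ φ.source := mem_chart_source E x
  have hcs : Tendsto φ.symm (𝓝 (φ x)) (𝓝 x) := by
    have := (φ.continuousAt_symm (φ.map_source hx)).tendsto
    rwa [φ.left_inv hx] at this
  have hc : Tendsto φ (𝓝 x) (𝓝 (φ x)) := (φ.continuousAt hx).tendsto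
  have htg : ∀ᶠ w in 𝓝 (φ x), w ∈ φ.target := φ.open_target.mem_nhds (φ.map_source hx)
  have hzero : ∀ᶠ z in 𝓝 x, g z = 0 → g' z = 0 := by
    filter_upwards [h.eventually, h'.eventually] with z h1 h2
    rw [← h1.mem_iff, ← h2.mem_iff]; exact id
  obtain ⟨F, hF, hFe⟩ := div_flat (g := g ∘ φ.symm) (g' := g' ∘ φ.symm) (x := φ x)
    (by
      filter_upwards [hcs.eventually h.holAt.eventually, htg] with w hw hwt
      have hws : φ.symm w ∈ φ.source := φ.map_target hwt
      have := (hw.rep hws).differentiableAt (by simp)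
      rwa [← hφ, φ.right_inv hwt] at this)
    (by
      filter_upwards [hcs.eventually h'.holAt.eventually, htg] with w hw hwt
      have hws : φ.symm w ∈ φ.source := φ.map_target hwt
      have := (hw.rep hws).differentiableAt (by simp)
      rwa [← hφ, φ.right_inv hwt] at this)
    (hcs.eventually hzero)
    (by
      filter_upwards [hcs.eventually (red_freq h), hcs.eventually h.holAt.eventually.eventually_nhds,
        htg] with w hw hwh hwt hw0
      have hws : φ.symm w ∈ φ.source := φ.map_target hwt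
      have h1 := hw hw0
      have hsrc : ∀ᶠ z in 𝓝 (φ.symm w), z ∈ φ.source := φ.open_source.mem_nhds hws
      have h2 := h1.and_eventually (hsrc.and hwh)
      have hTw : Tendsto φ (𝓝 (φ.symm w)) (𝓝 w) := by
        have := (φ.continuousAt hws).tendsto
        rwa [φ.right_inv hwt] at this
      refine hTw.frequently (p := fun w => (g ∘ φ.symm) w = 0 ∧ fderiv ℂ (g ∘ φ.symm) w ≠ 0)
        (h2.mono fun z hz => ?_)
      obtain ⟨⟨hz0, hzd⟩, hzs, hzh⟩ := hz
      refine ⟨by simpa only [Function.comp_apply, φ.left_inv hzs] using hz0, fun h0 => hzd ?_⟩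
      rw [dif_eq_dV, dV_eq_chart (x₀ := x) hzs hzh, ← hφ, h0]
      ext; simp only [ContinuousLinearMap.zero_comp, zero_apply])
    (by
      have : ∃ᶠ z in 𝓝 x, g (φ.symm (φ z)) ≠ 0 := by
        refine ((frequently_ne h).and_eventually (φ.open_source.mem_nhds hx)).mono fun z hz => ?_
        rw [φ.left_inv hz.2]; exact hz.1
      exact hc.frequently (p := fun w => g (φ.symm w) ≠ 0) this)
  refine ⟨fun z => F (φ z), ?_, ?_⟩
  · exact HolV.comp_contDiff hF (HolV.chart hx)
  · filter_upwards [hc.eventually hFe, φ.open_source.mem_nhds hx] with z hz hzs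
    simpa only [Function.comp_apply, φ.left_inv hzs] using hz

/-- `IsLocalEq.bound` without smoothness. -/
theorem bound_red {D : Set X} {g g' : X → ℂ} {x : X} (h : IsLocalEq E D g x)
    (h' : IsLocalEq E D g' x) : ∃ C : ℝ, ∀ᶠ z in 𝓝 x, ‖g' z‖ ≤ C * ‖g z‖ := by
  obtain ⟨F, hF, hFe⟩ := divides h h'
  refine ⟨‖F x‖ + 1, ?_⟩
  have h1 : ∀ᶠ z in 𝓝 x, ‖F z‖ < ‖F x‖ + 1 :=
    hF.continuousAt.norm.eventually_lt_const (by linarith)
  filter_upwards [h1, hFe] with z hz1 hz2
  rw [hz2, norm_mul]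
  exact mul_le_mul_of_nonneg_right hz1.le (norm_nonneg _)

/-- two local equations of a hypersurface differ by a unit. -/
theorem unit_ratio_red {D : Set X} {g g' : X → ℂ} {x : X} (h : IsLocalEq E D g x)
    (h' : IsLocalEq E D g' x) :
    ∃ w : X → ℂ, HolV E w x ∧ w x ≠ 0 ∧ ∀ᶠ z in 𝓝 x, g z = w z * g' z := by
  obtain ⟨w, hw, hwe⟩ := divides h' h
  obtain ⟨w', hw', hwe'⟩ := divides h h'
  refine ⟨w, hw, ?_, hwe⟩
  intro h0
  have hprod : ∀ᶠ z in 𝓝 x, g z ≠ 0 → w z * w' z = 1 := by
    filter_upwards [hwe, hwe'] with z h1 h2 hg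
    have h3 : g z = w z * (w' z * g z) := by rw [← h2]; exact h1
    have h4 : (w z * w' z - 1) * g z = 0 := by linear_combination -h3
    rcases mul_eq_zero.1 h4 with h5 | h5
    · exact sub_eq_zero.1 h5
    · exact absurd h5 hg
  have hcont : ContinuousAt (fun z => w z * w' z) x := (hw.mul hw').continuousAt
  have hlt : ∀ᶠ z in 𝓝 x, w z * w' z ≠ 1 := by
    refine hcont.eventually_ne ?_
    rw [h0, zero_mul]; exact zero_ne_one
  obtain ⟨z, hz1, hz2, hz3⟩ := ((frequently_ne h).and_eventually (hprod.and hlt)).exists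
  exact hz3 (hz2 hz1)

end Vale.Agent.P281.H76
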