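import Vale.Agent.P281.H76.Low
import Vale.Agent.P281.H76.FibKod

/-! P281 (helper76): log maps to projective bundles, for arbitrary boundaries. -/

namespace Vale.Agent.P281.H76.S

open scoped Manifold ContDiff Topology ENNReal
open Set Filter Metric

set_option linter.all false

universe u

/-- a rational boundary (no condition on the singularities). -/
structure IsBdry (E : Type) [NormedAddCommGroup E] [NormedSpace ℂ E] {X : Type u}
    [TopologicalSpace X] [ChartedSpace E X] (Δ : Set X → ℝ) : Prop where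
  finite : {D | Δ D ≠ 0}.Finite
  prime : ∀ D, Δ D ≠ 0 → IsPrimeDivisor E D
  rational : ∀ D, ∃ q : ℚ, Δ D = q ∧ 0 ≤ q ∧ q ≤ 1

section Pull

variable {E : Type} [NormedAddCommGroup E] [NormedSpace ℂ E] [FiniteDimensional ℂ E]
variable {X X' : Type u} [TopologicalSpace X] [ChartedSpace E X] [IsManifold 𝓘(ℂ, E) ω X]
  [TopologicalSpace X'] [ChartedSpace E X'] [IsManifold 𝓘(ℂ, E) ω X']

/-- products of local equations with exponents `k` -/
theorem prod_unit {k : Set X → ℕ} {x : X} {T T' : Finset (Set X)} {g g' : Set X → X → ℂ}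
    (hT : ∀ D, k D ≠ 0 → D ∈ T) (hT' : ∀ D, k D ≠ 0 → D ∈ T')
    (hg : ∀ D ∈ T, IsLocalEq E D (g D) x) (hg' : ∀ D ∈ T', IsLocalEq E D (g' D) x) :
    ∃ w : X → ℂ, HolV E w x ∧ w x ≠ 0 ∧
      ∀ᶠ z in 𝓝 x, ∏ D ∈ T, g D z ^ k D = w z * ∏ D ∈ T', g' D z ^ k D := by
  classical
  have hex : ∀ D : Set X, ∃ w : X → ℂ, HolV E w x ∧ w x ≠ 0 ∧
      (k D ≠ 0 → ∀ᶠ z in 𝓝 x, g D z = w z * g' D z) := by
    intro D
    by_cases hD : k D = 0
    · exact ⟨fun _ => 1, HolV.const _ _, one_ne_zero, fun h => absurd hD h⟩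
    · obtain ⟨w, h1, h2, h3⟩ := unit_ratio_red (hg D (hT D hD)) (hg' D (hT' D hD))
      exact ⟨w, h1, h2, fun _ => h3⟩
  choose w hw hw0 hwe using hex
  set T1 : Finset (Set X) := T.filter (fun D => k D ≠ 0) with hT1
  have hT1' : T1 = T'.filter (fun D => k D ≠ 0) := by
    ext D
    simp only [hT1, Finset.mem_filter]
    constructor
    · rintro ⟨_, h2⟩; exact ⟨hT' D h2, h2⟩
    · rintro ⟨_, h2⟩; exact ⟨hT D h2, h2⟩
  have hprod1 : ∀ z, ∏ D ∈ T, g D z ^ k D = ∏ D ∈ T1, g D z ^ k D := by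
    intro z
    rw [hT1, Finset.prod_filter]
    refine Finset.prod_congr rfl fun D _ => ?_
    by_cases hkD : k D = 0 <;> simp [hkD]
  have hprod2 : ∀ z, ∏ D ∈ T', g' D z ^ k D = ∏ D ∈ T1, g' D z ^ k D := by
    intro z
    rw [hT1', Finset.prod_filter]
    refine Finset.prod_congr rfl fun D _ => ?_
    by_cases hkD : k D = 0 <;> simp [hkD]
  refine ⟨fun z => ∏ D ∈ T1, w D z ^ k D, HolV.prod fun D _ => (hw D).pow _,
    Finset.prod_ne_zero_iff.2 fun D _ => pow_ne_zero _ (hw0 D), ?_⟩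
  have hall : ∀ᶠ z in 𝓝 x, ∀ D ∈ T1, g D z = w D z * g' D z := by
    rw [Finset.eventually_all]
    intro D hD
    rw [hT1, Finset.mem_filter] at hD
    exact hwe D hD.2
  filter_upwards [hall] with z hz
  rw [hprod1, hprod2, ← Finset.prod_mul_distrib]
  refine Finset.prod_congr rfl fun D hD => ?_
  rw [hz D hD, mul_pow]

theorem pull_section {q : X' → X} (hq : ∀ x, HolM E E q x) {m₀ : ℕ} {k₀' : Set X' → ℕ}
    {k₀ : Set X → ℕ} (hcr : ∀ x', ∃ u, LogAt E q m₀ k₀' k₀ x' u)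
    (hG : Dense {z | ∀ D, k₀ D ≠ 0 → q z ∉ D})
    {m₁ : ℕ} (hm₁ : 0 < m₁) {s : X → ℂ}
    (hs : IsSection E (fun (D : Set X) z g => IsLocalEq E D g z) (m₀ * m₁)
      (fun D => k₀ D * m₁) s) :
    ∃ s' : X' → ℂ, IsSection E (fun (D : Set X') z g => IsLocalEq E D g z) (m₀ * m₁)
      (fun D => k₀' D * m₁) s' ∧
      ∀ z, (∀ D, k₀ D ≠ 0 → q z ∉ D) → (∀ D, k₀' D ≠ 0 → z ∉ D) →
        s' z = s (q z) * (dM E E q z).det ^ (m₀ * m₁) := by
  classical
  obtain ⟨s', hs', hs'e⟩ := glue_section (X := X') (E := E) (m := m₀ * m₁)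
    (k := fun D => k₀' D * m₁) hG (s₀ := fun z => s (q z) * (dM E E q z).det ^ (m₀ * m₁)) (by
      intro x'
      obtain ⟨u, T', g', T, g, b, hT', hg', hT, hg, hb, hu, hev⟩ := hcr x'
      obtain ⟨TS, gS, aS, hTS, hgS, haS, hevS⟩ := hs (q x')
      obtain ⟨w, hw, hw0, hwe⟩ := prod_unit (k := fun D => k₀ D) (x := q x') hT
        (fun D hD => hTS D (Nat.mul_ne_zero hD hm₁.ne')) hg hgS
      refine ⟨T', g', fun z => aS (q z) * u z ^ m₁ * w (q z) ^ m₁,
        fun D hD => hT' D (left_ne_zero_of_mul hD), hg', ?_, ?_⟩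
      · exact HolV.mul (HolV.mul (HolV.comp (h := aS) haS (hq x')) (hu.pow m₁))
          ((HolV.comp hw (hq x')).pow m₁)
      · have hqc := (hq x').continuousAt
        have e5 : ∀ᶠ z in 𝓝 x', ∀ D ∈ TS, IsLocalEq E D (gS D) (q z) := by
          apply hqc.eventually (p := fun y => ∀ D ∈ TS, IsLocalEq E D (gS D) y)
          rw [Finset.eventually_all]
          exact fun i hi => (hgS i hi).eventually
        filter_upwards [hev, hqc.eventually hevS, hqc.eventually hwe, jac_comp (hq x'), e5]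
          with z h1 h2 h3 h4 h5 hzG
        have hQS : ∏ D ∈ TS, gS D (q z) ^ k₀ D ≠ 0 := by
          refine Finset.prod_ne_zero_iff.2 fun D hD => ?_
          by_cases hk : k₀ D = 0
          · simp [hk]
          · exact pow_ne_zero _ fun h0 => hzG D hk ((h5 D hD).mem_iff.2 h0)
        have hQS1 : ∏ D ∈ TS, gS D (q z) ^ (k₀ D * m₁) = (∏ D ∈ TS, gS D (q z) ^ k₀ D) ^ m₁ := by
          rw [← Finset.prod_pow]
          exact Finset.prod_congr rfl fun i _ => by rw [pow_mul]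
        have hP1 : ∏ D ∈ T', g' D z ^ (k₀' D * m₁) = (∏ D ∈ T', g' D z ^ k₀' D) ^ m₁ := by
          rw [← Finset.prod_pow]
          exact Finset.prod_congr rfl fun i _ => by rw [pow_mul]
        have h2' := h2 (by rw [hQS1]; exact pow_ne_zero _ hQS)
        rw [hQS1] at h2'
        obtain ⟨h1a, h1b⟩ := h1
        rw [h3] at h1b
        rw [h1a] at h4
        show s (q z) * (dM E E q z).det ^ (m₀ * m₁) * ∏ D ∈ T', g' D z ^ (k₀' D * m₁) =
          aS (q z) * u z ^ m₁ * w (q z) ^ m₁ * jac E (chartAt E x') z ^ (m₀ * m₁)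
        rw [hP1]
        set P := ∏ D ∈ T', g' D z ^ k₀' D with hP
        set Q := ∏ D ∈ TS, gS D (q z) ^ k₀ D with hQ
        set dq := (dM E E q z).det with hdq
        set J := jac E (chartAt E x') z with hJ
        set J' := jac E (chartAt E (q x')) (q z) with hJ'
        have hQ0 : Q ^ m₁ ≠ 0 := pow_ne_zero _ hQS
        refine mul_right_cancel₀ hQ0 ?_
        calc s (q z) * dq ^ (m₀ * m₁) * P ^ m₁ * Q ^ m₁
            = (s (q z) * Q ^ m₁) * dq ^ (m₀ * m₁) * P ^ m₁ := by ring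
          _ = aS (q z) * (J' * dq) ^ (m₀ * m₁) * P ^ m₁ := by
              rw [h2', mul_pow]; ring
          _ = aS (q z) * (b z * J) ^ (m₀ * m₁) * P ^ m₁ := by rw [← h4]
          _ = aS (q z) * J ^ (m₀ * m₁) * (b z ^ m₀ * P) ^ m₁ := by
              rw [mul_pow, mul_pow, pow_mul (b z)]; ring
          _ = aS (q z) * J ^ (m₀ * m₁) * (u z * (w (q z) * Q)) ^ m₁ := by rw [h1b]
          _ = aS (q z) * u z ^ m₁ * w (q z) ^ m₁ * J ^ (m₀ * m₁) * Q ^ m₁ := by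
              rw [mul_pow, mul_pow]; ring)
  refine ⟨s', hs', fun z hz hz' => ?_⟩
  exact hs'e z hz (fun D hD => hz' D (left_ne_zero_of_mul hD))

end Pull

section KodPull

variable {E : Type} [NormedAddCommGroup E] [NormedSpace ℂ E] [FiniteDimensional ℂ E]
variable {X X' : Type u} [TopologicalSpace X] [ChartedSpace E X] [IsManifold 𝓘(ℂ, E) ω X]
  [TopologicalSpace X'] [ChartedSpace E X'] [IsManifold 𝓘(ℂ, E) ω X']

/-- the Kodaira dimension does not drop under log maps. -/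
theorem kodGE_pull [ConnectedSpace X'] {q : X' → X} (hq : ∀ x, HolM E E q x)
    (hsurj : Function.Surjective q) (hne : ∃ x, (dM E E q x).det ≠ 0)
    {Δ' : Set X' → ℝ} {Δ : Set X → ℝ} (hΔ' : IsBdry E Δ') (hΔ : IsBdry E Δ)
    {m₀ : ℕ} {k₀' : Set X' → ℕ} {k₀ : Set X → ℕ} (hm₀ : 0 < m₀)
    (hk₀' : ∀ D, (k₀' D : ℝ) = m₀ * Δ' D) (hk₀ : ∀ D, (k₀ D : ℝ) = m₀ * Δ D)
    (hcr : ∀ x', ∃ u, LogAt E q m₀ k₀' k₀ x' u) {j : ℕ}
    (h : KodGE E (fun (D : Set X) z g => IsLocalEq E D g z) Δ j) :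
    KodGE E (fun (D : Set X') z g => IsLocalEq E D g z) Δ' j := by
  classical
  have hneX' : Nonempty X' := inferInstance
  have hneX : Nonempty X := ⟨q hneX'.some⟩
  have hqc : Continuous q := continuous_iff_continuousAt.2 fun x => (hq x).continuousAt
  have hsupp : ∀ D, k₀ D ≠ 0 → Δ D ≠ 0 := by
    intro D hD h0
    have := hk₀ D
    rw [h0, mul_zero] at this
    exact hD (by exact_mod_cast this)
  have hsupp' : ∀ D, k₀' D ≠ 0 → Δ' D ≠ 0 := by
    intro D hD h0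
    have := hk₀' D
    rw [h0, mul_zero] at this
    exact hD (by exact_mod_cast this)
  obtain ⟨hG1o, hG1d⟩ := dense_pre_fin (T := {D | Δ D ≠ 0}) hq hsurj hΔ.finite
    (fun D hD => (hΔ.prime D hD).1) (fun D hD => (hΔ.prime D hD).2.1)
  obtain ⟨hG2o, hG2d⟩ := dense_compl_finite (X := X') (T := {D | Δ' D ≠ 0}) hΔ'.finite
    (fun D hD => (hΔ'.prime D hD).1) (fun D hD => dense_compl_hyp (hΔ'.prime D hD).2.1)
  have hG : Dense {z | ∀ D, k₀ D ≠ 0 → q z ∉ D} := by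
    refine hG1d.mono ?_
    intro z hz D hD
    exact hz D (hsupp D hD)
  obtain ⟨m, k, s, z, hm, hk, hs, hz, hs0, hind⟩ := h
  obtain ⟨y₂, hy₂⟩ := good_point hs hz hs0 hind
  -- powers
  have hkk : (fun D => k D * m₀) = fun D => k₀ D * m := by
    funext D
    have h1 : ((k D * m₀ : ℕ) : ℝ) = ((k₀ D * m : ℕ) : ℝ) := by
      push_cast
      rw [hk, hk₀]; ring
    exact_mod_cast h1
  have hpull := fun b => by
    have h1 := isSection_pow (hs b) m₀
    rw [hkk, mul_comm m m₀] at h1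
    exact pull_section hq hcr hG hm h1
  choose s' hs' hs'e using hpull
  -- a good point
  obtain ⟨V, hV, hVo, hyV⟩ := eventually_nhds_iff.1 hy₂
  obtain ⟨x₂, hx₂⟩ := hsurj y₂
  have hd1 := (dense_det hq hne).inter_of_isOpen_left
    (hG1d.inter_of_isOpen_left hG2d hG1o) (isOpen_det hq)
  obtain ⟨z', hz'V, hz'1, hz'2, hz'3⟩ := hd1.inter_open_nonempty (q ⁻¹' V) (hVo.preimage hqc)
    ⟨x₂, by rw [mem_preimage, hx₂]; exact hyV⟩
  have hev : ∀ᶠ w in 𝓝 z', (dM E E q w).det ≠ 0 ∧ (∀ D, Δ D ≠ 0 → q w ∉ D) ∧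
      (∀ D, Δ' D ≠ 0 → w ∉ D) ∧ q w ∈ V := by
    filter_upwards [(isOpen_det hq).mem_nhds hz'1, hG1o.mem_nhds hz'2, hG2o.mem_nhds hz'3,
      (hVo.preimage hqc).mem_nhds hz'V] with w h1 h2 h3 h4
    exact ⟨h1, h2, h3, h4⟩
  have hse : ∀ b, ∀ᶠ w in 𝓝 z', s' b w = s b (q w) ^ m₀ * (dM E E q w).det ^ (m₀ * m) := by
    intro b
    filter_upwards [hev] with w hw
    exact hs'e b w (fun D hD => hw.2.1 D (hsupp D hD)) (fun D hD => hw.2.2.1 D (hsupp' D hD))
  refine ⟨m₀ * m, fun D => k₀' D * m, s', z', Nat.mul_pos hm₀ hm, fun D => ?_, hs', ?_, ?_, ?_⟩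
  · push_cast
    rw [hk₀']; ring
  · intro D hD
    have hD' := hsupp' D (left_ne_zero_of_mul hD)
    obtain ⟨g, hg⟩ := (hΔ'.prime D hD').2.1 z'
    exact ⟨g, hg, fun h0 => hz'3 D hD' (hg.mem_iff.2 h0)⟩
  · rw [(hse 0).self_of_nhds]
    exact mul_ne_zero (pow_ne_zero _ (hV (q z') hz'V).1) (pow_ne_zero _ hz'1)
  · -- independence
    obtain ⟨hg1, hg2, hg3, hg4⟩ := hV (q z') hz'V
    set ρ : Fin j → X → ℂ := fun b w => s b.succ w / s 0 w with hρ
    have hρ0 : ∀ b, ρ b (q z') ≠ 0 := fun b => div_ne_zero (hg2 b) hg1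
    have hratio : ∀ b : Fin j, (fun w => s' b.succ w / s' 0 w) =ᶠ[𝓝 z']
        fun w => (ρ b (q w)) ^ m₀ := by
      intro b
      filter_upwards [hse b.succ, hse 0, hev] with w h1 h2 h3
      have h4 : (dM E E q w).det ^ (m₀ * m) ≠ 0 := pow_ne_zero _ h3.1
      rw [h1, h2, mul_div_mul_right _ _ h4, ← div_pow]
    set c : Fin j → ℂ := fun b => (m₀ : ℂ) * ρ b (q z') ^ (m₀ - 1) with hc
    have hc0 : ∀ b, c b ≠ 0 := fun b => mul_ne_zero (by exact_mod_cast hm₀.ne')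
      (pow_ne_zero _ (hρ0 b))
    have hdif : ∀ b : Fin j, dif E (fun w => s' b.succ w / s' 0 w) z' =
        c b • ((dif E (ρ b) (q z')).comp (dM E E q z')) := by
      intro b
      have h1 : dif E (fun w => s' b.succ w / s' 0 w) z' =
          dV E (fun w => (ρ b (q w)) ^ m₀) z' := dV_congr (hratio b)
      have hp : ContDiffAt ℂ ω (fun t : ℂ => t ^ m₀) (ρ b (q z')) :=
        (contDiff_id.pow m₀).contDiffAt
      have h2 : dV E (fun w => (ρ b (q w)) ^ m₀) z' =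
          (dV E (fun y => (ρ b y) ^ m₀) (q z')).comp (dM E E q z') :=
        dV_comp (h := fun y => (ρ b y) ^ m₀) ((hg3 b).pow m₀) (hq z')
      have h3 : dV E (fun y => (ρ b y) ^ m₀) (q z') =
          (fderiv ℂ (fun t : ℂ => t ^ m₀) (ρ b (q z'))).comp (dV E (ρ b) (q z')) :=
        dV_comp_contDiff hp (hg3 b)
      have h4 : HasDerivAt (fun t : ℂ => t ^ m₀) (c b) (ρ b (q z')) := hasDerivAt_pow m₀ _
      have h5 : ∀ η : ℂ, fderiv ℂ (fun t : ℂ => t ^ m₀) (ρ b (q z')) η = c b * η := by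
        intro η
        rw [h4.hasFDerivAt.fderiv]
        simp [mul_comm]
      rw [h1, h2, h3]
      refine ContinuousLinearMap.ext fun ξ => ?_
      simp only [ContinuousLinearMap.comp_apply, h5, smul_apply, smul_eq_mul]
      rfl
    have hsurjA : Function.Surjective (dM E E q z') := by
      intro w
      refine ⟨(LinearMap.equivOfDetNeZero
        ((dM E E q z' : E →L[ℂ] E) : E →ₗ[ℂ] E) hz'1).symm w, ?_⟩
      exact (LinearMap.equivOfDetNeZero
        ((dM E E q z' : E →L[ℂ] E) : E →ₗ[ℂ] E) hz'1).apply_symm_apply w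
    have hli := (linearIndependent_precomp hsurjA (fun b : Fin j => dif E (ρ b) (q z'))).2 hg4
    have hli2 := hli.units_smul (fun b => Units.mk0 (c b) (hc0 b))
    have heq : (fun b : Fin j => dif E (fun w => s' b.succ w / s' 0 w) z') =
        ((fun b => Units.mk0 (c b) (hc0 b)) •
          fun b : Fin j => (dif E (ρ b) (q z')).comp (dM E E q z')) := by
      funext b
      rw [hdif b]
      rfl
    rw [heq]
    exact hli2

end KodPull

section Fib

variable {E E' E₀ : Type} [NormedAddCommGroup E] [NormedSpace ℂ E]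
  [NormedAddCommGroup E'] [NormedSpace ℂ E'] [NormedAddCommGroup E₀] [NormedSpace ℂ E₀]
  [FiniteDimensional ℂ E] [FiniteDimensional ℂ E'] [FiniteDimensional ℂ E₀]
variable {X X' Y F : Type u} [TopologicalSpace X] [ChartedSpace E X] [IsManifold 𝓘(ℂ, E) ω X]
  [TopologicalSpace X'] [ChartedSpace E X'] [IsManifold 𝓘(ℂ, E) ω X']
  [TopologicalSpace Y] [ChartedSpace E' Y] [IsManifold 𝓘(ℂ, E') ω Y]
  [TopologicalSpace F] [ChartedSpace E₀ F] [IsManifold 𝓘(ℂ, E₀) ω F]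

variable {f : X → Y} {q : X' → X} {r : ℕ} {B : ProjectiveBundle E E' f r} {T : Set (Set X)}
  {i : F → X'} {y : Y} {a : B.ι}

/-- local description of `hF`. -/
theorem fib_local (fd : FormData B T) {Tf : Finset (Set X)} (hTf : ∀ D, D ∈ Tf ↔ D ∈ T)
    {k₀ : Set X → ℕ} {m₀ m d : ℕ} {k₀' k : Set X' → ℕ} (hk₀ : ∀ D, k₀ D ≠ 0 → D ∈ T)
    (hm₀ : 0 < m₀) (hm : 0 < m) (hkk : ∀ D, k D * m₀ = k₀' D * m)
    (e : (E × ℂ) ≃L[ℂ] (E' × (Fin (r + 1) → ℂ)))
    (e₀ : (E₀ × ℂ) ≃L[ℂ] (Fin (r + 1) → ℂ)) (hfc : ContMDiff 𝓘(ℂ, E) 𝓘(ℂ, E') ω f)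
    (hq : ∀ x, HolM E E q x) (hi : ∀ p, HolM E₀ E i p) (hya : y ∈ B.U a)
    (hfi : ∀ p, f (q (i p)) = y) (l : Fin (r + 1)) {s : F → ℂ}
    (hs : IsSection E₀ (eqnF E i) m k s) {p₀ : F} {u : X' → ℂ}
    (hlog : LogAt E q m₀ k₀' k₀ (i p₀) u) (hu0 : u (i p₀) ≠ 0)
    (hsub : Function.Surjective ((dM E E' f (q (i p₀))).comp (dM E E q (i p₀))))
    (himm : Function.Injective (dM E₀ E i p₀))
    {v : X → (Fin (r + 1) → ℂ)} (hv : IsLift E f (B.π a) v (q (i p₀))) :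
    ∃ A : F → ℂ, HolV E₀ A p₀ ∧ (0 < d → v (q (i p₀)) l = 0 → A p₀ = 0) ∧
      ∀ᶠ p in 𝓝 p₀, (dM E E q (i p)).det ≠ 0 → (∀ D, k₀' D ≠ 0 → i p ∉ D) →
        hF fd Tf k₀ m₀ m d e₀ q i y a l s v p = A p := by
  classical
  have hf : ∀ x, HolM E E' f x := fun x => hfc x
  obtain ⟨T', g', T₁, g, b, hT', hg', hT₁, hg, hb, hu, hev⟩ := hlog
  obtain ⟨Ts, gs, c, hTs, hgs, hc, hevs⟩ := hs p₀
  have hex : ∀ D : Set X', ∃ eD : X' → ℂ, D ∈ Ts →
      IsLocalEq E D eD (i p₀) ∧ ∀ᶠ p in 𝓝 p₀, gs D p = eD (i p) := by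
    intro D
    by_cases hD : D ∈ Ts
    · obtain ⟨eD, h1, h2⟩ := hgs D hD
      exact ⟨eD, fun _ => ⟨h1, h2⟩⟩
    · exact ⟨fun _ => 0, fun h => absurd h hD⟩
  choose eD heD using hex
  have hjne : J e f v (q (i p₀)) ≠ 0 :=
    (J_ne_zero e hfc (B.triv a) (by rw [hfi]; exact hya) hv).1
  obtain ⟨η, hη, hη0, hηe⟩ := adj e e₀ (f := f) (q := q) (i := i) (v := v) (b := b) (p₀ := p₀)
    hf hq hi hv.hol hjne hb (hev.mono fun z hz => hz.1) (fun p => by rw [hfi, hfi]) hsub himm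
  -- units
  obtain ⟨W, hW, hW0, hWe⟩ := prod_unit (k := k₀) (x := q (i p₀)) (T := T₁) (T' := Tf) (g := g)
    (g' := fun D z => form (fun J => fd.p a D J (f z)) (v z)) hT₁
    (fun D hD => (hTf D).2 (hk₀ D hD)) hg
    (fun D hD => fd.eqn a D ((hTf D).1 hD) (q (i p₀)) v (by rw [hfi]; exact hya) hv)
  have hkTs : ∀ D, k₀' D ≠ 0 → D ∈ Ts := by
    intro D hD
    refine hTs D fun h0 => ?_
    have := hkk D
    rw [h0, zero_mul] at this
    exact (Nat.mul_ne_zero hD hm.ne') this.symm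
  obtain ⟨W', hW', hW'0, hW'e⟩ := prod_unit (k := k₀') (x := i p₀) (T := T') (T' := Ts) (g := g')
    (g' := eD) hT' hkTs hg' (fun D hD => (heD D hD).1)
  have hic : ContinuousAt i p₀ := (hi p₀).continuousAt
  have hqi : ContinuousAt (fun p => q (i p)) p₀ :=
    ContinuousAt.comp (g := q) (f := i) (hq _).continuousAt hic
  have hui : HolV E₀ (fun p => u (i p)) p₀ := HolV.comp (h := u) hu (hi p₀)
  have hWi : HolV E₀ (fun p => W (q (i p))) p₀ :=
    HolV.comp (h := fun z => W (q z)) (HolV.comp (h := W) hW (hq _)) (hi p₀)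
  have hW'i : HolV E₀ (fun p => W' (i p)) p₀ := HolV.comp (h := W') hW' (hi p₀)
  have hvi : HolV E₀ (fun p => v (q (i p)) l) p₀ :=
    HolV.eval (HolV.comp (h := fun z => v (q z)) (HolV.comp (h := v) hv.hol (hq _)) (hi p₀)) l
  refine ⟨fun p => c p ^ m₀ * (v (q (i p)) l) ^ d * W' (i p) ^ m /
    (η p ^ (m₀ * m) * (u (i p) * W (q (i p))) ^ m), ?_, ?_, ?_⟩
  · refine HolV.div (HolV.mul (HolV.mul (HolV.pow hc m₀) (hvi.pow d)) (hW'i.pow m))
      (HolV.mul (hη.pow _) (HolV.pow (HolV.mul hui hWi) m)) ?_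
    exact mul_ne_zero (pow_ne_zero _ hη0) (pow_ne_zero _ (mul_ne_zero hu0 hW0))
  · intro hd0 hv0
    show c p₀ ^ m₀ * (v (q (i p₀)) l) ^ d * W' (i p₀) ^ m /
      (η p₀ ^ (m₀ * m) * (u (i p₀) * W (q (i p₀))) ^ m) = 0
    rw [hv0, zero_pow hd0.ne', mul_zero, zero_mul, zero_div]
  · have e1 : ∀ᶠ p in 𝓝 p₀, ∀ D ∈ Ts, gs D p = eD D (i p) ∧ IsLocalEq E D (eD D) (i p) := by
      rw [Finset.eventually_all]
      intro D hD
      exact (heD D hD).2.and (hic.eventually (heD D hD).1.eventually)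
    filter_upwards [hevs, e1, hic.eventually hev, hqi.eventually hWe, hic.eventually hW'e, hηe,
      hη.continuousAt.eventually_ne hη0, hui.continuousAt.eventually_ne hu0,
      hWi.continuousAt.eventually_ne hW0, hW'i.continuousAt.eventually_ne hW'0,
      jac_chart_ev (E := E₀) p₀, hic.eventually (jac_comp (hq (i p₀))),
      hqi.eventually (jac_chart_ev (E := E) (q (i p₀)))]
      with p g1 g2 g3 g4 g5 g6 g7 g8 g9 g10 g11 g12 g13 hdet hmem
    obtain ⟨g3a, g3b⟩ := g3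
    -- products
    set P := ∏ D ∈ Ts, eD D (i p) ^ k₀' D with hP
    set Fm := ∏ D ∈ Tf, form (fun J => fd.p a D J y) (v (q (i p))) ^ k₀ D with hFm
    have hP0 : P ≠ 0 := by
      refine Finset.prod_ne_zero_iff.2 fun D hD => ?_
      by_cases hk : k₀' D = 0
      · simp [hk]
      · exact pow_ne_zero _ fun h0 => hmem D hk (((g2 D hD).2).mem_iff.2 h0)
    have hprod : (∏ D ∈ Ts, gs D p ^ k D) ^ m₀ = P ^ m := by
      rw [hP, ← Finset.prod_pow, ← Finset.prod_pow]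
      refine Finset.prod_congr rfl fun D hD => ?_
      rw [← pow_mul, ← pow_mul, hkk, (g2 D hD).1]
    have hprodne : ∏ D ∈ Ts, gs D p ^ k D ≠ 0 := by
      refine Finset.prod_ne_zero_iff.2 fun D hD => ?_
      by_cases hk : k D = 0
      · simp [hk]
      · by_cases hk' : k₀' D = 0
        · exfalso
          have := hkk D
          rw [hk', zero_mul] at this
          exact (Nat.mul_ne_zero hk hm₀.ne') this
        · refine pow_ne_zero _ fun h0 => hmem D hk' (((g2 D hD).2).mem_iff.2 ?_)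
          rw [← (g2 D hD).1]; exact h0
    have hs1 := g1 hprodne
    have hs2 : s p ^ m₀ * P ^ m = c p ^ m₀ * jac E₀ (chartAt E₀ p₀) p ^ (m₀ * m) := by
      rw [← hprod, ← mul_pow, hs1, mul_pow, ← pow_mul, mul_comm m m₀]
    rw [g5] at g3b
    have g4' : ∏ D ∈ T₁, g D (q (i p)) ^ k₀ D = W (q (i p)) * Fm := by
      rw [g4, hFm, hfi]
    rw [g4'] at g3b
    have hb0 : b (i p) ≠ 0 := by
      intro h0
      rw [h0, zero_mul, g12] at g3a
      exact (mul_ne_zero g13 hdet) g3a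
    have hFm0 : Fm ≠ 0 := by
      intro h0
      rw [h0, mul_zero, mul_zero] at g3b
      exact (mul_ne_zero (pow_ne_zero _ hb0) (mul_ne_zero g10 hP0)) g3b
    unfold hF
    rw [g6]
    show s p ^ m₀ * Fm ^ m * (v (q (i p)) l) ^ d /
      (η p * b (i p) * jac E₀ (chartAt E₀ p₀) p) ^ (m₀ * m) =
      c p ^ m₀ * (v (q (i p)) l) ^ d * W' (i p) ^ m /
      (η p ^ (m₀ * m) * (u (i p) * W (q (i p))) ^ m)
    set j := jac E₀ (chartAt E₀ p₀) p with hj
    set bb := b (i p) with hbb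
    set uu := u (i p) with huu
    set WW := W (q (i p)) with hWW
    set WW' := W' (i p) with hWW'
    set et := η p with het
    set ll := (v (q (i p)) l) with hll
    have hkey : (bb ^ m₀) ^ m * WW' ^ m * P ^ m = uu ^ m * WW ^ m * Fm ^ m := by
      rw [← mul_pow, ← mul_pow, ← mul_pow, ← mul_pow]
      congr 1
      rw [mul_assoc, g3b, mul_assoc]
    rw [div_eq_div_iff (pow_ne_zero _ (mul_ne_zero (mul_ne_zero g7 hb0) g11))
      (mul_ne_zero (pow_ne_zero _ g7) (pow_ne_zero _ (mul_ne_zero g8 g9)))]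
    have hPm : P ^ m ≠ 0 := pow_ne_zero _ hP0
    refine mul_right_cancel₀ hPm ?_
    calc s p ^ m₀ * Fm ^ m * ll ^ d * (et ^ (m₀ * m) * (uu * WW) ^ m) * P ^ m
        = (s p ^ m₀ * P ^ m) * ll ^ d * et ^ (m₀ * m) * (uu ^ m * WW ^ m * Fm ^ m) := by
          rw [mul_pow]; ring
      _ = (c p ^ m₀ * j ^ (m₀ * m)) * ll ^ d * et ^ (m₀ * m) *
          ((bb ^ m₀) ^ m * WW' ^ m * P ^ m) := by rw [hs2, hkey]
      _ = c p ^ m₀ * ll ^ d * WW' ^ m * (et * bb * j) ^ (m₀ * m) * P ^ m := by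
          rw [mul_pow, mul_pow, ← pow_mul]; ring

end Fib

section FibKod

variable {E E' E₀ : Type} [NormedAddCommGroup E] [NormedSpace ℂ E]
  [NormedAddCommGroup E'] [NormedSpace ℂ E'] [NormedAddCommGroup E₀] [NormedSpace ℂ E₀]
  [FiniteDimensional ℂ E] [FiniteDimensional ℂ E'] [FiniteDimensional ℂ E₀]
variable {X X' Y F : Type u} [TopologicalSpace X] [ChartedSpace E X] [IsManifold 𝓘(ℂ, E) ω X]
  [TopologicalSpace X'] [ChartedSpace E X'] [IsManifold 𝓘(ℂ, E) ω X']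
  [TopologicalSpace Y] [ChartedSpace E' Y] [IsManifold 𝓘(ℂ, E') ω Y]
  [TopologicalSpace F] [ChartedSpace E₀ F] [IsManifold 𝓘(ℂ, E₀) ω F]

variable {f : X → Y} {q : X' → X} {r : ℕ} {B : ProjectiveBundle E E' f r}
  {i : F → X'} {y : Y} {a : B.ι}

theorem kodF_le' [ConnectedSpace F] [CompactSpace F] (hr : 0 < r)
    (e : (E × ℂ) ≃L[ℂ] (E' × (Fin (r + 1) → ℂ)))
    (e₀ : (E₀ × ℂ) ≃L[ℂ] (Fin (r + 1) → ℂ)) (hfc : ContMDiff 𝓘(ℂ, E) 𝓘(ℂ, E') ω f)
    (hq : ∀ x, HolM E E q x) (hqs : Function.Surjective q)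
    (hi : ∀ p, HolM E₀ E i p) (hya : y ∈ B.U a)
    (hfi : ∀ p, f (q (i p)) = y) (hrng : ∀ x, f (q x) = y → ∃ p, i p = x)
    {Δ' : Set X' → ℝ} {Δ : Set X → ℝ} (hΔ' : IsBdry E Δ') (hΔ : IsBdry E Δ)
    (fd : FormData B {D | Δ D ≠ 0})
    {m₀ : ℕ} {k₀' : Set X' → ℕ} {k₀ : Set X → ℕ} (hm₀ : 0 < m₀)
    (hk₀' : ∀ D, (k₀' D : ℝ) = m₀ * Δ' D) (hk₀ : ∀ D, (k₀ D : ℝ) = m₀ * Δ D)
    (hlog : ∀ p, ∃ u : X' → ℂ, LogAt E q m₀ k₀' k₀ (i p) u ∧ u (i p) ≠ 0)
    (hsub : ∀ p, Function.Surjective ((dM E E' f (q (i p))).comp (dM E E q (i p))))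
    (himm : ∀ p, Function.Injective (dM E₀ E i p))
    (hgen : ∃ p, (dM E E q (i p)).det ≠ 0) {j : ℕ} (h : KodGE E₀ (eqnF E i) Δ' j)
    (hS : ∑ D ∈ hΔ.finite.toFinset, (fd.deg D : ℝ) * Δ D ≤ r + 1) :
    j = 0 ∧ ∑ D ∈ hΔ.finite.toFinset, (fd.deg D : ℝ) * Δ D = r + 1 := by
  classical
  obtain ⟨m, k, s, z, hm, hk, hs, hz, hs0, hind⟩ := h
  set Tf := hΔ.finite.toFinset with hTfdef
  have hTf : ∀ D, D ∈ Tf ↔ D ∈ {D | Δ D ≠ 0} := fun D => Set.Finite.mem_toFinset _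
  have hsupp : ∀ D, k₀ D ≠ 0 → Δ D ≠ 0 := by
    intro D hD h0
    have := hk₀ D
    rw [h0, mul_zero] at this
    exact hD (by exact_mod_cast this)
  have hm₀r : (0 : ℝ) < m₀ := by exact_mod_cast hm₀
  have hmr : (0 : ℝ) < m := by exact_mod_cast hm
  have hsuppinv : ∀ D, Δ D ≠ 0 → k₀ D ≠ 0 := by
    intro D hD h0
    have := hk₀ D
    rw [h0, Nat.cast_zero] at this
    exact (mul_ne_zero hm₀r.ne' hD) this.symm
  have hsupp' : ∀ D, k₀' D ≠ 0 → Δ' D ≠ 0 := by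
    intro D hD h0
    have := hk₀' D
    rw [h0, mul_zero] at this
    exact hD (by exact_mod_cast this)
  have hkk : ∀ D, k D * m₀ = k₀' D * m := by
    intro D
    have h1 : ((k D * m₀ : ℕ) : ℝ) = ((k₀' D * m : ℕ) : ℝ) := by
      push_cast
      rw [hk, hk₀']; ring
    exact_mod_cast h1
  have hsum : ((∑ D ∈ Tf, fd.deg D * k₀ D : ℕ) : ℝ) =
      m₀ * ∑ D ∈ Tf, (fd.deg D : ℝ) * Δ D := by
    push_cast
    rw [Finset.mul_sum]
    refine Finset.sum_congr rfl fun D _ => ?_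
    rw [hk₀ D]; ring
  have hL : ∑ D ∈ Tf, fd.deg D * k₀ D ≤ (r + 1) * m₀ := by
    have h1 : ((∑ D ∈ Tf, fd.deg D * k₀ D : ℕ) : ℝ) ≤ (((r + 1) * m₀ : ℕ) : ℝ) := by
      rw [hsum]
      push_cast
      nlinarith only [hS, hm₀r]
    exact_mod_cast h1
  set d : ℕ := ((r + 1) * m₀ - ∑ D ∈ Tf, fd.deg D * k₀ D) * m with hd
  have hdeq : d + (∑ D ∈ Tf, fd.deg D * k₀ D) * m = (r + 1) * (m₀ * m) := by
    rw [hd, ← add_mul, Nat.sub_add_cancel hL]; ring
  -- the good set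
  have hzD : ∀ D, k D ≠ 0 → i z ∉ D := by
    intro D hkD hmem
    obtain ⟨g, hg, hg0⟩ := hz D hkD
    exact hg0 (((eqnF_mem hi hg).self_of_nhds).1 hmem)
  have hzD' : ∀ D, Δ' D ≠ 0 → i z ∉ D := by
    intro D hD
    refine hzD D fun h0 => ?_
    have := hk D
    rw [h0, Nat.cast_zero] at this
    exact (mul_ne_zero hmr.ne' hD) this.symm
  obtain ⟨hGbo, hGbd⟩ := dense_restrict_fin (T := {D | Δ' D ≠ 0}) hi hΔ'.finite
    (fun D hD => (hΔ'.prime D hD).1) (fun D hD => (hΔ'.prime D hD).2.1)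
    (fun D hD => ⟨z, hzD' D hD⟩)
  have hic : Continuous i := continuous_iff_continuousAt.2 fun x => (hi x).continuousAt
  have hGao : IsOpen {p | (dM E E q (i p)).det ≠ 0} := (isOpen_det hq).preimage hic
  have hGad : Dense {p | (dM E E q (i p)).det ≠ 0} := by
    refine dense_of_local (E := E₀) hgen fun p => ?_
    obtain ⟨R, hR, hRe⟩ := det_local (hq (i p))
    exact ⟨fun z => R (i z), HolV.comp (h := R) hR (hi p), (hi p).continuousAt.eventually hRe⟩
  set G : Set F := {p | (dM E E q (i p)).det ≠ 0} ∩ {p | ∀ D ∈ {D | Δ' D ≠ 0}, i p ∉ D} with hGdef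
  have hGd : Dense G := hGad.inter_of_isOpen_left hGbd hGao
  have hG1 : ∀ p ∈ G, (dM E E q (i p)).det ≠ 0 := fun p hp => hp.1
  have hG2 : ∀ p ∈ G, ∀ D, k₀' D ≠ 0 → i p ∉ D := fun p hp D hD => hp.2 D (hsupp' D hD)
  -- lifts
  have hlift : ∀ p, ∃ v, IsLift E f (B.π a) v (q (i p)) := fun p =>
    (B.triv a).lift (q (i p)) (by rw [hfi]; exact hya)
  choose v hv using hlift
  choose u hu hu0 using hlog
  -- local functions
  have hloc := fun (b : Fin (j + 1)) (l : Fin (r + 1)) (p : F) =>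
    fib_local (m := m) (d := d) (k := k) fd hTf (fun D hD => hsupp D hD) hm₀ hm hkk e e₀ hfc hq hi
      hya hfi l (hs b) (hu p) (hu0 p) (hsub p) (himm p) (hv p)
  choose A hA hA0 hAe using hloc
  have hqi : Continuous (fun p => q (i p)) :=
    (continuous_iff_continuousAt.2 fun x => (hq x).continuousAt).comp hic
  have hglue := fun (b : Fin (j + 1)) (l : Fin (r + 1)) =>
    glue_fun (G := G) hGd (h := fun p => hF fd Tf k₀ m₀ m d e₀ q i y a l (s b) (v p) p)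
      (A := A b l) (hA b l) (by
        intro p₀
        filter_upwards [hAe b l p₀, hqi.continuousAt.eventually (hv p₀).eventually] with p h1 h2 hp
        rw [← h1 (hG1 p hp) (hG2 p hp)]
        exact hF_change fd Tf k₀ e₀ (fun x => hfc x) hq hi hya hfi l (s b) h2 (hv p) hdeq)
  -- constants
  have hconst : ∀ (b : Fin (j + 1)) (l : Fin (r + 1)), ∃ C : ℂ, ∀ p, A b l p p = C := by
    intro b l
    have hmd : MDifferentiable 𝓘(ℂ, E₀) 𝓘(ℂ, ℂ) (fun p => A b l p p) := fun p =>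
      ((hglue b l).1 p).mdiff
    exact ⟨A b l z z, fun p => hmd.apply_eq_of_compactSpace p z⟩
  choose C hC using hconst
  have hHC : ∀ b l, ∀ p ∈ G, hF fd Tf k₀ m₀ m d e₀ q i y a l (s b) (v p) p = C b l := by
    intro b l p hp
    rw [← (hglue b l).2 p hp, hC]
  -- nonvanishing factors
  have hfac : ∀ p ∈ G, (∏ D ∈ Tf, form (fun J => fd.p a D J y) (v p (q (i p))) ^ k₀ D) ≠ 0 ∧
      J0 e₀ (fun p' => v p (q (i p'))) p ≠ 0 := by
    intro p hp
    refine ⟨Finset.prod_ne_zero_iff.2 fun D hD => ?_,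
      J0_ne e e₀ hfc hq hi hya hfi (hu p) (hsub p) (himm p) (hG1 p hp) (hv p)⟩
    have hD' : Δ D ≠ 0 := (hTf D).1 hD
    refine pow_ne_zero _ fun h0 => ?_
    have h1 := (mem_iff_form B fd ((hTf D).1 hD) hya (hv p).ne_zero).2 h0
    have h2 := (hv p).eq
    rw [hfi] at h2
    rw [h2] at h1
    exact crep_good (hq (i p)) (hu p) (hG1 p hp) (hG2 p hp) D (hsuppinv D hD') h1
  -- near `z`
  obtain ⟨A₀, hA₀, hA₀e⟩ := section_localF hi (hs 0) hzD
  have hA₀0 : A₀ z ≠ 0 := by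
    intro h0
    have := hA₀e.self_of_nhds
    rw [h0, zero_mul] at this
    exact hs0 this
  have hs0ev : ∀ᶠ p in 𝓝 z, s 0 p ≠ 0 := by
    filter_upwards [hA₀e, hA₀.continuousAt.eventually_ne hA₀0, jac_chart_ev (E := E₀) z]
      with p h1 h2 h3
    rw [h1]
    exact mul_ne_zero h2 (pow_ne_zero _ h3)
  obtain ⟨V, hV, hVo, hzV⟩ := eventually_nhds_iff.1 hs0ev
  obtain ⟨z₁, hz₁V, hz₁G⟩ := hGd.inter_open_nonempty V hVo ⟨z, hzV⟩
  have hs1 : s 0 z₁ ≠ 0 := hV z₁ hz₁V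
  -- `d = 0`
  have hd0 : d = 0 := by
    by_contra hdne
    have hdpos : 0 < d := Nat.pos_of_ne_zero hdne
    obtain ⟨l, hl⟩ : ∃ l, v z₁ (q (i z₁)) l ≠ 0 := by
      by_contra hcon
      push Not at hcon
      exact (hv z₁).ne_zero (funext hcon)
    have h1 : C 0 l ≠ 0 := by
      rw [← hHC 0 l z₁ hz₁G]
      unfold hF
      obtain ⟨h2, h3⟩ := hfac z₁ hz₁G
      exact div_ne_zero (mul_ne_zero (mul_ne_zero (pow_ne_zero _ hs1) (pow_ne_zero _ h2))
        (pow_ne_zero _ hl)) (pow_ne_zero _ h3)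
    -- a point on the hyperplane
    obtain ⟨l', hl'⟩ : ∃ l' : Fin (r + 1), l' ≠ l := by
      have : Nontrivial (Fin (r + 1)) := Fin.nontrivial_iff_two_le.2 (by omega)
      exact exists_ne l
    set w₀ : Fin (r + 1) → ℂ := Pi.single l' 1 with hw₀
    have hw₀0 : w₀ ≠ 0 := by
      intro h0
      have := congrFun h0 l'
      simp [hw₀] at this
    have hw₀l : w₀ l = 0 := by simp [hw₀, Pi.single_apply, hl'.symm]
    have hfx : f (B.π a y w₀) = y := (B.triv a).proj y hya w₀ hw₀0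
    obtain ⟨x', hx'⟩ := hqs (B.π a y w₀)
    obtain ⟨p₂, hp₂⟩ := hrng x' (by rw [hx', hfx])
    have hlift2 := (hv p₂).eq
    rw [hfi, hp₂, hx'] at hlift2
    have hvne : v p₂ (B.π a y w₀) ≠ 0 := by
      have := (hv p₂).ne_zero
      rwa [hp₂, hx'] at this
    obtain ⟨c, hc⟩ := ((B.triv a).eq_iff y hya _ hvne w₀ hw₀0).1 hlift2
    have hvl : v p₂ (q (i p₂)) l = 0 := by
      rw [hp₂, hx']
      have h2 := congrFun hc l
      rw [hw₀l, Pi.smul_apply, smul_eq_mul] at h2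
      have hc0 : c ≠ 0 := by
        rintro rfl
        rw [zero_smul] at hc
        exact hw₀0 hc
      exact (mul_eq_zero.1 h2.symm).resolve_left hc0
    have h3 := hA0 0 l p₂ hdpos hvl
    rw [hC] at h3
    exact h1 h3
  refine ⟨?_, ?_⟩
  · by_contra hj
    have b : Fin j := ⟨0, Nat.pos_of_ne_zero hj⟩
    apply hind.ne_zero b
    let l : Fin (r + 1) := 0
    have hC0 : C 0 l ≠ 0 := by
      rw [← hHC 0 l z₁ hz₁G]
      unfold hF
      obtain ⟨h2, h3⟩ := hfac z₁ hz₁G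
      rw [hd0, pow_zero, mul_one]
      exact div_ne_zero (mul_ne_zero (pow_ne_zero _ hs1) (pow_ne_zero _ h2)) (pow_ne_zero _ h3)
    obtain ⟨Ab, hAb, hAbe⟩ := section_localF hi (hs b.succ) hzD
    set ρ : F → ℂ := fun w => s b.succ w / s 0 w with hρ
    have hρh : HolV E₀ ρ z := by
      refine HolV.congr (HolV.div hAb hA₀ hA₀0) ?_
      filter_upwards [hAbe, hA₀e, jac_chart_ev (E := E₀) z] with p h1 h2 h3
      rw [hρ]
      show s b.succ p / s 0 p = Ab p / A₀ p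
      rw [h1, h2, mul_div_mul_right _ _ (pow_ne_zero _ h3)]
    -- on `G`
    have hρG : ∀ p ∈ G, s 0 p ≠ 0 → ρ p ^ m₀ = C b.succ l / C 0 l := by
      intro p hp hsp
      obtain ⟨h2, h3⟩ := hfac p hp
      rw [← hHC b.succ l p hp, ← hHC 0 l p hp]
      unfold hF
      rw [hd0, pow_zero, mul_one, mul_one]
      have h4 : J0 e₀ (fun p' => v p (q (i p'))) p ^ (m₀ * m) ≠ 0 := pow_ne_zero _ h3
      have h5 := pow_ne_zero m h2
      rw [div_div_div_cancel_right₀ h4, mul_div_mul_right _ _ h5, hρ, ← div_pow]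
    -- near `z`
    have hρz : ∀ᶠ p in 𝓝 z, ρ p ^ m₀ = C b.succ l / C 0 l := by
      filter_upwards [(hρh.pow m₀).eventually, eventually_eventually_nhds.2 hs0ev] with p h1 h2
      by_contra hne
      have h5 := (h1.continuousAt.ne_iff_eventually_ne
        (continuousAt_const (y := C b.succ l / C 0 l))).1 hne
      obtain ⟨V', hV', hVo', hzV'⟩ := eventually_nhds_iff.1 (h5.and h2)
      obtain ⟨w, hwV, hwG⟩ := hGd.inter_open_nonempty V' hVo' ⟨p, hzV'⟩
      exact (hV' w hwV).1 (hρG w hwG (hV' w hwV).2)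
    show dV E₀ ρ z = 0
    by_cases hρ0 : ρ z = 0
    · have hc0 : C b.succ l / C 0 l = 0 := by
        rw [← hρz.self_of_nhds, hρ0, zero_pow hm₀.ne']
      have : ρ =ᶠ[𝓝 z] fun _ => (0 : ℂ) := by
        filter_upwards [hρz] with p hp
        rw [hc0] at hp
        exact (pow_eq_zero_iff hm₀.ne').1 hp
      rw [dV_congr this]
      unfold dV; rw [mfderiv_const]; rfl
    · have hp : ContDiffAt ℂ ω (fun t : ℂ => t ^ m₀) (ρ z) := (contDiff_id.pow m₀).contDiffAt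
      have h3 : dV E₀ (fun y => (ρ y) ^ m₀) z =
          (fderiv ℂ (fun t : ℂ => t ^ m₀) (ρ z)).comp (dV E₀ ρ z) :=
        dV_comp_contDiff hp hρh
      have h4 : HasDerivAt (fun t : ℂ => t ^ m₀) ((m₀ : ℂ) * ρ z ^ (m₀ - 1)) (ρ z) :=
        hasDerivAt_pow m₀ _
      have h6 : dV E₀ (fun y => (ρ y) ^ m₀) z = 0 := by
        have : (fun y => (ρ y) ^ m₀) =ᶠ[𝓝 z] fun _ => C b.succ l / C 0 l := hρz
        rw [dV_congr this]
        unfold dV; rw [mfderiv_const]; rfl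
      rw [h6] at h3
      refine ContinuousLinearMap.ext fun ξ => ?_
      have h7 := congrArg (fun A : E₀ →L[ℂ] ℂ => A ξ) h3.symm
      simp only [ContinuousLinearMap.comp_apply] at h7
      rw [h4.hasFDerivAt.fderiv] at h7
      have h8 : ((m₀ : ℂ) * ρ z ^ (m₀ - 1)) ≠ 0 :=
        mul_ne_zero (by exact_mod_cast hm₀.ne') (pow_ne_zero _ hρ0)
      have h9 : dV E₀ ρ z ξ * ((m₀ : ℂ) * ρ z ^ (m₀ - 1)) = 0 := by
        simpa using h7
      exact (mul_eq_zero.1 h9).resolve_right h8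
  · -- `S = r + 1`
    have h1 : (r + 1) * m₀ - ∑ D ∈ Tf, fd.deg D * k₀ D = 0 := by
      rcases Nat.mul_eq_zero.1 (hd ▸ hd0) with h | h
      · exact h
      · exact absurd h hm.ne'
    have h2 : ∑ D ∈ Tf, fd.deg D * k₀ D = (r + 1) * m₀ := le_antisymm hL (Nat.sub_eq_zero_iff_le.1 h1)
    have h3 : ((∑ D ∈ Tf, fd.deg D * k₀ D : ℕ) : ℝ) = (((r + 1) * m₀ : ℕ) : ℝ) := by rw [h2]
    rw [hsum] at h3
    push_cast at h3
    have h4 : (m₀ : ℝ) * (∑ D ∈ Tf, (fd.deg D : ℝ) * Δ D) = m₀ * (r + 1) := by rw [h3]; ring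
    exact mul_left_cancel₀ hm₀r.ne' h4

end FibKod

section Cov

variable {E E' : Type} [NormedAddCommGroup E] [NormedSpace ℂ E]
  [NormedAddCommGroup E'] [NormedSpace ℂ E']
  [FiniteDimensional ℂ E] [FiniteDimensional ℂ E']

/-- common denominator of the coefficients of a boundary -/
theorem exists_denominator {X : Type u} [TopologicalSpace X] [ChartedSpace E X] {Δ : Set X → ℝ}
    (h : IsBdry E Δ) :
    ∃ m : ℕ, 0 < m ∧ ∃ K : Set X → ℕ, (∀ D, (K D : ℝ) = m * Δ D) ∧ ∀ D, K D ≤ m := by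
  classical
  choose q hq h0 h1 using h.rational
  set S := h.finite.toFinset with hS
  set m := ∏ D ∈ S, (q D).den with hm
  have hmpos : 0 < m := Finset.prod_pos fun D _ => (q D).pos
  have hK : ∀ D, ∃ k : ℕ, (k : ℝ) = m * Δ D := by
    intro D
    by_cases hD : Δ D = 0
    · exact ⟨0, by rw [hD]; simp⟩
    · have hDS : D ∈ S := by rw [hS, Set.Finite.mem_toFinset]; exact hD
      obtain ⟨c, hc⟩ := Finset.dvd_prod_of_mem (fun D => (q D).den) hDS
      have hnum : 0 ≤ (q D).num := Rat.num_nonneg.2 (h0 D)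
      refine ⟨c * (q D).num.toNat, ?_⟩
      have h2 : (((q D).num.toNat : ℕ) : ℝ) = ((q D).num : ℝ) := by
        have : (((q D).num.toNat : ℤ)) = (q D).num := Int.toNat_of_nonneg hnum
        exact_mod_cast this
      have h3 : ((q D : ℚ) : ℝ) * ((q D).den : ℝ) = ((q D).num : ℝ) := by
        exact_mod_cast Rat.mul_den_eq_num (q D)
      push_cast
      rw [h2, hq D, ← h3]
      have h4 : (m : ℝ) = ((q D).den : ℝ) * c := by exact_mod_cast hc
      rw [h4]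
      ring
  choose K hK using hK
  refine ⟨m, hmpos, K, hK, fun D => ?_⟩
  have h2 : (K D : ℝ) ≤ m := by
    rw [hK D, hq D]
    have h3 : ((q D : ℚ) : ℝ) ≤ 1 := by exact_mod_cast h1 D
    have h4 : (0 : ℝ) ≤ m := Nat.cast_nonneg _
    nlinarith only [h3]
  exact_mod_cast h2

theorem hasCov_zero {X Y : Type u} [TopologicalSpace X] [ChartedSpace E X]
    [IsManifold 𝓘(ℂ, E) ω X]
    [TopologicalSpace Y] [ChartedSpace E' Y] [IsManifold 𝓘(ℂ, E') ω Y] {f : X → Y} {r : ℕ}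
    {B : ProjectiveBundle E E' f r} {Δ : Set X → ℝ} (hf : Continuous f)
    (hΔ : IsBdry E Δ) {fd : FormData B {D | Δ D ≠ 0}}
    {H : Finset (Set X)} {y : Y} {a : B.ι} (ha : y ∈ B.U a) (htr : GIT.TrForm (fd.P H a y))
    (hsum : ∑ D ∈ H, (fd.deg D : ℝ) * Δ D = r + 1) : HasCov B Δ fd H univ 0 := by
  classical
  obtain ⟨m, hm, K, hK, hKm⟩ := exists_denominator hΔ
  have hnat : (r + 1) * m + 0 = ∑ i : H, fd.deg i * K i := by
    have h1 : (((r + 1) * m + 0 : ℕ) : ℝ) = ((∑ i : H, fd.deg i * K i : ℕ) : ℝ) := by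
      push_cast
      have h2 : ∑ i : H, (fd.deg i : ℝ) * (K i : ℝ) = m * ∑ D ∈ H, (fd.deg D : ℝ) * Δ D := by
        rw [Finset.mul_sum, ← Finset.sum_coe_sort H]
        exact Finset.sum_congr rfl fun i _ => by rw [hK]; ring
      rw [h2, hsum]
      ring
    exact_mod_cast h1
  have hv : (Pi.single 0 1 : Fin (r + 1) → ℂ) ≠ 0 := by
    intro h
    have := congrFun h 0
    simp at this
  obtain ⟨j, hj, A, hA⟩ := GIT.exists_covariant (K := fun i : H => K i) (N := 0) (m := m)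
    (fd.P H a y) htr (Pi.single 0 1) hv (fun i => hKm i) hnat
  obtain ⟨v, hvl, hvx⟩ := exists_lift_value (B := B) hf ha hv
  have hfx : f (B.π a y (Pi.single 0 1)) = y := (B.triv a).proj y ha _ hv
  refine ⟨j * m, j * 0, fun i => j * K i, fun _ => A, A.C, Nat.mul_pos hj hm, ?_, ?_, ?_, A.hol, ?_,
    ⟨B.π a y (Pi.single 0 1), a, v, ?_, hvl, ?_⟩, ?_⟩
  · calc (r + 1) * (j * m) + j * 0 = j * ((r + 1) * m + 0) := by ring
      _ = ∑ i : H, fd.deg i * (j * K i) := by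
        rw [hnat, Finset.mul_sum]
        exact Finset.sum_congr rfl fun i _ => by ring
  · intro D
    exact ⟨j * K D, by push_cast; rw [hK]; ring⟩
  · intro i
    push_cast
    rw [hK]
    ring
  · intro p p' c g w lam _ hg hc hlam h
    rw [A.law p p' c g w (mem_univ _) hg hc h, A.homog]
    constructor
    · intro h1
      exact mul_ne_zero (pow_ne_zero _ hlam) (right_ne_zero_of_mul h1)
    · intro h1
      exact mul_ne_zero (mul_ne_zero (pow_ne_zero _ hg)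
        (Finset.prod_ne_zero_iff.2 fun i _ => pow_ne_zero _ (hc i))) (right_ne_zero_of_mul h1)
  · rw [hfx]; exact ha
  · rw [hfx, hvx]; exact hA
  · intro p w hne
    exact ⟨hne, linearIndependent_empty_type⟩

theorem hasCov_pos {X Y : Type u} [TopologicalSpace X] [ChartedSpace E X]
    [IsManifold 𝓘(ℂ, E) ω X]
    [TopologicalSpace Y] [ChartedSpace E' Y] [IsManifold 𝓘(ℂ, E') ω Y] {f : X → Y} {r : ℕ}
    {B : ProjectiveBundle E E' f r} {Δ : Set X → ℝ} (hf : Continuous f)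
    (hΔ : IsBdry E Δ) {fd : FormData B {D | Δ D ≠ 0}}
    {H : Finset (Set X)} {y : Y} {a : B.ι} (ha : y ∈ B.U a) (htr : GIT.TrForm (fd.P H a y))
    (hr : 0 < r)
    (hsum : (r + 1 : ℝ) < ∑ D ∈ H, (fd.deg D : ℝ) * Δ D) : HasCov B Δ fd H univ r := by
  classical
  obtain ⟨m, hm, K, hK, hKm⟩ := exists_denominator hΔ
  have hlt : (r + 1) * m < ∑ i : H, fd.deg i * K i := by
    have h1 : (((r + 1) * m : ℕ) : ℝ) < ((∑ i : H, fd.deg i * K i : ℕ) : ℝ) := by
      push_cast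
      have h2 : ∑ i : H, (fd.deg i : ℝ) * (K i : ℝ) = m * ∑ D ∈ H, (fd.deg D : ℝ) * Δ D := by
        rw [Finset.mul_sum, ← Finset.sum_coe_sort H]
        exact Finset.sum_congr rfl fun i _ => by rw [hK]; ring
      rw [h2]
      have h3 : (0 : ℝ) < m := by exact_mod_cast hm
      nlinarith only [hsum, h3]
    exact_mod_cast h1
  obtain ⟨N, hN⟩ := Nat.exists_eq_add_of_lt hlt
  obtain ⟨j, hj, A, w, hAw, hli⟩ := GIT.exists_system (K := fun i : H => K i) (N := N + 1) (m := m)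
    (fd.P H a y) htr (fun i => hKm i) (by rw [hN]; ring) (Nat.succ_pos _)
  have hθ : GIT.theta A (fd.P H a y) w ≠ 0 := (GIT.theta_ne A _ _).2 ⟨hAw 0, hli⟩
  have hw : w ≠ 0 := by
    rintro rfl
    have h1 := (A 0).homog (fd.P H a y) 0 0
    rw [zero_smul, zero_pow (Nat.mul_pos hj (Nat.succ_pos N)).ne', zero_mul] at h1
    exact hAw 0 h1
  obtain ⟨v, hvl, hvx⟩ := exists_lift_value (B := B) hf ha hw
  have hfx : f (B.π a y w) = y := (B.triv a).proj y ha _ hw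
  refine ⟨j * m, j * (N + 1), fun i => j * K i, A, GIT.theta A, Nat.mul_pos hj hm, ?_, ?_, ?_,
    GIT.theta_contDiff A, GIT.theta_invNe A,
    ⟨B.π a y w, a, v, ?_, hvl, ?_⟩, fun p v h => GIT.theta_ratio A p v h⟩
  · calc (r + 1) * (j * m) + j * (N + 1) = j * ((r + 1) * m + N + 1) := by ring
      _ = ∑ i : H, fd.deg i * (j * K i) := by
        rw [← hN, Finset.mul_sum]
        exact Finset.sum_congr rfl fun i _ => by ring
  · intro D
    exact ⟨j * K D, by push_cast; rw [hK]; ring⟩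
  · intro i
    push_cast
    rw [hK]
    ring
  · rw [hfx]; exact ha
  · rw [hfx, hvx]; exact hθ

end Cov

section Core

theorem crepant_core {E E' : Type} [NormedAddCommGroup E] [NormedSpace ℂ E]
    [NormedAddCommGroup E'] [NormedSpace ℂ E']
    [FiniteDimensional ℂ E] [FiniteDimensional ℂ E']
    {X Y : Type u} [TopologicalSpace X] [ChartedSpace E X] [IsManifold 𝓘(ℂ, E) ω X]
    [ConnectedSpace X] [TopologicalSpace Y] [ChartedSpace E' Y] [IsManifold 𝓘(ℂ, E') ω Y]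
    [T2Space Y] [ConnectedSpace Y]
    {f : X → Y} (hol : ContMDiff 𝓘(ℂ, E) 𝓘(ℂ, E') ω f) (surj : Function.Surjective f)
    (fib : ∀ y, IsConnected (f ⁻¹' {y})) {Δ : Set X → ℝ} (hΔ : IsBdry E Δ)
    {r : ℕ} (hr : 0 < r)
    (hdim : Module.finrank ℂ E = Module.finrank ℂ E' + r)
    (B : ProjectiveBundle E E' f r)
    (fd : FormData B {D | Δ D ≠ 0}) {H : Finset (Set X)}
    (hH : ∀ D, D ∈ H ↔ Δ D ≠ 0 ∧ 0 < fd.deg D)
    {𝒢 : Set (Matrix (Fin (r + 1)) (Fin (r + 1)) ℂ)} (hG : HasTrans B 𝒢)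
    (hcov0 : ∑ D ∈ H, (fd.deg D : ℝ) * Δ D = r + 1 → HasCov B Δ fd H 𝒢 0)
    (hcov1 : (r + 1 : ℝ) < ∑ D ∈ H, (fd.deg D : ℝ) * Δ D → HasCov B Δ fd H 𝒢 r)
    (y : Y) (E₀ : Type) [NormedAddCommGroup E₀] [NormedSpace ℂ E₀] [FiniteDimensional ℂ E₀]
    (hdim0 : Module.finrank ℂ E₀ + Module.finrank ℂ E' = Module.finrank ℂ E)
    {X' F : Type u} [TopologicalSpace X'] [ChartedSpace E X'] [IsManifold 𝓘(ℂ, E) ω X']
    [ConnectedSpace X']
    [TopologicalSpace F] [ChartedSpace E₀ F] [IsManifold 𝓘(ℂ, E₀) ω F] [ConnectedSpace F]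
    [CompactSpace F]
    (q : X' → X) (hq : ∀ x, HolM E E q x) (hqs : Function.Surjective q)
    (Δ' : Set X' → ℝ) (hΔ' : IsBdry E Δ')
    {m₀ : ℕ} {k₀' : Set X' → ℕ} {k₀ : Set X → ℕ} (hm₀ : 0 < m₀)
    (hk₀' : ∀ D, (k₀' D : ℝ) = m₀ * Δ' D) (hk₀ : ∀ D, (k₀ D : ℝ) = m₀ * Δ D)
    (hcr : ∀ x', ∃ u : X' → ℂ, LogAt E q m₀ k₀' k₀ x' u ∧ (f (q x') = y → u x' ≠ 0))
    (i : F → X') (hi : ∀ p, HolM E₀ E i p) (hrange : range i = (fun x => f (q x)) ⁻¹' {y})
    (hsub : ∀ p, Function.Surjective ((dM E E' f (q (i p))).comp (dM E E q (i p))))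
    (himm : ∀ p, Function.Injective (dM E₀ E i p))
    (hgen : ∃ p, (dM E E q (i p)).det ≠ 0) :
    kod E₀ (fun (D : Set X') (p : F) (g : F → ℂ) =>
      ∃ e, IsLocalEq E D e (i p) ∧ ∀ᶠ q in 𝓝 p, g q = e (i q)) Δ' +
      kodaira E' (orbBase E E' f Δ) ≤ kodaira E Δ' := by
  classical
  have hfin : {D | Δ D ≠ 0}.Finite := hΔ.finite
  have hcl : ∀ D, Δ D ≠ 0 → IsClosed D := fun D hD => (hΔ.prime D hD).1
  have hΔ0 : ∀ D, 0 ≤ Δ D ∧ Δ D ≤ 1 := by
    intro D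
    obtain ⟨q, hq, h0, h1⟩ := hΔ.rational D
    rw [hq]
    exact ⟨by exact_mod_cast h0, by exact_mod_cast h1⟩
  have hopen := isOpenMap_of_bundle B
  have hsub' := submersion_of_bundle hol hdim B
  have hsum : ∑ D ∈ hfin.toFinset, (fd.deg D : ℝ) * Δ D = ∑ D ∈ H, (fd.deg D : ℝ) * Δ D := by
    symm
    refine Finset.sum_subset (fun D hD => ?_) (fun D hD hDH => ?_)
    · rw [Set.Finite.mem_toFinset]; exact ((hH D).1 hD).1
    · rw [Set.Finite.mem_toFinset] at hD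
      have : ¬ 0 < fd.deg D := fun h => hDH ((hH D).2 ⟨hD, h⟩)
      have h0 : fd.deg D = 0 := by omega
      rw [h0]; simp
  have hfinr : Module.finrank ℂ (E × ℂ) = Module.finrank ℂ (E' × (Fin (r + 1) → ℂ)) := by
    simp only [Module.finrank_prod, hdim, Module.finrank_self, Module.finrank_fintype_fun_eq_card,
      Fintype.card_fin]; ring
  let e : (E × ℂ) ≃L[ℂ] (E' × (Fin (r + 1) → ℂ)) := ContinuousLinearEquiv.ofFinrankEq hfinr
  have hE₀ : Module.finrank ℂ E₀ = r := by omega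
  have hfin0 : Module.finrank ℂ (E₀ × ℂ) = Module.finrank ℂ (Fin (r + 1) → ℂ) := by
    simp [hE₀]
  let e₀ : (E₀ × ℂ) ≃L[ℂ] (Fin (r + 1) → ℂ) := ContinuousLinearEquiv.ofFinrankEq hfin0
  obtain ⟨a, ha⟩ := B.cover y
  have hfi : ∀ p, f (q (i p)) = y := by
    intro p
    have : i p ∈ (fun x => f (q x)) ⁻¹' {y} := by rw [← hrange]; exact mem_range_self p
    exact this
  have hrng : ∀ x, f (q x) = y → ∃ p, i p = x := by
    intro x hx
    have : x ∈ range i := by rw [hrange]; exact hx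
    exact this
  have hne : ∃ x, (dM E E q x).det ≠ 0 := by
    obtain ⟨p, hp⟩ := hgen
    exact ⟨i p, hp⟩
  -- pull back
  have hpull : kodaira E Δ ≤ kodaira E Δ' := by
    unfold kodaira kod
    refine iSup₂_le fun j hj => ?_
    have h1 := kodGE_pull (Δ' := Δ') (Δ := Δ) hq hqs hne hΔ' hΔ hm₀ hk₀' hk₀
      (fun x' => by
        obtain ⟨u, hu, -⟩ := hcr x'
        exact ⟨u, hu⟩) hj
    exact le_iSup₂_of_le j h1 le_rfl
  have hlogF : ∀ p, ∃ u : X' → ℂ, LogAt E q m₀ k₀' k₀ (i p) u ∧ u (i p) ≠ 0 := by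
    intro p
    obtain ⟨u, hu, hu'⟩ := hcr (i p)
    exact ⟨u, hu, hu' (hfi p)⟩
  have hFle := fun (j : ℕ) (hj : KodGE E₀ (eqnF E i) Δ' j)
      (hS : ∑ D ∈ hfin.toFinset, (fd.deg D : ℝ) * Δ D ≤ r + 1) =>
    kodF_le' hr e e₀ hol hq hqs hi ha hfi hrng hΔ' hΔ fd hm₀ hk₀' hk₀ hlogF hsub himm hgen
      hj hS
  -- the base
  set kF := kod E₀ (eqnF E i) Δ' with hkF
  show kF + kodaira E' (orbBase E E' f Δ) ≤ kodaira E Δ'
  refine le_trans ?_ hpull
  by_cases hYne : ∃ j, KodGE E' (fun (D : Set Y) z g => IsLocalEq E' D g z)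
      (orbBase E E' f Δ) j
  · -- the largest `j`
    obtain ⟨j₀, hj₀, hj₀max⟩ : ∃ j₀, KodGE E' (fun (D : Set Y) z g => IsLocalEq E' D g z)
        (orbBase E E' f Δ) j₀ ∧ ∀ j, KodGE E' (fun (D : Set Y) z g => IsLocalEq E' D g z)
        (orbBase E E' f Δ) j → j ≤ j₀ := by
      obtain ⟨j, hj⟩ := hYne
      refine ⟨Nat.findGreatest (fun j => KodGE E' (fun (D : Set Y) z g => IsLocalEq E' D g z)
        (orbBase E E' f Δ) j) (Module.finrank ℂ E'), ?_, ?_⟩
      · exact Nat.findGreatest_spec (P := fun j => KodGE E' (fun (D : Set Y) z g =>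
          IsLocalEq E' D g z) (orbBase E E' f Δ) j) (kodGE_le hj) hj
      · intro j' hj'
        exact Nat.le_findGreatest (kodGE_le hj') hj'
    have hYle : kodaira E' (orbBase E E' f Δ) ≤ ((j₀ : ℕ∞) : WithBot ℕ∞) := by
      unfold kodaira kod
      refine iSup₂_le fun j hj => ?_
      exact_mod_cast hj₀max j hj
    -- the lower bound from covariants
    have hlow : ∀ r', HasCov B Δ fd H 𝒢 r' →
        (((r' + j₀ : ℕ) : ℕ∞) : WithBot ℕ∞) ≤ kodaira E Δ := by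
      rintro r' ⟨M, N, K, C, Θ, hM, hN, hint, hK, hΘ, hinv, hne, hΘC⟩
      have hYnonempty : Nonempty Y := inferInstance
      have := kodGE_lower hr e hol hopen hsub' surj hfin hΔ.prime fd
        (fun D hD => ((hH D).1 hD).1) (fun D hD => ((hH D).1 hD).2) hG hM C hN hint hK hΘ hinv
        hne hΘC (bY := orbBase E E' f Δ)
        (fun G => orbBase_le (fun x => hol x) hopen hsub' surj fib (hΔ0 _).1 (hΔ0 _).2)
        (fun G hG' => by
          by_contra hnp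
          apply hG'
          unfold orbBase
          rw [if_neg hnp]) hj₀
      unfold kodaira kod
      exact le_iSup₂_of_le (r' + j₀) this le_rfl
    rcases lt_trichotomy (∑ D ∈ H, (fd.deg D : ℝ) * Δ D) (r + 1 : ℝ) with hlt | heq | hgt
    · have hbot : kF = ⊥ := by
        rw [hkF]
        unfold kod
        rw [iSup₂_eq_bot]
        intro j hj
        exfalso
        have := (hFle j hj (by rw [hsum]; exact hlt.le)).2
        rw [hsum] at this
        exact hlt.ne this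
      rw [hbot, WithBot.bot_add]
      exact bot_le
    · have hle : kF ≤ (((0 : ℕ) : ℕ∞) : WithBot ℕ∞) := by
        rw [hkF]
        unfold kod
        refine iSup₂_le fun j hj => ?_
        have := (hFle j hj (by rw [hsum]; exact heq.le)).1
        rw [this]
      calc kF + kodaira E' (orbBase E E' f Δ) ≤
            (((0 : ℕ) : ℕ∞) : WithBot ℕ∞) + ((j₀ : ℕ∞) : WithBot ℕ∞) :=
            add_le_add hle hYle
        _ = (((0 + j₀ : ℕ) : ℕ∞) : WithBot ℕ∞) := by push_cast; rfl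
        _ ≤ kodaira E Δ := hlow 0 (hcov0 heq)
    · have hle : kF ≤ (((r : ℕ) : ℕ∞) : WithBot ℕ∞) := by
        rw [hkF]
        unfold kod
        refine iSup₂_le fun j hj => ?_
        have := kodGE_le hj
        rw [hE₀] at this
        exact_mod_cast this
      calc kF + kodaira E' (orbBase E E' f Δ) ≤
            (((r : ℕ) : ℕ∞) : WithBot ℕ∞) + ((j₀ : ℕ∞) : WithBot ℕ∞) :=
            add_le_add hle hYle
        _ = (((r + j₀ : ℕ) : ℕ∞) : WithBot ℕ∞) := by push_cast; rfl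
        _ ≤ kodaira E Δ := hlow r (hcov1 hgt)
  · have h1 : kodaira E' (orbBase E E' f Δ) = ⊥ := by
      unfold kodaira kod
      rw [iSup₂_eq_bot]
      intro j hj
      exact absurd ⟨j, hj⟩ hYne
    rw [h1, WithBot.add_bot]
    exact bot_le

end Core

end Vale.Agent.P281.H76.S
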