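import Vale.Agent.P281.MathlibUsed
import Mathlib.MeasureTheory.Integral.Pi
import Mathlib.MeasureTheory.Function.Jacobian
import Mathlib.MeasureTheory.Measure.Lebesgue.VolumeOfBalls
import Mathlib.Analysis.SpecialFunctions.Pow.Integral
import Mathlib.Analysis.Calculus.InverseFunctionTheorem.FDeriv
import Mathlib.RingTheory.Norm.Transitivity
import Mathlib.RingTheory.Complex

/-! P281 (helper76): local integrability of `∏ |y_j| ^ (- 2 a_j)`, `a_j < 1`, for functions `y_j`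
with independent differentials. -/

namespace Vale.Agent.P281.H76

open scoped ContDiff Topology ENNReal
open Set Filter Metric MeasureTheory

set_option linter.all false

theorem det_real {n : ℕ} (A : (Fin n → ℂ) →L[ℂ] (Fin n → ℂ)) :
    (A.restrictScalars ℝ).det = ‖A.det‖ ^ 2 := by
  have h : (A.restrictScalars ℝ).det =
      LinearMap.det ((A : (Fin n → ℂ) →ₗ[ℂ] (Fin n → ℂ)).restrictScalars ℝ) := rfl
  rw [h, LinearMap.det_restrictScalars, Algebra.norm_complex_apply, Complex.normSq_eq_norm_sq]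

theorem lint_prod {n : ℕ} (μ : Measure ℂ) [SigmaFinite μ] (f : Fin n → ℂ → ℝ≥0∞)
    (hf : ∀ i, Measurable (f i)) :
    ∫⁻ x : Fin n → ℂ, ∏ i, f i (x i) ∂(Measure.pi fun _ : Fin n => μ) = ∏ i, ∫⁻ z, f i z ∂μ := by
  induction n with
  | zero => simp
  | succ n ih =>
    rw [((measurePreserving_piFinSuccAbove (fun _ : Fin (n + 1) => μ) 0).symm).lintegral_map_equiv]
    simp_rw [MeasurableEquiv.piFinSuccAbove_symm_apply, Fin.insertNthEquiv,
      Fin.prod_univ_succ, Fin.insertNth_zero]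
    simp only [Equiv.coe_fn_mk, Fin.cons_succ, Fin.cons_zero, cast_eq]
    have h1 := lintegral_prod_mul (μ := μ) (ν := Measure.pi fun _ : Fin n => μ) (f := f 0)
      (g := fun x : Fin n → ℂ => ∏ i : Fin n, f i.succ (x i)) (hf 0).aemeasurable
      (Finset.measurable_prod _ fun (i : Fin n) _ =>
        (hf i.succ).comp (measurable_pi_apply i)).aemeasurable
    refine h1.trans ?_
    rw [ih (fun i => f i.succ) fun i => hf _]

theorem int1 {a : ℝ} (ha : a < 1) :
    ∫⁻ z in ball (0 : ℂ) 1, ‖z‖ₑ ^ (-(2 * a)) ≠ ⊤ := by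
  have hfr : Module.finrank ℝ ℂ = 2 := Complex.finrank_real_complex
  have h1 : IntegrableOn (fun z : ℂ => ‖z‖ ^ (-(2 * a))) (ball 0 1) volume := by
    refine integrableOn_ball_of_norm_le_rpow (C := 1) (α := 2 * a) (by rw [hfr]; norm_num)
      (by rw [hfr]; push_cast; linarith) ?_ ?_
    · refine Eventually.of_forall fun z => ?_
      rw [one_mul, Real.norm_of_nonneg (Real.rpow_nonneg (norm_nonneg _) _)]
    · exact (measurable_norm.pow_const _).aestronglyMeasurable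
  have h2 := h1.2
  rw [hasFiniteIntegral_iff_enorm] at h2
  refine ne_of_lt (lt_of_le_of_lt (le_of_eq ?_) h2)
  refine lintegral_congr_ae ?_
  have h3 : ∀ᵐ z : ℂ ∂(volume.restrict (ball 0 1)), z ≠ 0 := by
    refine ae_restrict_of_ae ?_
    have : ({0} : Set ℂ)ᶜ ∈ ae volume := compl_mem_ae_iff.2 (measure_singleton 0)
    filter_upwards [this] with z hz
    exact hz
  filter_upwards [h3] with z hz
  have hz0 : 0 < ‖z‖ := norm_pos_iff.2 hz
  rw [← ofReal_norm_eq_enorm, ENNReal.ofReal_rpow_of_pos hz0, ← ofReal_norm_eq_enorm,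
    Real.norm_of_nonneg (Real.rpow_nonneg (norm_nonneg _) _)]

theorem intN {n : ℕ} {a : Fin n → ℝ} (ha : ∀ l, a l < 1) :
    ∫⁻ u in ball (0 : Fin n → ℂ) 1, ∏ l, ‖u l‖ₑ ^ (-(2 * a l)) ≠ ⊤ := by
  have h1 : ball (0 : Fin n → ℂ) 1 = Set.pi univ fun _ => ball (0 : ℂ) 1 := by
    ext u
    rw [mem_ball, dist_pi_lt_iff one_pos]
    simp [mem_ball]
  rw [h1, volume_pi, Measure.restrict_pi_pi, lint_prod (volume.restrict (ball (0 : ℂ) 1))
    (fun l z => ‖z‖ₑ ^ (-(2 * a l))) fun l => measurable_enorm.pow_const _]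
  exact ENNReal.prod_ne_top fun l _ => int1 (ha l)

theorem local_int {n : ℕ} {ι : Type*} (T : Finset ι) (y : ι → (Fin n → ℂ) → ℂ) (x₀ : Fin n → ℂ)
    (hy : ∀ j ∈ T, ContDiffAt ℂ ω (y j) x₀)
    (hind : LinearIndependent ℂ fun j : {j // j ∈ T ∧ y j x₀ = 0} => fderiv ℂ (y j.1) x₀)
    (a : ι → ℝ) (ha0 : ∀ j, 0 ≤ a j) (ha : ∀ j, a j < 1) :
    ∃ N ∈ 𝓝 x₀, ∫⁻ x in N, ∏ j ∈ T, ‖y j x‖ₑ ^ (-(2 * a j)) ≠ ⊤ := by
  classical
  set Z := {j // j ∈ T ∧ y j x₀ = 0} with hZ
  have hZfin : Finite Z := Finite.of_injective (fun j : Z => (⟨j.1, j.2.1⟩ : T))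
    fun i j h => Subtype.ext (congrArg (fun z : T => z.1) h)
  have : Fintype Z := Fintype.ofFinite Z
  let toL : ((Fin n → ℂ) →L[ℂ] ℂ) →ₗ[ℂ] Module.Dual ℂ (Fin n → ℂ) :=
    { toFun := fun φ => (φ : (Fin n → ℂ) →ₗ[ℂ] ℂ)
      map_add' := fun _ _ => rfl
      map_smul' := fun _ _ => rfl }
  have htoL : LinearMap.ker toL = ⊥ := by
    rw [LinearMap.ker_eq_bot']
    intro φ hφ
    exact ContinuousLinearMap.coe_injective hφ
  set v : Z → Module.Dual ℂ (Fin n → ℂ) := fun j => toL (fderiv ℂ (y j.1) x₀) with hv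
  have hvind : LinearIndependent ℂ v := hind.map' toL htoL
  have hvinj : Function.Injective v := hvind.injective
  have hs : LinearIndepOn ℂ id (range v) := hvind.linearIndepOn_id
  let Bs := Module.Basis.extend hs
  have hBsub : range v ⊆ hs.extend (subset_univ _) := hs.subset_extend _
  have : Fintype (hs.extend (subset_univ (range v))) := FiniteDimensional.fintypeBasisIndex Bs
  have hcard : Fintype.card (hs.extend (subset_univ (range v))) = Fintype.card (Fin n) := by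
    rw [← Module.finrank_eq_card_basis Bs, Subspace.dual_finrank_eq]
    simp
  let e : (hs.extend (subset_univ (range v))) ≃ Fin n := Fintype.equivOfCardEq hcard
  set b : Fin n → Module.Dual ℂ (Fin n → ℂ) := fun l => (e.symm l : Module.Dual ℂ (Fin n → ℂ))
    with hb
  have hbspan : ∀ ξ : Fin n → ℂ, (∀ l, b l ξ = 0) → ξ = 0 := by
    intro ξ hξ
    by_contra hne
    obtain ⟨φ, hφ⟩ : ∃ φ : Module.Dual ℂ (Fin n → ℂ), φ ξ ≠ 0 := by
      obtain ⟨l, hl⟩ := Function.ne_iff.1 hne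
      exact ⟨LinearMap.proj l, hl⟩
    apply hφ
    have h1 : φ = ∑ i, Bs.repr φ i • Bs i := (Bs.sum_repr φ).symm
    rw [h1, LinearMap.sum_apply]
    refine Finset.sum_eq_zero fun i _ => ?_
    rw [LinearMap.smul_apply, Module.Basis.extend_apply_self hs i]
    have := hξ (e i)
    rw [hb] at this
    simp only [Equiv.symm_apply_apply] at this
    rw [this, smul_zero]
  -- the coordinates
  let P : Fin n → Prop := fun l => ∃ j : Z, v j = b l
  let F : Fin n → (Fin n → ℂ) → ℂ := fun l x =>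
    if h : P l then y h.choose.1 x else b l (x - x₀)
  let a' : Fin n → ℝ := fun l => if h : P l then a h.choose.1 else 0
  have ha' : ∀ l, a' l < 1 := by
    intro l
    by_cases h : P l
    · simp only [a', dif_pos h]; exact ha _
    · simp only [a', dif_neg h]; exact one_pos
  have hFcd : ∀ l, ContDiffAt ℂ ω (F l) x₀ := by
    intro l
    by_cases h : P l
    · have : F l = y h.choose.1 := by funext x; simp only [F, dif_pos h]
      rw [this]
      exact hy _ h.choose.2.1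
    · have : F l = fun x => (LinearMap.toContinuousLinearMap (b l)) (x - x₀) := by
        funext x; simp only [F, dif_neg h]; rfl
      rw [this]
      exact (ContinuousLinearMap.contDiff _).contDiffAt.comp x₀
        (contDiffAt_id.sub contDiffAt_const)
  have hF0 : ∀ l, F l x₀ = 0 := by
    intro l
    by_cases h : P l
    · simp only [F, dif_pos h]; exact h.choose.2.2
    · simp only [F, dif_neg h, sub_self, map_zero]
  have hFd : ∀ l ξ, fderiv ℂ (F l) x₀ ξ = b l ξ := by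
    intro l ξ
    by_cases h : P l
    · have h1 : F l = y h.choose.1 := by funext x; simp only [F, dif_pos h]
      rw [h1]
      exact congrArg (fun φ : Module.Dual ℂ (Fin n → ℂ) => φ ξ) h.choose_spec
    · have h1 : F l = fun x => (LinearMap.toContinuousLinearMap (b l)) (x - x₀) := by
        funext x; simp only [F, dif_neg h]; rfl
      have h2 : HasFDerivAt (fun x : Fin n → ℂ => x - x₀) (ContinuousLinearMap.id ℂ _) x₀ :=
        (hasFDerivAt_id x₀).sub_const x₀
      have h3 := (LinearMap.toContinuousLinearMap (b l)).hasFDerivAt.comp x₀ h2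
      rw [h1]
      have h4 : HasFDerivAt (fun x => (LinearMap.toContinuousLinearMap (b l)) (x - x₀)) _ x₀ := h3
      rw [h4.fderiv]
      rfl
  set Φ : (Fin n → ℂ) → (Fin n → ℂ) := fun x l => F l x with hΦ
  have hΦcd : ContDiffAt ℂ ω Φ x₀ := contDiffAt_pi.2 hFcd
  have hΦ0 : Φ x₀ = 0 := funext hF0
  have hΦd : ∀ ξ l, fderiv ℂ Φ x₀ ξ l = b l ξ := by
    intro ξ l
    have h1 : fderiv ℂ Φ x₀ = ContinuousLinearMap.pi fun l => fderiv ℂ (F l) x₀ :=
      fderiv_pi fun l => (hFcd l).differentiableAt (by simp)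
    rw [h1, ContinuousLinearMap.pi_apply, hFd]
  have hinj : Function.Injective (fderiv ℂ Φ x₀) := by
    rw [injective_iff_map_eq_zero]
    intro ξ hξ
    exact hbspan ξ fun l => by rw [← hΦd, hξ]; rfl
  have hdet : (fderiv ℂ Φ x₀).det ≠ 0 := by
    have h1 : IsUnit (LinearMap.det ((fderiv ℂ Φ x₀ : (Fin n → ℂ) →L[ℂ] (Fin n → ℂ)) :
        (Fin n → ℂ) →ₗ[ℂ] (Fin n → ℂ))) := by
      have h2 := LinearMap.injective_iff_surjective (f := ((fderiv ℂ Φ x₀ :
        (Fin n → ℂ) →L[ℂ] (Fin n → ℂ)) : (Fin n → ℂ) →ₗ[ℂ] (Fin n → ℂ)))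
      exact LinearEquiv.isUnit_det' (LinearEquiv.ofBijective _ ⟨hinj, h2.1 hinj⟩)
    exact h1.ne_zero
  -- local injectivity
  let A : (Fin n → ℂ) ≃L[ℂ] (Fin n → ℂ) := (LinearEquiv.ofBijective
    ((fderiv ℂ Φ x₀ : (Fin n → ℂ) →L[ℂ] (Fin n → ℂ)) : (Fin n → ℂ) →ₗ[ℂ] (Fin n → ℂ))
    ⟨hinj, (LinearMap.injective_iff_surjective (f := ((fderiv ℂ Φ x₀ :
        (Fin n → ℂ) →L[ℂ] (Fin n → ℂ)) : (Fin n → ℂ) →ₗ[ℂ] (Fin n → ℂ)))).1
        hinj⟩).toContinuousLinearEquiv
  have hA : (A : (Fin n → ℂ) →L[ℂ] (Fin n → ℂ)) = fderiv ℂ Φ x₀ :=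
    ContinuousLinearMap.ext fun q => rfl
  have hstr : HasStrictFDerivAt Φ (A : (Fin n → ℂ) →L[ℂ] (Fin n → ℂ)) x₀ := by
    rw [hA]; exact hΦcd.hasStrictFDerivAt (by simp)
  have e1 : ∀ᶠ x in 𝓝 x₀, x ∈ (hstr.toOpenPartialHomeomorph Φ).source :=
    (hstr.toOpenPartialHomeomorph Φ).open_source.mem_nhds hstr.mem_toOpenPartialHomeomorph_source
  have e2 : ∀ᶠ x in 𝓝 x₀, DifferentiableAt ℂ Φ x := by
    have := hΦcd.eventually (by simp)
    filter_upwards [this] with x hx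
    exact hx.differentiableAt (by simp)
  have e3 : ∀ᶠ x in 𝓝 x₀, ‖(fderiv ℂ Φ x₀).det‖ / 2 < ‖(fderiv ℂ Φ x).det‖ := by
    have h1 : ContinuousAt (fun x => (fderiv ℂ Φ x).det) x₀ :=
      (ContinuousLinearMap.continuous_det).continuousAt.comp
        (hΦcd.fderiv_right (m := ω) (by simp)).continuousAt
    refine h1.norm.eventually_const_lt ?_
    have := norm_pos_iff.2 hdet
    linarith
  have e4 : ∀ᶠ x in 𝓝 x₀, Φ x ∈ ball (0 : Fin n → ℂ) 1 := by
    refine hΦcd.continuousAt.eventually ?_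
    rw [hΦ0]
    exact ball_mem_nhds _ one_pos
  -- the other factors
  have e5 : ∀ j : ι, ∃ m : ℝ, 0 < m ∧ (j ∈ T → y j x₀ ≠ 0 → ∀ᶠ x in 𝓝 x₀, m < ‖y j x‖) := by
    intro j
    by_cases hj : j ∈ T ∧ y j x₀ ≠ 0
    · refine ⟨‖y j x₀‖ / 2, half_pos (norm_pos_iff.2 hj.2), fun _ _ => ?_⟩
      refine (hy j hj.1).continuousAt.norm.eventually_const_lt ?_
      have := norm_pos_iff.2 hj.2
      linarith
    · exact ⟨1, one_pos, fun h1 h2 => absurd ⟨h1, h2⟩ hj⟩
  choose m hm0 hm using e5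
  have e6 : ∀ᶠ x in 𝓝 x₀, ∀ j ∈ T, y j x₀ ≠ 0 → m j < ‖y j x‖ := by
    rw [Finset.eventually_all]
    intro j hj
    by_cases h0 : y j x₀ = 0
    · exact Eventually.of_forall fun x h => absurd h0 h
    · filter_upwards [hm j hj h0] with x hx _
      exact hx
  obtain ⟨ρ, hρ, hball⟩ := Metric.eventually_nhds_iff_ball.1
    ((e1.and e2).and ((e3.and e4).and e6))
  refine ⟨ball x₀ ρ, ball_mem_nhds _ hρ, ?_⟩
  set d : ℝ := ‖(fderiv ℂ Φ x₀).det‖ / 2 with hd
  have hd0 : 0 < d := half_pos (norm_pos_iff.2 hdet)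
  -- pointwise bound
  set Cst : ℝ≥0∞ := ∏ j ∈ T.filter (fun j => ¬ y j x₀ = 0),
    (ENNReal.ofReal (m j)) ^ (-(2 * a j)) with hCstd
  have hCst : Cst ≠ ⊤ := by
    refine ENNReal.prod_ne_top fun j _ => ?_
    rw [ENNReal.ofReal_rpow_of_pos (hm0 j)]
    exact ENNReal.ofReal_ne_top
  -- reindexing
  have hτ : ∀ j : Z, ∃ l, b l = v j := fun j =>
    ⟨e ⟨v j, hBsub ⟨j, rfl⟩⟩, by simp [hb]⟩
  choose τ hτ using hτ
  have hτinj : Function.Injective τ := fun j j' h => hvinj (by rw [← hτ, ← hτ, h])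
  have hPτ : ∀ j, P (τ j) := fun j => ⟨j, (hτ j).symm⟩
  have hch : ∀ j, (hPτ j).choose = j := fun j => hvinj (by rw [(hPτ j).choose_spec, hτ])
  have hprodZ : ∀ x, ∏ j : Z, ‖y j.1 x‖ₑ ^ (-(2 * a j.1)) = ∏ l, ‖Φ x l‖ₑ ^ (-(2 * a' l)) := by
    intro x
    refine Fintype.prod_of_injective τ hτinj _ _ (fun l hl => ?_) fun j => ?_
    · have hP : ¬ P l := by
        rintro ⟨j, hj⟩
        apply hl
        refine ⟨j, ?_⟩
        have h1 : b (τ j) = b l := by rw [hτ, hj]
        have h2 : e.symm (τ j) = e.symm l := Subtype.ext h1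
        exact e.symm.injective h2
      simp only [a', dif_neg hP, mul_zero, neg_zero, ENNReal.rpow_zero]
    · have h1 : Φ x (τ j) = y j.1 x := by
        simp only [Φ, F, dif_pos (hPτ j), hch]
      have h2 : a' (τ j) = a j.1 := by
        simp only [a', dif_pos (hPτ j), hch]
      rw [h1, h2]
  have hpt : ∀ x ∈ ball x₀ ρ, ∏ j ∈ T, ‖y j x‖ₑ ^ (-(2 * a j)) ≤
      Cst * ∏ l, ‖Φ x l‖ₑ ^ (-(2 * a' l)) := by
    intro x hx
    rw [← Finset.prod_filter_mul_prod_filter_not T (fun j => y j x₀ = 0), mul_comm]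
    refine mul_le_mul' ?_ (le_of_eq ?_)
    · rw [hCstd]
      refine Finset.prod_le_prod' fun j hj => ?_
      rw [Finset.mem_filter] at hj
      have h1 := (hball x hx).2.2 j hj.1 hj.2
      rw [ENNReal.rpow_neg, ENNReal.rpow_neg, ENNReal.inv_le_inv]
      refine ENNReal.rpow_le_rpow ?_ (by have := ha0 j; positivity)
      rw [← ofReal_norm_eq_enorm]
      exact ENNReal.ofReal_le_ofReal h1.le
    · rw [← hprodZ]
      exact Finset.prod_subtype _ (fun j => by rw [Finset.mem_filter]) _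
  set Gf : (Fin n → ℂ) → ℝ≥0∞ := fun u => ∏ l, ‖u l‖ₑ ^ (-(2 * a' l)) with hGf
  have hA2 : ∫⁻ x in ball x₀ ρ, Gf (Φ x) ≤
      (ENNReal.ofReal (d ^ 2))⁻¹ * ∫⁻ u in ball (0 : Fin n → ℂ) 1, Gf u := by
    have h1 : ∫⁻ x in ball x₀ ρ, Gf (Φ x) ≤ ∫⁻ x in ball x₀ ρ, (ENNReal.ofReal (d ^ 2))⁻¹ *
        (ENNReal.ofReal |((fderiv ℂ Φ x).restrictScalars ℝ).det| * Gf (Φ x)) := by
      refine setLIntegral_mono' measurableSet_ball fun x hx => ?_
      rw [← mul_assoc]
      refine le_mul_of_one_le_left zero_le ?_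
      have h2 := (hball x hx).2.1.1
      rw [det_real, abs_of_nonneg (by positivity), ← ENNReal.ofReal_inv_of_pos (by positivity),
        ← ENNReal.ofReal_mul (by positivity)]
      rw [ENNReal.one_le_ofReal, inv_mul_eq_div, one_le_div (by positivity)]
      exact pow_le_pow_left₀ hd0.le h2.le 2
    refine h1.trans ?_
    rw [lintegral_const_mul' _ _ (by
      rw [Ne, ENNReal.inv_eq_top, ENNReal.ofReal_eq_zero, not_le]
      positivity)]
    refine mul_le_mul_right ?_ _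
    rw [← lintegral_image_eq_lintegral_abs_det_fderiv_mul volume measurableSet_ball (f := Φ)
      (f' := fun x => (fderiv ℂ Φ x).restrictScalars ℝ) (fun x hx => by
        have h2 := (hball x hx).1.2
        exact (h2.hasFDerivAt.restrictScalars ℝ).hasFDerivWithinAt) (by
        intro x hx x' hx' hxx'
        exact (hstr.toOpenPartialHomeomorph Φ).injOn (hball x hx).1.1 (hball x' hx').1.1 hxx')]
    refine lintegral_mono_set ?_
    rintro _ ⟨x, hx, rfl⟩
    exact (hball x hx).2.1.2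
  refine ne_top_of_le_ne_top ?_ (setLIntegral_mono' measurableSet_ball hpt)
  rw [lintegral_const_mul' _ _ hCst]
  refine ENNReal.mul_ne_top hCst (ne_top_of_le_ne_top (ENNReal.mul_ne_top ?_ (intN ha')) hA2)
  rw [Ne, ENNReal.inv_eq_top, ENNReal.ofReal_eq_zero, not_le]
  positivity

end Vale.Agent.P281.H76
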