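import Vale.Agent.P281.H76.Lcm
import Vale.Agent.P281.H76.SncInt

/-! P281 (helper76): comparison of volumes on the fibres of `f ∘ q`. -/

namespace Vale.Agent.P281.H76.S

open scoped Manifold ContDiff Topology ENNReal
open Set Filter Metric MeasureTheory

set_option linter.all false

universe u

section Psi

variable {E₀ : Type} [NormedAddCommGroup E₀] [NormedSpace ℂ E₀] [FiniteDimensional ℂ E₀]
variable {F : Type u} [TopologicalSpace F] [ChartedSpace E₀ F] [IsManifold 𝓘(ℂ, E₀) ω F]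

/-- the cone over a map to homogeneous coordinates, in a chart. -/
noncomputable def Psi {n : ℕ} (e₀ : (E₀ × ℂ) ≃L[ℂ] (Fin n → ℂ))
    (Hm : (Fin n → ℂ) →L[ℂ] (Fin n → ℂ)) (u : F → (Fin n → ℂ)) (p₀ : F) (x : Fin n → ℂ) :
    Fin n → ℂ :=
  (e₀.symm x).2 • Hm (u ((chartAt E₀ p₀).symm (e₀.symm x).1))

theorem psi_det {n : ℕ} (e₀ : (E₀ × ℂ) ≃L[ℂ] (Fin n → ℂ))
    (Hm : (Fin n → ℂ) →L[ℂ] (Fin n → ℂ)) {u : F → (Fin n → ℂ)} {p₀ p : F}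
    (hp : p ∈ (chartAt E₀ p₀).source) (hu : HolV E₀ u p) (c : ℂ) :
    ∃ A : (Fin n → ℂ) →L[ℂ] (Fin n → ℂ),
      HasFDerivAt (Psi e₀ Hm u p₀) A (e₀ (chartAt E₀ p₀ p, c)) ∧
      A.det * jac E₀ (chartAt E₀ p₀) p = Hm.det * (c ^ (Module.finrank ℂ E₀) * J0 e₀ u p) := by
  set φ := chartAt E₀ p₀ with hφ
  set z := φ p with hz
  have hzp : φ.symm z = p := φ.left_inv hp
  set ut : E₀ → (Fin n → ℂ) := u ∘ φ.symm with hut
  have hutd : HasFDerivAt ut (fderiv ℂ ut z) z :=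
    ((hu.rep hp).differentiableAt (by simp)).hasFDerivAt
  let M : (E₀ × ℂ) →L[ℂ] (Fin n → ℂ) :=
    (fderiv ℂ ut z).comp (ContinuousLinearMap.fst ℂ E₀ ℂ) +
      (ContinuousLinearMap.snd ℂ E₀ ℂ).smulRight (u p)
  let Sc : (E₀ × ℂ) →L[ℂ] (E₀ × ℂ) :=
    (c • ContinuousLinearMap.fst ℂ E₀ ℂ).prod (ContinuousLinearMap.snd ℂ E₀ ℂ)
  let R : (E₀ × ℂ) →L[ℂ] (E₀ × ℂ) :=
    ((dV E₀ (φ : F → E₀) p).comp (ContinuousLinearMap.fst ℂ E₀ ℂ)).prod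
      (ContinuousLinearMap.snd ℂ E₀ ℂ)
  have hSc : Sc.det = c ^ (Module.finrank ℂ E₀) := by
    have : Sc.det = LinearMap.det (LinearMap.prodMap (c • (LinearMap.id : E₀ →ₗ[ℂ] E₀))
      (LinearMap.id : ℂ →ₗ[ℂ] ℂ)) := rfl
    rw [this, LinearMap.det_prodMap, LinearMap.det_id, mul_one, LinearMap.det_smul,
      LinearMap.det_id, mul_one]
  have hR : R.det = jac E₀ φ p := by
    have : R.det = LinearMap.det (LinearMap.prodMap
      ((dV E₀ (φ : F → E₀) p : E₀ →L[ℂ] E₀) : E₀ →ₗ[ℂ] E₀)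
      (LinearMap.id : ℂ →ₗ[ℂ] ℂ)) := rfl
    rw [this, LinearMap.det_prodMap, LinearMap.det_id, mul_one]
    rfl
  refine ⟨Hm.comp ((M.comp Sc).comp (e₀.symm : (Fin n → ℂ) →L[ℂ] (E₀ × ℂ))), ?_, ?_⟩
  · have h1 : HasFDerivAt (fun a : E₀ × ℂ => a.2 • ut a.1) (M.comp Sc) (z, c) := by
      have h2 : HasFDerivAt (fun q : E₀ × ℂ => ut q.1)
          ((fderiv ℂ ut z).comp (ContinuousLinearMap.fst ℂ E₀ ℂ)) (z, c) :=
        HasFDerivAt.comp (g := ut) (f := Prod.fst) (z, c) hutd hasFDerivAt_fst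
      have h3 := (hasFDerivAt_snd (𝕜 := ℂ) (p := (z, c))).smul h2
      refine h3.congr_fderiv ?_
      refine ContinuousLinearMap.ext fun a => ?_
      obtain ⟨ξ, γ⟩ := a
      simp only [M, Sc, add_apply, smul_apply, ContinuousLinearMap.comp_apply,
        ContinuousLinearMap.coe_fst', ContinuousLinearMap.smulRight_apply,
        ContinuousLinearMap.coe_snd', ContinuousLinearMap.prod_apply, map_smul, hut,
        Function.comp_apply, hzp]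
    have h2 : HasFDerivAt (fun x => (e₀.symm x).2 • ut (e₀.symm x).1)
        ((M.comp Sc).comp (e₀.symm : (Fin n → ℂ) →L[ℂ] (E₀ × ℂ))) (e₀ (z, c)) := by
      refine HasFDerivAt.comp (g := fun a : E₀ × ℂ => a.2 • ut a.1) (f := fun x => e₀.symm x)
        (e₀ (z, c)) ?_ e₀.symm.hasFDerivAt
      rw [e₀.symm_apply_apply]
      exact h1
    have h3 := Hm.hasFDerivAt.comp (e₀ (z, c)) h2
    refine h3.congr_of_eventuallyEq (Eventually.of_forall fun x => ?_)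
    simp only [Psi, Function.comp_apply, map_smul, hut, hφ]
  · have h1 : J0 e₀ u p = (M.comp (e₀.symm : (Fin n → ℂ) →L[ℂ] (E₀ × ℂ))).det * jac E₀ φ p := by
      rw [← hR]
      unfold J0
      have key : (L0 (E := E₀) u p).comp (e₀.symm : (Fin n → ℂ) →L[ℂ] (E₀ × ℂ)) =
          (M.comp R).comp (e₀.symm : (Fin n → ℂ) →L[ℂ] (E₀ × ℂ)) := by
        congr 1
        refine ContinuousLinearMap.ext fun a => ?_
        obtain ⟨ξ, γ⟩ := a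
        have hRa : R (ξ, γ) = (dV E₀ (φ : F → E₀) p ξ, γ) := rfl
        rw [ContinuousLinearMap.comp_apply, L0_apply, hRa, dV_eq_chart hp hu]
        simp only [M, ContinuousLinearMap.comp_apply, add_apply,
          ContinuousLinearMap.smulRight_apply, ContinuousLinearMap.coe_fst',
          ContinuousLinearMap.coe_snd', hut]
        rfl
      rw [key, det_conj_e0]
    rw [clm_det_comp, det_conj_e0, hSc, h1]
    ring

end Psi

section LL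

variable {E E' E₀ : Type} [NormedAddCommGroup E] [NormedSpace ℂ E]
  [NormedAddCommGroup E'] [NormedSpace ℂ E'] [NormedAddCommGroup E₀] [NormedSpace ℂ E₀]
  [FiniteDimensional ℂ E] [FiniteDimensional ℂ E'] [FiniteDimensional ℂ E₀]
variable {X X' Y F : Type u} [TopologicalSpace X] [ChartedSpace E X] [IsManifold 𝓘(ℂ, E) ω X]
  [TopologicalSpace X'] [ChartedSpace E X'] [IsManifold 𝓘(ℂ, E) ω X']
  [TopologicalSpace Y] [ChartedSpace E' Y] [IsManifold 𝓘(ℂ, E') ω Y]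
  [TopologicalSpace F] [ChartedSpace E₀ F] [IsManifold 𝓘(ℂ, E₀) ω F]
variable {f : X → Y} {q : X' → X} {r : ℕ} {B : ProjectiveBundle E E' f r}
  {i : F → X'} {y : Y} {a : B.ι} {Δ : Set X → ℝ}

/-- transversality of the fibre to the boundary at `p`. -/
def TrAt (E E₀ : Type) [NormedAddCommGroup E] [NormedSpace ℂ E] [NormedAddCommGroup E₀]
    [NormedSpace ℂ E₀] {X' F : Type u} [TopologicalSpace X'] [ChartedSpace E X']
    [TopologicalSpace F] [ChartedSpace E₀ F] (i : F → X') (Δ' : Set X' → ℝ) (p : F) : Prop :=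
  ∀ g' : Set X' → X' → ℂ, (∀ D, Δ' D ≠ 0 → i p ∈ D → IsLocalEq E D (g' D) (i p)) →
    LinearIndependent ℂ fun D : {D // Δ' D ≠ 0 ∧ i p ∈ D} =>
      (dif E (g' D.1) (i p)).comp (dM E₀ E i p)

theorem pull_int {n : ℕ} (e₀ : (E₀ × ℂ) ≃L[ℂ] (Fin n → ℂ)) (hi : ∀ p, HolM E₀ E i p)
    {Δ' : Set X' → ℝ} (hΔ' : IsBdry E Δ') {p₀ : F} (htr : TrAt E E₀ i Δ' p₀) (T : Finset (Set X'))
    (hT : ∀ D ∈ T, Δ' D ≠ 0) (g' : Set X' → X' → ℂ) (hg' : ∀ D ∈ T, IsLocalEq E D (g' D) (i p₀))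
    (c₀ : ℂ) {s : ℝ} (hs0 : 0 < s) (hs1 : s < 1) :
    ∃ N ∈ 𝓝 (e₀ (chartAt E₀ p₀ p₀, c₀)),
      ∫⁻ x in N, ∏ D ∈ T, ‖g' D (i ((chartAt E₀ p₀).symm (e₀.symm x).1))‖ₑ ^
        (-(2 * (s * Δ' D))) ≠ ⊤ := by
  classical
  set φ := chartAt E₀ p₀ with hφ
  have hp₀ : p₀ ∈ φ.source := mem_chart_source E₀ p₀
  have hΔ0 : ∀ D, 0 ≤ Δ' D ∧ Δ' D ≤ 1 := by
    intro D
    obtain ⟨q, hq, h0, h1⟩ := hΔ'.rational D
    rw [hq]
    exact ⟨by exact_mod_cast h0, by exact_mod_cast h1⟩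
  have hgi : ∀ D ∈ T, HolV E₀ (fun p => g' D (i p)) p₀ := fun D hD =>
    HolV.comp (h := g' D) (hg' D hD).holAt (hi p₀)
  have hrep : ∀ D ∈ T, ContDiffAt ℂ ω ((fun p => g' D (i p)) ∘ φ.symm) (φ p₀) := fun D hD =>
    (hgi D hD).rep hp₀
  set X₀ := e₀ (φ p₀, c₀) with hX₀
  have hX₀1 : (e₀.symm X₀).1 = φ p₀ := by rw [hX₀, e₀.symm_apply_apply]
  have hlin : ContDiff ℂ ω (fun x : Fin n → ℂ => (e₀.symm x).1) :=
    contDiff_fst.comp e₀.symm.contDiff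
  have hval : ∀ D, g' D (i (φ.symm (e₀.symm X₀).1)) = g' D (i p₀) := by
    intro D; rw [hX₀1, φ.left_inv hp₀]
  refine local_int T (fun D x => g' D (i (φ.symm (e₀.symm x).1))) X₀ ?_ ?_ (fun D => s * Δ' D)
    (fun D => mul_nonneg hs0.le (hΔ0 D).1) (fun D => ?_)
  · intro D hD
    have h1 := hrep D hD
    rw [← hX₀1] at h1
    exact ContDiffAt.comp (g := (fun p => g' D (i p)) ∘ φ.symm) (f := fun x => (e₀.symm x).1) X₀
      h1 hlin.contDiffAt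
  · -- extend the equations
    have hder : ∀ D' ∈ T, HasFDerivAt ((fun p => g' D' (i p)) ∘ φ.symm)
        (fderiv ℂ ((fun p => g' D' (i p)) ∘ φ.symm) (φ p₀)) (e₀.symm X₀).1 := by
      intro D' hD'
      rw [hX₀1]
      exact ((hrep D' hD').differentiableAt (by simp)).hasFDerivAt
    have hex : ∀ D : Set X', ∃ gD : X' → ℂ, (D ∈ T → gD = g' D) ∧
        (Δ' D ≠ 0 → IsLocalEq E D gD (i p₀)) := by
      intro D
      by_cases hD : D ∈ T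
      · exact ⟨g' D, fun _ => rfl, fun _ => hg' D hD⟩
      · by_cases hD' : Δ' D ≠ 0
        · obtain ⟨gD, hgD⟩ := (hΔ'.prime D hD').2.1 (i p₀)
          exact ⟨gD, fun h => absurd h hD, fun _ => hgD⟩
        · exact ⟨fun _ => 0, fun h => absurd h hD, fun h => absurd h hD'⟩
    choose G hG1 hG2 using hex
    have h1 := htr G fun D hD _ => hG2 D hD
    let τ : {D // D ∈ T ∧ g' D (i (φ.symm (e₀.symm X₀).1)) = 0} →
        {D // Δ' D ≠ 0 ∧ i p₀ ∈ D} := fun D => ⟨D.1, hT D.1 D.2.1, by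
      rw [(hg' D.1 D.2.1).mem_iff, ← hval]; exact D.2.2⟩
    have hτ : Function.Injective τ := fun D D' h =>
      Subtype.ext (congrArg (fun z : {D // Δ' D ≠ 0 ∧ i p₀ ∈ D} => z.1) h)
    have h2 := h1.comp τ hτ
    let Lc : E₀ →L[ℂ] (Fin n → ℂ) := (e₀ : (E₀ × ℂ) →L[ℂ] (Fin n → ℂ)).comp
      ((dV E₀ (φ : F → E₀) p₀).prod 0)
    let Θ : ((Fin n → ℂ) →L[ℂ] ℂ) →ₗ[ℂ] (E₀ →L[ℂ] ℂ) :=
      { toFun := fun ψ => ψ.comp Lc
        map_add' := fun _ _ => rfl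
        map_smul' := fun _ _ => rfl }
    apply LinearIndependent.of_comp Θ
    refine (linearIndependent_equiv' (Equiv.refl _) ?_).1 h2
    funext D
    refine ContinuousLinearMap.ext fun ξ => ?_
    have hD := D.2.1
    have h3 := hder D.1 hD
    have h4 : HasFDerivAt (fun x : Fin n → ℂ => (e₀.symm x).1)
        ((ContinuousLinearMap.fst ℂ E₀ ℂ).comp (e₀.symm : (Fin n → ℂ) →L[ℂ] (E₀ × ℂ))) X₀ :=
      ((ContinuousLinearMap.fst ℂ E₀ ℂ).comp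
        (e₀.symm : (Fin n → ℂ) →L[ℂ] (E₀ × ℂ))).hasFDerivAt
    have h5 := h3.comp X₀ h4
    have h6 : fderiv ℂ (fun x => g' D.1 (i (φ.symm (e₀.symm x).1))) X₀ =
        (fderiv ℂ ((fun p => g' D.1 (i p)) ∘ φ.symm) (φ p₀)).comp
        ((ContinuousLinearMap.fst ℂ E₀ ℂ).comp (e₀.symm : (Fin n → ℂ) →L[ℂ] (E₀ × ℂ))) :=
      h5.fderiv
    have h7 : dV E₀ (fun p => g' D.1 (i p)) p₀ = (dif E (g' D.1) (i p₀)).comp (dM E₀ E i p₀) :=
      dV_comp (h := g' D.1) (hg' D.1 hD).holAt (hi p₀)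
    have h8 : dV E₀ (fun p => g' D.1 (i p)) p₀ ξ =
        fderiv ℂ ((fun p => g' D.1 (i p)) ∘ φ.symm) (φ p₀) (dV E₀ (φ : F → E₀) p₀ ξ) := by
      rw [dV_eq_chart hp₀ (hgi D.1 hD)]; rfl
    show fderiv ℂ (fun x => g' D.1 (i (φ.symm (e₀.symm x).1))) X₀ (Lc ξ) =
      ((dif E (G D.1) (i p₀)).comp (dM E₀ E i p₀)) ξ
    rw [hG1 D.1 hD, ← h7, h8, h6]
    simp only [Lc, ContinuousLinearMap.comp_apply, ContinuousLinearEquiv.coe_coe,
      e₀.symm_apply_apply, ContinuousLinearMap.coe_fst', ContinuousLinearMap.prod_apply]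
  · have := hΔ0 D
    nlinarith [this.1, this.2]

/-- pointwise bound of the Jacobian. -/
theorem b_bound (fd : FormData B {D | Δ D ≠ 0}) {Tf : Finset (Set X)}
    (hTf : ∀ D, D ∈ Tf ↔ Δ D ≠ 0) {Δ' : Set X' → ℝ} (hΔ0' : ∀ D, 0 ≤ Δ' D)
    {m₀ : ℕ} {k₀' : Set X' → ℕ} {k₀ : Set X → ℕ} (hm₀ : 0 < m₀)
    (hk₀' : ∀ D, (k₀' D : ℝ) = m₀ * Δ' D) (hk₀ : ∀ D, (k₀ D : ℝ) = m₀ * Δ D)
    (hq : ∀ x, HolM E E q x) (hi : ∀ p, HolM E₀ E i p) (hya : y ∈ B.U a)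
    (hfi : ∀ p, f (q (i p)) = y) {p₀ : F} {T' : Finset (Set X')} {g' : Set X' → X' → ℂ}
    {T₁ : Finset (Set X)} {g : Set X → X → ℂ} {b u : X' → ℂ}
    (hT₁ : ∀ D, k₀ D ≠ 0 → D ∈ T₁) (hg : ∀ D ∈ T₁, IsLocalEq E D (g D) (q (i p₀)))
    (hb : HolV E b (i p₀)) (hu : HolV E u (i p₀))
    (hev : ∀ᶠ z in 𝓝 (i p₀),
      b z ^ m₀ * ∏ D ∈ T', g' D z ^ k₀' D = u z * ∏ D ∈ T₁, g D (q z) ^ k₀ D)
    {h : Matrix (Fin (r + 1)) (Fin (r + 1)) ℂ} (hh : h.det ≠ 0)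
    {w : Fin (r + 1) → ℕ} {l1 : Fin (r + 1)} (hw : w l1 = 0) {o : Set X → ℕ}
    (ho : ∀ D ∈ Tf, ∀ J, GIT.act (GIT.sym (fun J => fd.p a D J y)) h J ≠ 0 →
      o D ≤ ∑ s, w (J s))
    {v : X → Fin (r + 1) → ℂ} (hv : IsLift E f (B.π a) v (q (i p₀))) {s : ℝ} (hs0 : 0 < s)
    (hs1 : s < 1) :
    ∃ C : ℝ, 0 < C ∧ ∀ᶠ p in 𝓝 p₀, ∀ (c : ℂ) (t : ℝ), 0 < t → t ≤ 1 →
      c • h⁻¹.mulVec (v (q (i p))) ∈ PD (Pi.single l1 1) w (1 / 2) t →
      ‖b (i p)‖ₑ ^ (2 : ℝ) ≤ ENNReal.ofReal (C * t ^ (2 * s * ∑ D ∈ Tf, Δ D * o D)) *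
        ∏ D ∈ T'.filter (fun D => k₀' D ≠ 0), ‖g' D (i p)‖ₑ ^ (-(2 * (s * Δ' D))) := by
  classical
  have hm₀r : (0 : ℝ) < m₀ := by exact_mod_cast hm₀
  have hunit : IsUnit h.det := isUnit_iff_ne_zero.2 hh
  -- products of forms
  obtain ⟨W, hW, hW0, hWe⟩ := prod_unit (k := k₀) (x := q (i p₀)) (T := T₁) (T' := Tf) (g := g)
    (g' := fun D z => form (fun J => fd.p a D J (f z)) (v z)) hT₁
    (fun D hD => (hTf D).2 (fun h0 => hD (by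
      have := hk₀ D
      rw [h0, mul_zero] at this
      exact_mod_cast this))) hg
    (fun D hD => fd.eqn a D ((hTf D).1 hD) (q (i p₀)) v (by rw [hfi]; exact hya) hv)
  have hic : ContinuousAt i p₀ := (hi p₀).continuousAt
  have hqi : ContinuousAt (fun p => q (i p)) p₀ :=
    ContinuousAt.comp (g := q) (f := i) (hq _).continuousAt hic
  -- constants
  have hbi : ContinuousAt (fun p => b (i p)) p₀ :=
    (HolV.comp (h := b) hb (hi p₀)).continuousAt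
  have hui : ContinuousAt (fun p => u (i p) * W (q (i p))) p₀ :=
    ((HolV.comp (h := u) hu (hi p₀)).mul (HolV.comp (h := fun z => W (q z))
      (HolV.comp (h := W) hW (hq _)) (hi p₀))).continuousAt
  have hvi : ContinuousAt (fun p => h⁻¹.mulVec (v (q (i p)))) p₀ := by
    have h1 : Continuous fun x : Fin (r + 1) → ℂ => h⁻¹.mulVec x := by fun_prop
    exact h1.continuousAt.comp (HolV.comp (h := fun z => v (q z))
      (HolV.comp (h := v) hv.hol (hq _)) (hi p₀)).continuousAt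
  set Cb : ℝ := ‖b (i p₀)‖ + 1 with hCb
  set Cu : ℝ := ‖u (i p₀) * W (q (i p₀))‖ + 1 with hCu
  set CM : ℝ := ‖h⁻¹.mulVec (v (q (i p₀)))‖ + 1 with hCM
  have hCb0 : 0 < Cb := by have := norm_nonneg (b (i p₀)); linarith
  have hCu0 : 0 < Cu := by have := norm_nonneg (u (i p₀) * W (q (i p₀))); linarith
  have hCM0 : 0 < CM := by have := norm_nonneg (h⁻¹.mulVec (v (q (i p₀)))); linarith
  have e1 : ∀ᶠ p in 𝓝 p₀, ‖b (i p)‖ < Cb := hbi.norm.eventually_lt_const (by linarith)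
  have e2 : ∀ᶠ p in 𝓝 p₀, ‖u (i p) * W (q (i p))‖ < Cu :=
    hui.norm.eventually_lt_const (by linarith)
  have e3 : ∀ᶠ p in 𝓝 p₀, ‖h⁻¹.mulVec (v (q (i p)))‖ < CM :=
    hvi.norm.eventually_lt_const (by linarith)
  have hform : ∀ D : Set X, ∃ C : ℝ, 0 < C ∧ (D ∈ Tf → ∀ (t : ℝ) (x : Fin (r + 1) → ℂ), 0 < t →
      t ≤ 1 → (∀ l, ‖x l‖ ≤ 2 * t ^ w l) →
      ‖form (fun J => fd.p a D J y) (h.mulVec x)‖ ≤ C * t ^ o D) := by
    intro D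
    by_cases hD : D ∈ Tf
    · obtain ⟨C, h1, h2⟩ := form_le (fun J => fd.p a D J y) h w (o D) (ho D hD)
      exact ⟨C, h1, fun _ => h2⟩
    · exact ⟨1, one_pos, fun h => absurd h hD⟩
  choose C hC0 hC using hform
  set Kf : ℝ := ∏ D ∈ Tf, ((2 * CM) ^ fd.deg D * C D) ^ k₀ D with hKf
  have hKf0 : 0 < Kf := Finset.prod_pos fun D _ => by have := hC0 D; positivity
  set S : ℝ := ∑ D ∈ Tf, Δ D * o D with hS
  have hSn : ((∑ D ∈ Tf, k₀ D * o D : ℕ) : ℝ) = m₀ * S := by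
    push_cast
    rw [hS, Finset.mul_sum]
    exact Finset.sum_congr rfl fun D _ => by rw [hk₀]; ring
  set C4 : ℝ := Cu * Kf with hC4
  have hC40 : 0 < C4 := mul_pos hCu0 hKf0
  refine ⟨Cb ^ (2 - 2 * s) * C4 ^ (2 * s / m₀), by positivity, ?_⟩
  filter_upwards [e1, e2, e3, hic.eventually hev, hqi.eventually hWe] with p h1 h2 h3 h4 h5 c t ht
    ht1 hx
  set x := c • h⁻¹.mulVec (v (q (i p))) with hxdef
  have hxl := fun l => PD_single hw (by norm_num : (1 / 2 : ℝ) ≤ 1) ht hx l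
  -- lower bound of `c`
  have hx1 : 1 / 2 ≤ ‖x l1‖ := by
    have := hx l1 (mem_univ l1)
    rw [mem_ball, hw, pow_zero, mul_one, Pi.single_eq_same, dist_eq_norm] at this
    have h6 : ‖(1 : ℂ)‖ ≤ ‖x l1‖ + ‖x l1 - 1‖ := by
      calc ‖(1 : ℂ)‖ = ‖x l1 - (x l1 - 1)‖ := by ring_nf
        _ ≤ ‖x l1‖ + ‖x l1 - 1‖ := norm_sub_le _ _
    rw [norm_one] at h6
    linarith
  have hx2 : ‖x l1‖ ≤ ‖c‖ * CM := by
    calc ‖x l1‖ ≤ ‖x‖ := norm_le_pi_norm x l1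
      _ = ‖c‖ * ‖h⁻¹.mulVec (v (q (i p)))‖ := by rw [hxdef, norm_smul]
      _ ≤ ‖c‖ * CM := mul_le_mul_of_nonneg_left h3.le (norm_nonneg _)
  have hcpos : 0 < ‖c‖ := by
    by_contra hcon
    have : ‖c‖ = 0 := le_antisymm (not_lt.1 hcon) (norm_nonneg _)
    rw [this, zero_mul] at hx2
    linarith
  have hc0 : c ≠ 0 := norm_pos_iff.1 hcpos
  have hcinv : ‖c‖⁻¹ ≤ 2 * CM := by
    rw [inv_le_comm₀ hcpos (by positivity)]
    rw [inv_le_iff_one_le_mul₀ (by positivity)]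
    nlinarith
  -- the forms
  have hhx : v (q (i p)) = c⁻¹ • h.mulVec x := by
    rw [hxdef, Matrix.mulVec_smul, Matrix.mulVec_mulVec, Matrix.mul_nonsing_inv _ hunit,
      Matrix.one_mulVec, smul_smul, inv_mul_cancel₀ hc0, one_smul]
  have hfb : ∀ D ∈ Tf, ‖form (fun J => fd.p a D J y) (v (q (i p)))‖ ≤
      (2 * CM) ^ fd.deg D * C D * t ^ o D := by
    intro D hD
    rw [hhx, form_smul, norm_mul, norm_pow, norm_inv, mul_assoc]
    exact mul_le_mul (pow_le_pow_left₀ (by positivity) hcinv _) (hC D hD t x ht ht1 hxl)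
      (norm_nonneg _) (by positivity)
  have hprodf : ‖∏ D ∈ Tf, form (fun J => fd.p a D J y) (v (q (i p))) ^ k₀ D‖ ≤
      Kf * t ^ (∑ D ∈ Tf, k₀ D * o D) := by
    rw [norm_prod, hKf, ← Finset.prod_pow_eq_pow_sum, ← Finset.prod_mul_distrib]
    refine Finset.prod_le_prod (fun _ _ => norm_nonneg _) fun D hD => ?_
    rw [norm_pow]
    calc ‖form (fun J => fd.p a D J y) (v (q (i p)))‖ ^ k₀ D
        ≤ ((2 * CM) ^ fd.deg D * C D * t ^ o D) ^ k₀ D :=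
          pow_le_pow_left₀ (norm_nonneg _) (hfb D hD) _
      _ = ((2 * CM) ^ fd.deg D * C D) ^ k₀ D * t ^ (k₀ D * o D) := by
          rw [mul_pow, ← pow_mul, mul_comm (o D)]
  have hmain : ‖b (i p)‖ ^ m₀ * ∏ D ∈ T', ‖g' D (i p)‖ ^ k₀' D ≤ C4 * t ^ ((m₀ : ℝ) * S) := by
    have h6 : ‖b (i p)‖ ^ m₀ * ∏ D ∈ T', ‖g' D (i p)‖ ^ k₀' D =
        ‖u (i p) * W (q (i p))‖ * ‖∏ D ∈ Tf, form (fun J => fd.p a D J y) (v (q (i p))) ^ k₀ D‖ := by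
      have h7 := congrArg norm h4
      rw [h5, norm_mul, norm_pow, norm_prod] at h7
      simp only [norm_pow] at h7
      rw [h7, ← norm_mul, mul_assoc]
      simp only [hfi]
    rw [h6, ← hSn, Real.rpow_natCast, hC4, mul_assoc]
    exact mul_le_mul h2.le hprodf (norm_nonneg _) hCu0.le
  -- in `ℝ≥0∞`
  set β := ‖b (i p)‖ₑ with hβ
  have hE1 : β ^ m₀ * ∏ D ∈ T', ‖g' D (i p)‖ₑ ^ k₀' D ≤ ENNReal.ofReal (C4 * t ^ ((m₀ : ℝ) * S)) := by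
    have h6 := ENNReal.ofReal_le_ofReal hmain
    rw [ENNReal.ofReal_mul (by positivity), ENNReal.ofReal_pow (norm_nonneg _),
      ENNReal.ofReal_prod_of_nonneg fun D _ => by positivity] at h6
    simp only [ENNReal.ofReal_pow (norm_nonneg _), ofReal_norm_eq_enorm] at h6
    exact h6
  have hθ0 : 0 ≤ 2 * s / (m₀ : ℝ) := by positivity
  have hE2 := ENNReal.rpow_le_rpow hE1 hθ0
  rw [ENNReal.mul_rpow_of_nonneg _ _ hθ0, ← ENNReal.prod_rpow_of_nonneg hθ0,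
    ENNReal.ofReal_rpow_of_pos (by positivity)] at hE2
  have hβ2 : (β ^ m₀) ^ (2 * s / (m₀ : ℝ)) = β ^ (2 * s) := by
    rw [← ENNReal.rpow_natCast, ← ENNReal.rpow_mul]
    congr 1
    field_simp
  have hG2 : ∏ D ∈ T', (‖g' D (i p)‖ₑ ^ k₀' D) ^ (2 * s / (m₀ : ℝ)) =
      ∏ D ∈ T'.filter (fun D => k₀' D ≠ 0), ‖g' D (i p)‖ₑ ^ (2 * (s * Δ' D)) := by
    rw [Finset.prod_filter]
    refine Finset.prod_congr rfl fun D _ => ?_
    by_cases hk : k₀' D = 0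
    · simp [hk]
    · rw [if_pos hk, ← ENNReal.rpow_natCast, ← ENNReal.rpow_mul, hk₀']
      congr 1
      field_simp
  have hR2 : (C4 * t ^ ((m₀ : ℝ) * S)) ^ (2 * s / (m₀ : ℝ)) =
      C4 ^ (2 * s / m₀) * t ^ (2 * s * S) := by
    rw [Real.mul_rpow hC40.le (by positivity), ← Real.rpow_mul ht.le]
    congr 2
    field_simp
  rw [hβ2, hG2, hR2] at hE2
  have hβ3 : β ^ (2 : ℝ) ≤ ENNReal.ofReal (Cb ^ (2 - 2 * s)) * β ^ (2 * s) := by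
    have h6 : β ^ (2 : ℝ) = β ^ (2 - 2 * s) * β ^ (2 * s) := by
      rw [← ENNReal.rpow_add_of_nonneg _ _ (by linarith) (by linarith)]
      congr 1
      ring
    rw [h6]
    refine mul_le_mul_left ?_ _
    rw [← ENNReal.ofReal_rpow_of_pos hCb0]
    refine ENNReal.rpow_le_rpow ?_ (by linarith)
    rw [hβ, ← ofReal_norm_eq_enorm]
    exact ENNReal.ofReal_le_ofReal h1.le
  set Pr := ∏ D ∈ T'.filter (fun D => k₀' D ≠ 0), ‖g' D (i p)‖ₑ ^ (2 * (s * Δ' D)) with hPr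
  have hinv : ∏ D ∈ T'.filter (fun D => k₀' D ≠ 0), ‖g' D (i p)‖ₑ ^ (-(2 * (s * Δ' D))) = Pr⁻¹ := by
    have hne : ∀ D : Set X', ‖g' D (i p)‖ₑ ^ (2 * (s * Δ' D)) ≠ ⊤ := fun D =>
      ENNReal.rpow_ne_top_of_nonneg (by have := hΔ0' D; positivity) enorm_ne_top
    rw [hPr, ENNReal.prod_inv_distrib fun D _ D' _ _ => Or.inr (hne D')]
    exact Finset.prod_congr rfl fun D _ => ENNReal.rpow_neg _ _
  rw [hinv, ← div_eq_mul_inv]
  have hpos : 0 < Cb ^ (2 - 2 * s) * C4 ^ (2 * s / m₀) * t ^ (2 * s * S) := by positivity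
  rw [ENNReal.le_div_iff_mul_le (Or.inr (by
      rw [Ne, ENNReal.ofReal_eq_zero, not_le]; exact hpos)) (Or.inr ENNReal.ofReal_ne_top)]
  calc β ^ (2 : ℝ) * Pr ≤ ENNReal.ofReal (Cb ^ (2 - 2 * s)) * β ^ (2 * s) * Pr :=
        mul_le_mul_left hβ3 _
    _ = ENNReal.ofReal (Cb ^ (2 - 2 * s)) * (β ^ (2 * s) * Pr) := mul_assoc _ _ _
    _ ≤ ENNReal.ofReal (Cb ^ (2 - 2 * s)) *
        ENNReal.ofReal (C4 ^ (2 * s / m₀) * t ^ (2 * s * S)) := mul_le_mul_right hE2 _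
    _ = ENNReal.ofReal (Cb ^ (2 - 2 * s) * C4 ^ (2 * s / m₀) * t ^ (2 * s * S)) := by
        rw [← ENNReal.ofReal_mul (by positivity), ← mul_assoc (Cb ^ (2 - 2 * s))]

/-- the image of a neighbourhood in the cone has small volume in the weighted polydiscs. -/
theorem local_vol (fd : FormData B {D | Δ D ≠ 0}) {Tf : Finset (Set X)}
    (hTf : ∀ D, D ∈ Tf ↔ Δ D ≠ 0) {Δ' : Set X' → ℝ} (hΔ' : IsBdry E Δ')
    {m₀ : ℕ} {k₀' : Set X' → ℕ} {k₀ : Set X → ℕ} (hm₀ : 0 < m₀)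
    (hk₀' : ∀ D, (k₀' D : ℝ) = m₀ * Δ' D) (hk₀ : ∀ D, (k₀ D : ℝ) = m₀ * Δ D)
    (e : (E × ℂ) ≃L[ℂ] (E' × (Fin (r + 1) → ℂ)))
    (e₀ : (E₀ × ℂ) ≃L[ℂ] (Fin (r + 1) → ℂ)) (hfc : ContMDiff 𝓘(ℂ, E) 𝓘(ℂ, E') ω f)
    (hq : ∀ x, HolM E E q x) (hi : ∀ p, HolM E₀ E i p) (hya : y ∈ B.U a)
    (hfi : ∀ p, f (q (i p)) = y) {p₀ : F} {u : X' → ℂ} (hlog : LogAt E q m₀ k₀' k₀ (i p₀) u)
    (hsub : Function.Surjective ((dM E E' f (q (i p₀))).comp (dM E E q (i p₀))))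
    (himm : Function.Injective (dM E₀ E i p₀)) (htr : TrAt E E₀ i Δ' p₀)
    {h : Matrix (Fin (r + 1)) (Fin (r + 1)) ℂ} (hh : h.det ≠ 0)
    {w : Fin (r + 1) → ℕ} {l1 : Fin (r + 1)} (hw : w l1 = 0) {o : Set X → ℕ}
    (ho : ∀ D ∈ Tf, ∀ J, GIT.act (GIT.sym (fun J => fd.p a D J y)) h J ≠ 0 →
      o D ≤ ∑ s, w (J s))
    {v : X → Fin (r + 1) → ℂ} (hv : IsLift E f (B.π a) v (q (i p₀))) {s : ℝ} (hs0 : 0 < s)
    (hs1 : s < 1) (c₀ : ℂ) :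
    ∃ V ∈ 𝓝 p₀, ∃ K ∈ 𝓝 c₀, ∃ C : ℝ, 0 ≤ C ∧ ∀ t : ℝ, 0 < t → t ≤ 1 →
      volume {x | x ∈ PD (Pi.single l1 1) w (1 / 2) t ∧
        ∃ p ∈ V, ∃ c ∈ K, x = c • h⁻¹.mulVec (v (q (i p)))} ≤
      ENNReal.ofReal (C * t ^ (2 * s * ∑ D ∈ Tf, Δ D * o D)) := by
  classical
  have hf : ∀ x, HolM E E' f x := fun x => hfc x
  obtain ⟨T', g', T₁, g, b, hT', hg', hT₁, hg, hb, hu, hev⟩ := hlog
  have hΔ0' : ∀ D, 0 ≤ Δ' D := by
    intro D
    obtain ⟨q, hq, h0, h1⟩ := hΔ'.rational D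
    rw [hq]
    exact_mod_cast h0
  obtain ⟨Cb, hCb0, hCb⟩ := b_bound fd hTf hΔ0' hm₀ hk₀' hk₀ hq hi hya hfi hT₁ hg hb hu
    (hev.mono fun z hz => hz.2) hh hw ho hv hs0 hs1
  have hjne : J e f v (q (i p₀)) ≠ 0 :=
    (J_ne_zero e hfc (B.triv a) (by rw [hfi]; exact hya) hv).1
  obtain ⟨η, hη, hη0, hηe⟩ := adj e e₀ (f := f) (q := q) (i := i) (v := v) (b := b) (p₀ := p₀)
    hf hq hi hv.hol hjne hb (hev.mono fun z hz => hz.1) (fun p => by rw [hfi, hfi]) hsub himm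
  set T2 := T'.filter (fun D => k₀' D ≠ 0) with hT2
  have hT2Δ : ∀ D ∈ T2, Δ' D ≠ 0 := by
    intro D hD h0
    rw [hT2, Finset.mem_filter] at hD
    apply hD.2
    have := hk₀' D
    rw [h0, mul_zero] at this
    exact_mod_cast this
  obtain ⟨N, hN, hI⟩ := pull_int (T := T2) e₀ hi hΔ' htr hT2Δ g'
    (fun D hD => hg' D (Finset.mem_filter.1 hD).1) c₀ hs0 hs1
  set φ := chartAt E₀ p₀ with hφ
  have hp₀ : p₀ ∈ φ.source := mem_chart_source E₀ p₀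
  set X₀ := e₀ (φ p₀, c₀) with hX₀
  set Yf : (Fin (r + 1) → ℂ) → ℝ≥0∞ := fun x =>
    ∏ D ∈ T2, ‖g' D (i (φ.symm (e₀.symm x).1))‖ₑ ^ (-(2 * (s * Δ' D))) with hYf
  let Hm : (Fin (r + 1) → ℂ) →L[ℂ] (Fin (r + 1) → ℂ) :=
    LinearMap.toContinuousLinearMap (Matrix.mulVecLin h⁻¹)
  set uu : F → (Fin (r + 1) → ℂ) := fun p => v (q (i p)) with huu
  have huuh : HolV E₀ uu p₀ :=
    HolV.comp (h := fun z => v (q z)) (HolV.comp (h := v) hv.hol (hq _)) (hi p₀)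
  set Ψ := Psi e₀ Hm uu p₀ with hΨ
  -- conditions near `p₀`
  have hpev : ∀ᶠ p in 𝓝 p₀, p ∈ φ.source ∧ HolV E₀ uu p ∧
      J0 e₀ uu p = η p * b (i p) * jac E₀ φ p ∧ ‖η p‖ < ‖η p₀‖ + 1 ∧
      (∀ (c : ℂ) (t : ℝ), 0 < t → t ≤ 1 →
      c • h⁻¹.mulVec (v (q (i p))) ∈ PD (Pi.single l1 1) w (1 / 2) t →
      ‖b (i p)‖ₑ ^ (2 : ℝ) ≤ ENNReal.ofReal (Cb * t ^ (2 * s * ∑ D ∈ Tf, Δ D * o D)) *
        ∏ D ∈ T2, ‖g' D (i p)‖ₑ ^ (-(2 * (s * Δ' D)))) := by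
    filter_upwards [φ.open_source.mem_nhds hp₀, huuh.eventually, hηe,
      hη.continuousAt.norm.eventually_lt_const (show ‖η p₀‖ < ‖η p₀‖ + 1 by linarith), hCb]
      with p h1 h2 h3 h4 h5
    exact ⟨h1, h2, h3, h4, h5⟩
  have htend : Tendsto (fun x => φ.symm (e₀.symm x).1) (𝓝 X₀) (𝓝 p₀) := by
    have h1 : Tendsto (fun x => (e₀.symm x).1) (𝓝 X₀) (𝓝 (φ p₀)) := by
      have : Continuous fun x => (e₀.symm x).1 := by fun_prop
      have h2 := this.tendsto X₀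
      rwa [hX₀, e₀.symm_apply_apply] at h2
    have h2 := (φ.continuousAt_symm (φ.map_source hp₀)).tendsto
    rw [φ.left_inv hp₀] at h2
    exact h2.comp h1
  have hxev := htend.eventually hpev
  have htg : ∀ᶠ x in 𝓝 X₀, (e₀.symm x).1 ∈ φ.target := by
    have h1 : Continuous fun x => (e₀.symm x).1 := by fun_prop
    refine h1.continuousAt.eventually ?_
    show ∀ᶠ y in 𝓝 ((e₀.symm X₀).1), y ∈ φ.target
    rw [hX₀, e₀.symm_apply_apply]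
    exact φ.open_target.mem_nhds (φ.map_source hp₀)
  have hcev : ∀ᶠ x in 𝓝 X₀, ‖(e₀.symm x).2‖ < ‖c₀‖ + 1 := by
    have h1 : Continuous fun x => ‖(e₀.symm x).2‖ := by fun_prop
    refine h1.continuousAt.eventually_lt_const ?_
    show ‖(e₀.symm X₀).2‖ < ‖c₀‖ + 1
    rw [hX₀, e₀.symm_apply_apply]
    linarith
  obtain ⟨ρ, hρ, hball⟩ := Metric.eventually_nhds_iff_ball.1
    ((hxev.and htg).and (hcev.and hN))
  set Cd : ℝ := ‖Hm.det‖ * ((‖c₀‖ + 1) ^ (Module.finrank ℂ E₀) * (‖η p₀‖ + 1)) with hCd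
  have hCd0 : 0 ≤ Cd := by positivity
  -- the derivative
  have hder : ∀ x ∈ ball X₀ ρ, ∃ A : (Fin (r + 1) → ℂ) →L[ℂ] (Fin (r + 1) → ℂ),
      HasFDerivAt Ψ A x ∧ ‖A.det‖ ≤ Cd * ‖b (i (φ.symm (e₀.symm x).1))‖ := by
    intro x hx
    obtain ⟨⟨⟨h1, h2, h3, h4, h5⟩, h6⟩, h7, h8⟩ := hball x hx
    set p := φ.symm (e₀.symm x).1 with hp
    obtain ⟨A, hA1, hA2⟩ := psi_det e₀ Hm h1 h2 (e₀.symm x).2
    have hxe : e₀ (chartAt E₀ p₀ p, (e₀.symm x).2) = x := by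
      rw [hp, ← hφ, φ.right_inv h6]
      simp
    rw [hxe] at hA1
    refine ⟨A, hA1, ?_⟩
    have hj : jac E₀ φ p ≠ 0 := jac_chart_ne_zero h1
    have h9 : A.det = Hm.det * ((e₀.symm x).2 ^ (Module.finrank ℂ E₀) * (η p * b (i p))) := by
      refine mul_right_cancel₀ hj ?_
      rw [hA2, h3]; ring
    rw [h9, norm_mul, norm_mul, norm_mul, norm_pow, hCd]
    have h10 : ‖(e₀.symm x).2‖ ^ (Module.finrank ℂ E₀) ≤ (‖c₀‖ + 1) ^ (Module.finrank ℂ E₀) :=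
      pow_le_pow_left₀ (norm_nonneg _) h7.le _
    calc ‖Hm.det‖ * (‖(e₀.symm x).2‖ ^ (Module.finrank ℂ E₀) * (‖η p‖ * ‖b (i p)‖))
        ≤ ‖Hm.det‖ * ((‖c₀‖ + 1) ^ (Module.finrank ℂ E₀) * ((‖η p₀‖ + 1) * ‖b (i p)‖)) := by
          gcongr
      _ = _ := by ring
  choose! A hA1 hA2 using hder
  have hΨc : ContinuousOn Ψ (ball X₀ ρ) := fun x hx => (hA1 x hx).continuousAt.continuousWithinAt
  have hPDo : ∀ t : ℝ, IsOpen (PD (Pi.single l1 1) w (1 / 2) t : Set (Fin (r + 1) → ℂ)) := fun t =>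
    isOpen_set_pi finite_univ fun l _ => isOpen_ball
  have hI' : ∫⁻ x in ball X₀ ρ, Yf x ≠ ⊤ :=
    ne_top_of_le_ne_top hI (lintegral_mono_set fun x hx => (hball x hx).2.2)
  -- the neighbourhoods
  have hprod : {pc : F × ℂ | pc.1 ∈ φ.source ∧ e₀ (φ pc.1, pc.2) ∈ ball X₀ ρ} ∈ 𝓝 (p₀, c₀) := by
    have h1 : ContinuousAt (fun pc : F × ℂ => e₀ (φ pc.1, pc.2)) (p₀, c₀) := by
      refine e₀.continuous.continuousAt.comp ?_
      refine ContinuousAt.prodMk ?_ continuousAt_snd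
      exact ContinuousAt.comp (g := φ) (f := Prod.fst) (φ.continuousAt hp₀) continuousAt_fst
    have h2 : ∀ᶠ pc : F × ℂ in 𝓝 (p₀, c₀), pc.1 ∈ φ.source :=
      continuousAt_fst.eventually (φ.open_source.mem_nhds hp₀)
    exact h2.and (h1.eventually (ball_mem_nhds _ hρ))
  obtain ⟨V, hV, K, hK, hVK⟩ := mem_nhds_prod_iff.1 hprod
  refine ⟨V, hV, K, hK, Cd ^ 2 * Cb * (∫⁻ x in ball X₀ ρ, Yf x).toReal, by positivity, ?_⟩
  intro t ht ht1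
  set At := ball X₀ ρ ∩ Ψ ⁻¹' (PD (Pi.single l1 1) w (1 / 2) t) with hAt
  have hAto : IsOpen At := hΨc.isOpen_inter_preimage isOpen_ball (hPDo t)
  have hsubset : {x | x ∈ PD (Pi.single l1 1) w (1 / 2) t ∧
        ∃ p ∈ V, ∃ c ∈ K, x = c • h⁻¹.mulVec (v (q (i p)))} ⊆ Ψ '' At := by
    rintro x ⟨hx, p, hp, c, hc, rfl⟩
    obtain ⟨h1, h2⟩ := hVK (mk_mem_prod hp hc)
    have h3 : Ψ (e₀ (φ p, c)) = c • h⁻¹.mulVec (v (q (i p))) := by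
      rw [hΨ]
      unfold Psi
      rw [e₀.symm_apply_apply]
      simp only [← hφ, φ.left_inv h1]
      rfl
    exact ⟨e₀ (φ p, c), ⟨h2, by rw [mem_preimage, h3]; exact hx⟩, h3⟩
  refine (measure_mono hsubset).trans ?_
  have h1 : volume (Ψ '' At) ≤ ∫⁻ x in At, ENNReal.ofReal |((A x).restrictScalars ℝ).det| :=
    addHaar_image_le_lintegral_abs_det_fderiv volume hAto.measurableSet
      (f' := fun x => (A x).restrictScalars ℝ) fun x hx =>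
        ((hA1 x hx.1).restrictScalars ℝ).hasFDerivWithinAt
  refine h1.trans ?_
  have h2 : ∫⁻ x in At, ENNReal.ofReal |((A x).restrictScalars ℝ).det| ≤
      ∫⁻ x in At, ENNReal.ofReal (Cd ^ 2 * (Cb * t ^ (2 * s * ∑ D ∈ Tf, Δ D * o D))) * Yf x := by
    refine setLIntegral_mono' hAto.measurableSet fun x hx => ?_
    rw [det_real, abs_of_nonneg (by positivity)]
    obtain ⟨⟨⟨h3, h4, h5, h6, h7⟩, h8⟩, h9, h10⟩ := hball x hx.1
    have h11 := h7 (e₀.symm x).2 t ht ht1 hx.2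
    calc ENNReal.ofReal (‖(A x).det‖ ^ 2)
        ≤ ENNReal.ofReal (Cd ^ 2 * ‖b (i (φ.symm (e₀.symm x).1))‖ ^ 2) := by
          refine ENNReal.ofReal_le_ofReal ?_
          rw [← mul_pow]
          exact pow_le_pow_left₀ (norm_nonneg _) (hA2 x hx.1) 2
      _ = ENNReal.ofReal (Cd ^ 2) * ‖b (i (φ.symm (e₀.symm x).1))‖ₑ ^ (2 : ℝ) := by
          rw [ENNReal.ofReal_mul (by positivity), ENNReal.ofReal_pow (norm_nonneg _),
            ofReal_norm_eq_enorm, ← ENNReal.rpow_natCast]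
          norm_num
      _ ≤ ENNReal.ofReal (Cd ^ 2) * (ENNReal.ofReal (Cb * t ^ (2 * s * ∑ D ∈ Tf, Δ D * o D)) *
            Yf x) := mul_le_mul_right h11 _
      _ = _ := by
          rw [← mul_assoc, ← ENNReal.ofReal_mul (by positivity)]
  refine h2.trans ?_
  rw [lintegral_const_mul' _ _ ENNReal.ofReal_ne_top]
  have h3 : ∫⁻ x in At, Yf x ≤ ENNReal.ofReal (∫⁻ x in ball X₀ ρ, Yf x).toReal := by
    rw [ENNReal.ofReal_toReal hI']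
    exact lintegral_mono_set inter_subset_left
  refine (mul_le_mul_right h3 _).trans ?_
  rw [← ENNReal.ofReal_mul (by positivity)]
  refine ENNReal.ofReal_le_ofReal (le_of_eq ?_)
  ring

end LL

end Vale.Agent.P281.H76.S
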